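import Vale.Agent.P218VA.Chg
import Mathlib.MeasureTheory.Integral.IntervalIntegral.FundThmCalculus
import Mathlib.MeasureTheory.Integral.IntegralEqImproper
import Mathlib.MeasureTheory.Integral.Prod

/-!
# The first variation formula on periodic strips
-/

open scoped Matrix Topology Real
open Complex Filter Set MeasureTheory

noncomputable section

namespace Vale.Agent.P218VA

/-- `V1`, `V2` are the partial derivatives of the periodic function `V` on the strip over `I`. -/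
structure Jet1 {F : Type*} [NormedAddCommGroup F] [NormedSpace ℝ F] (I : Set ℝ)
    (V V1 V2 : ℝ × ℝ → F) : Prop where
  c0 : ContinuousOn V (I ×ˢ univ)
  c1 : ContinuousOn V1 (I ×ˢ univ)
  c2 : ContinuousOn V2 (I ×ˢ univ)
  dw : ∀ w ∈ interior I, ∀ θ, HasDerivAt (fun s => V (s, θ)) (V1 (w, θ)) w
  dθ : ∀ w ∈ I, ∀ θ, HasDerivAt (fun t => V (w, t)) (V2 (w, θ)) θ
  per : ∀ w ∈ I, ∀ θ, V (w, θ + 2 * π) = V (w, θ)

/-- a periodic function on a strip with its partial derivatives of order at most two -/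
structure Jet2 {F : Type*} [NormedAddCommGroup F] [NormedSpace ℝ F] (I : Set ℝ)
    (X a b aa ab bb : ℝ × ℝ → F) : Prop where
  j0 : Jet1 I X a b
  j1 : Jet1 I a aa ab
  j2 : Jet1 I b ab bb

section jet
variable {F : Type*} [NormedAddCommGroup F] [NormedSpace ℝ F] {I J : Set ℝ}
  {V V1 V2 U U1 U2 : ℝ × ℝ → F}

lemma Jet1.mono (h : Jet1 I V V1 V2) (hJ : J ⊆ I) : Jet1 J V V1 V2 where
  c0 := h.c0.mono (prod_mono hJ le_rfl)
  c1 := h.c1.mono (prod_mono hJ le_rfl)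
  c2 := h.c2.mono (prod_mono hJ le_rfl)
  dw w hw := h.dw w (interior_mono hJ hw)
  dθ w hw := h.dθ w (hJ hw)
  per w hw := h.per w (hJ hw)

lemma Jet2.mono {X a b aa ab bb : ℝ × ℝ → F} (h : Jet2 I X a b aa ab bb) (hJ : J ⊆ I) :
    Jet2 J X a b aa ab bb := ⟨h.j0.mono hJ, h.j1.mono hJ, h.j2.mono hJ⟩

lemma Jet1.add (h : Jet1 I V V1 V2) (h' : Jet1 I U U1 U2) :
    Jet1 I (fun p => V p + U p) (fun p => V1 p + U1 p) (fun p => V2 p + U2 p) where
  c0 := h.c0.add h'.c0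
  c1 := h.c1.add h'.c1
  c2 := h.c2.add h'.c2
  dw w hw θ := (h.dw w hw θ).add (h'.dw w hw θ)
  dθ w hw θ := (h.dθ w hw θ).add (h'.dθ w hw θ)
  per w hw θ := by rw [h.per w hw, h'.per w hw]

lemma Jet1.sub (h : Jet1 I V V1 V2) (h' : Jet1 I U U1 U2) :
    Jet1 I (fun p => V p - U p) (fun p => V1 p - U1 p) (fun p => V2 p - U2 p) where
  c0 := h.c0.sub h'.c0
  c1 := h.c1.sub h'.c1
  c2 := h.c2.sub h'.c2
  dw w hw θ := (h.dw w hw θ).sub (h'.dw w hw θ)
  dθ w hw θ := (h.dθ w hw θ).sub (h'.dθ w hw θ)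
  per w hw θ := by rw [h.per w hw, h'.per w hw]

/-- multiplication by a function of the height -/
lemma Jet1.smul_height {V V1 V2 : ℝ × ℝ → C3} (h : Jet1 I V V1 V2) {c c' : ℝ → ℂ}
    (hc : ∀ w, HasDerivAt c (c' w) w) (hc' : Continuous c') :
    Jet1 I (fun p => c p.1 • V p) (fun p => c p.1 • V1 p + c' p.1 • V p)
      (fun p => c p.1 • V2 p + (0 : ℂ) • V p) := by
  have k0 : Continuous c := continuous_iff_continuousAt.2 fun w => (hc w).continuousAt
  have k1 : ContinuousOn (fun p : ℝ × ℝ => c p.1) (I ×ˢ univ) :=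
    (k0.comp continuous_fst).continuousOn
  have k2 : ContinuousOn (fun p : ℝ × ℝ => c' p.1) (I ×ˢ univ) :=
    (hc'.comp continuous_fst).continuousOn
  exact
    { c0 := k1.smul h.c0
      c1 := (k1.smul h.c1).add (k2.smul h.c0)
      c2 := (k1.smul h.c2).add ((continuousOn_const (c := (0 : ℂ))).smul h.c0)
      dw := fun w hw θ => (hc w).smul (h.dw w hw θ)
      dθ := fun w hw θ => by
        rw [zero_smul, add_zero]
        exact (h.dθ w hw θ).const_smul (c w)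
      per := fun w hw θ => by simp only [h.per w hw] }

lemma Jet1.cθ (h : Jet1 I V V1 V2) {w : ℝ} (hw : w ∈ I) : Continuous fun θ => V (w, θ) :=
  continuous_iff_continuousAt.2 fun θ => (h.dθ w hw θ).continuousAt

end jet

lemma continuous_slice {G : Type*} [TopologicalSpace G] {I : Set ℝ} {f : ℝ × ℝ → G}
    (hf : ContinuousOn f (I ×ˢ univ)) {w : ℝ} (hw : w ∈ I) : Continuous fun θ => f (w, θ) :=
  hf.comp_continuous (by fun_prop) fun θ => ⟨hw, mem_univ θ⟩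

lemma continuousOn_slice {G : Type*} [TopologicalSpace G] {I : Set ℝ} {f : ℝ × ℝ → G}
    (hf : ContinuousOn f (I ×ˢ univ)) (θ : ℝ) : ContinuousOn (fun w => f (w, θ)) I :=
  hf.comp (by fun_prop) fun w hw => ⟨hw, mem_univ θ⟩

/-- a fundamental domain of the strip over `I` -/
def fd (I : Set ℝ) : Set (ℝ × ℝ) := I ×ˢ Ioc 0 (2 * π)

lemma measurableSet_fd {I : Set ℝ} (hI : MeasurableSet I) : MeasurableSet (fd I) :=
  hI.prod measurableSet_Ioc

lemma fd_subset {I J : Set ℝ} (h : I ⊆ J) : fd I ⊆ J ×ˢ univ := prod_mono h (subset_univ _)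

lemma integrableOn_fd {α β : ℝ} {f : ℝ × ℝ → ℂ} (hf : ContinuousOn f (Icc α β ×ˢ univ)) :
    IntegrableOn f (fd (Ioc α β)) := by
  have h1 : IntegrableOn f (Icc α β ×ˢ Icc 0 (2 * π)) :=
    (hf.mono (prod_mono le_rfl (subset_univ _))).integrableOn_compact
      (isCompact_Icc.prod isCompact_Icc)
  exact h1.mono_set (prod_mono Ioc_subset_Icc_self Ioc_subset_Icc_self)

lemma integral_fd {I : Set ℝ} {f : ℝ × ℝ → ℂ} (hf : IntegrableOn f (fd I)) :
    ∫ p in fd I, f p = ∫ w in I, ∫ θ in (0 : ℝ)..2 * π, f (w, θ) := by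
  simp only [intervalIntegral.integral_of_le Real.two_pi_pos.le]
  exact setIntegral_prod f hf

lemma integral_fd_swap {I : Set ℝ} {f : ℝ × ℝ → ℂ} (hf : IntegrableOn f (fd I)) :
    ∫ p in fd I, f p = ∫ θ in (0 : ℝ)..2 * π, ∫ w in I, f (w, θ) := by
  rw [intervalIntegral.integral_of_le Real.two_pi_pos.le]
  unfold fd at hf ⊢
  rw [IntegrableOn, Measure.volume_eq_prod, ← Measure.prod_restrict] at hf
  rw [Measure.volume_eq_prod, ← Measure.prod_restrict]
  exact integral_prod_symm f hf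

lemma integral_fd_dθ {α β : ℝ} {m n : ℝ × ℝ → ℂ} (hn : ContinuousOn n (Icc α β ×ˢ univ))
    (hd : ∀ w ∈ Icc α β, ∀ θ, HasDerivAt (fun t => m (w, t)) (n (w, θ)) θ)
    (hp : ∀ w ∈ Icc α β, m (w, 2 * π) = m (w, 0)) : ∫ p in fd (Ioc α β), n p = 0 := by
  rw [integral_fd (integrableOn_fd hn)]
  refine setIntegral_eq_zero_of_forall_eq_zero fun w hw => ?_
  have hw' := Ioc_subset_Icc_self hw
  rw [intervalIntegral.integral_eq_sub_of_hasDerivAt (fun θ _ => hd w hw' θ)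
    ((continuous_slice hn hw').intervalIntegrable _ _), hp w hw', sub_self]

lemma integral_fd_dw {α β : ℝ} (hab : α ≤ β) {m n : ℝ × ℝ → ℂ}
    (hm : ContinuousOn m (Icc α β ×ˢ univ)) (hn : ContinuousOn n (Icc α β ×ˢ univ))
    (hd : ∀ w ∈ Ioo α β, ∀ θ, HasDerivAt (fun s => m (s, θ)) (n (w, θ)) w) :
    ∫ p in fd (Ioc α β), n p =
      (∫ θ in (0 : ℝ)..2 * π, m (β, θ)) - ∫ θ in (0 : ℝ)..2 * π, m (α, θ) := by
  rw [integral_fd_swap (integrableOn_fd hn), ← intervalIntegral.integral_sub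
    ((continuous_slice hm (right_mem_Icc.2 hab)).intervalIntegrable _ _)
    ((continuous_slice hm (left_mem_Icc.2 hab)).intervalIntegrable _ _)]
  refine intervalIntegral.integral_congr fun θ _ => ?_
  rw [← intervalIntegral.integral_of_le hab]
  exact intervalIntegral.integral_eq_sub_of_hasDerivAt_of_le hab (continuousOn_slice hm θ)
    (fun w hw => hd w hw θ) ((continuousOn_slice hn θ).intervalIntegrable_of_Icc hab)

variable {X a b aa ab bb V V1 V2 : ℝ × ℝ → C3}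

/-- The first variation formula on a bounded strip. -/
theorem strip_variation {α β : ℝ} (hab : α ≤ β) (hX : Jet2 (Icc α β) X a b aa ab bb)
    (hV : Jet1 (Icc α β) V V1 V2) (hg : ∀ p ∈ Icc α β ×ˢ univ, gram (a p) (b p) ∈ slitPlane) :
    ∫ p in fd (Ioc α β), dLag (X p) (a p) (b p) (V p) (V1 p) (V2 p) =
      (∫ p in fd (Ioc α β), EL (X p) (a p) (b p) (aa p) (ab p) (bb p) (V p)) +
        ((∫ θ in (0 : ℝ)..2 * π, mom1 (X (β, θ)) (a (β, θ)) (b (β, θ)) (V (β, θ))) -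
          ∫ θ in (0 : ℝ)..2 * π, mom1 (X (α, θ)) (a (α, θ)) (b (α, θ)) (V (α, θ))) := by
  have c1 := continuousOn_dmom1 hX.j0.c0 hX.j0.c1 hX.j0.c2 hV.c0 hX.j0.c1 hX.j1.c1 hX.j1.c2 hV.c1 hg
  have c2 := continuousOn_dmom2 hX.j0.c0 hX.j0.c1 hX.j0.c2 hV.c0 hX.j0.c2 hX.j1.c2 hX.j2.c2 hV.c2 hg
  have c3 := continuousOn_EL hX.j0.c0 hX.j0.c1 hX.j0.c2 hX.j1.c1 hX.j1.c2 hX.j2.c2 hV.c0 hg
  have k1 := integral_fd_dw hab (continuousOn_mom1 hX.j0.c0 hX.j0.c1 hX.j0.c2 hV.c0 hg) c1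
    (fun w hw θ => by
      have hw' : w ∈ interior (Icc α β) := by rwa [interior_Icc]
      exact hasDerivAt_mom1 (hX.j0.dw w hw' θ) (hX.j1.dw w hw' θ) (hX.j2.dw w hw' θ)
        (hV.dw w hw' θ) (hg _ ⟨Ioo_subset_Icc_self hw, mem_univ θ⟩))
  have k2 := integral_fd_dθ (m := fun p => mom2 (X p) (a p) (b p) (V p)) c2
    (fun w hw θ => hasDerivAt_mom2 (hX.j0.dθ w hw θ) (hX.j1.dθ w hw θ) (hX.j2.dθ w hw θ)
        (hV.dθ w hw θ) (hg _ ⟨hw, mem_univ θ⟩))
    (fun w hw => by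
      have e1 := hX.j0.per w hw 0
      have e2 := hX.j1.per w hw 0
      have e3 := hX.j2.per w hw 0
      have e4 := hV.per w hw 0
      rw [zero_add] at e1 e2 e3 e4
      simp only [e1, e2, e3, e4])
  have i1 := integrableOn_fd c1
  have i2 := integrableOn_fd c2
  have i3 := integrableOn_fd c3
  rw [← k1, setIntegral_congr_fun (measurableSet_fd measurableSet_Ioc) fun p hp =>
    dLag_eq (aa p) (ab p) (bb p) (V p) (V1 p) (V2 p)
      (slitPlane_ne_zero (hg p (fd_subset Ioc_subset_Icc_self hp)))]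
  have i4 : IntegrableOn (fun p => EL (X p) (a p) (b p) (aa p) (ab p) (bb p) (V p) +
    dmom1 (X p) (a p) (b p) (V p) (a p) (aa p) (ab p) (V1 p)) (fd (Ioc α β)) := i3.add i1
  rw [integral_add i4 i2, integral_add i3 i1, k2, add_zero]

lemma tendsto_integral_fd {α : ℝ} {f : ℝ × ℝ → ℂ} (hf : IntegrableOn f (fd (Ioi α))) :
    Tendsto (fun β => ∫ p in fd (Ioc α β), f p) atTop (𝓝 (∫ p in fd (Ioi α), f p)) := by
  have h1 : fd (Ioi α) = ⋃ β, fd (Ioc α β) := by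
    ext p
    simp only [fd, mem_prod, mem_Ioi, mem_iUnion, mem_Ioc]
    exact ⟨fun h => ⟨p.1, ⟨h.1, le_rfl⟩, h.2⟩, fun ⟨β, h⟩ => ⟨h.1.1, h.2⟩⟩
  rw [h1] at hf ⊢
  exact tendsto_setIntegral_of_monotone (fun β => measurableSet_fd measurableSet_Ioc)
    (fun β β' h => prod_mono (Ioc_subset_Ioc_right h) le_rfl) hf

/-- The first variation formula on an unbounded strip. -/
theorem strip_variation_inf {α : ℝ} (hX : Jet2 (Ici α) X a b aa ab bb)
    (hV : Jet1 (Ici α) V V1 V2) (hg : ∀ p ∈ Ici α ×ˢ univ, gram (a p) (b p) ∈ slitPlane)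
    (i1 : IntegrableOn (fun p => dLag (X p) (a p) (b p) (V p) (V1 p) (V2 p)) (fd (Ioi α)))
    (i2 : IntegrableOn (fun p => EL (X p) (a p) (b p) (aa p) (ab p) (bb p) (V p)) (fd (Ioi α)))
    (h0 : Tendsto (fun β => ∫ θ in (0 : ℝ)..2 * π,
      mom1 (X (β, θ)) (a (β, θ)) (b (β, θ)) (V (β, θ))) atTop (𝓝 0)) :
    ∫ p in fd (Ioi α), dLag (X p) (a p) (b p) (V p) (V1 p) (V2 p) =
      (∫ p in fd (Ioi α), EL (X p) (a p) (b p) (aa p) (ab p) (bb p) (V p)) -
          ∫ θ in (0 : ℝ)..2 * π, mom1 (X (α, θ)) (a (α, θ)) (b (α, θ)) (V (α, θ)) := by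
  have h1 := (tendsto_integral_fd i2).add (h0.sub_const
    (∫ θ in (0 : ℝ)..2 * π, mom1 (X (α, θ)) (a (α, θ)) (b (α, θ)) (V (α, θ))))
  rw [zero_sub, ← sub_eq_add_neg] at h1
  refine tendsto_nhds_unique (tendsto_integral_fd i1) (h1.congr' ?_)
  filter_upwards [eventually_ge_atTop α] with β hβ
  exact (strip_variation hβ (hX.mono Icc_subset_Ici_self) (hV.mono Icc_subset_Ici_self)
    fun p hp => hg p (prod_mono Icc_subset_Ici_self le_rfl hp)).symm

/-! ### Jets of smooth functions -/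

section smooth
variable {F : Type*} [NormedAddCommGroup F] [NormedSpace ℝ F] {Z : ℝ × ℝ → F}

lemma hasDerivAt_fst {w θ : ℝ} (h : DifferentiableAt ℝ Z (w, θ)) :
    HasDerivAt (fun s => Z (s, θ)) (pd Z (1, 0) (w, θ)) w :=
  h.hasFDerivAt.comp_hasDerivAt w ((hasDerivAt_id w).prodMk (hasDerivAt_const w θ))

lemma hasDerivAt_snd {w θ : ℝ} (h : DifferentiableAt ℝ Z (w, θ)) :
    HasDerivAt (fun t => Z (w, t)) (pd Z (0, 1) (w, θ)) θ :=
  h.hasFDerivAt.comp_hasDerivAt θ ((hasDerivAt_const θ w).prodMk (hasDerivAt_id θ))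

/-- the jets of a differentiable function are its directional derivatives -/
lemma Jet1.eq_pd {I : Set ℝ} {V V1 V2 : ℝ × ℝ → F} (h : Jet1 I V V1 V2) {p : ℝ × ℝ}
    (hp : p.1 ∈ interior I) (hZ : DifferentiableAt ℝ Z p) (he : ∀ᶠ q in 𝓝 p, Z q = V q) :
    pd Z (1, 0) p = V1 p ∧ pd Z (0, 1) p = V2 p := by
  obtain ⟨w, θ⟩ := p
  constructor
  · refine (hasDerivAt_fst hZ).unique ((h.dw w hp θ).congr_of_eventuallyEq ?_)
    exact (by fun_prop : ContinuousAt (fun s : ℝ => (s, θ)) w).eventually he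
  · refine (hasDerivAt_snd hZ).unique
      ((h.dθ w (interior_subset hp) θ).congr_of_eventuallyEq ?_)
    exact (by fun_prop : ContinuousAt (fun t : ℝ => (w, t)) θ).eventually he

lemma Jet2.eq_pd {I : Set ℝ} {X a b aa ab bb : ℝ × ℝ → F} (h : Jet2 I X a b aa ab bb) {p : ℝ × ℝ}
    (hp : p.1 ∈ interior I) (hZ : ContDiffAt ℝ 2 Z p) (he : ∀ᶠ q in 𝓝 p, Z q = X q) :
    pd Z (1, 0) p = a p ∧ pd Z (0, 1) p = b p ∧ pd (pd Z (1, 0)) (1, 0) p = aa p ∧
      pd (pd Z (1, 0)) (0, 1) p = ab p ∧ pd (pd Z (0, 1)) (0, 1) p = bb p := by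
  have e1 : ∀ᶠ q in 𝓝 p, pd Z (1, 0) q = a q ∧ pd Z (0, 1) q = b q := by
    filter_upwards [he.eventually_nhds, hZ.eventually (by simp),
      continuous_fst.continuousAt.eventually (isOpen_interior.mem_nhds hp)] with q h1 h2 h3
    exact h.j0.eq_pd h3 (h2.differentiableAt (by norm_num)) h1
  have e2 := h.j1.eq_pd hp (differentiableAt_pd hZ (1, 0)) (e1.mono fun q hq => hq.1)
  have e3 := h.j2.eq_pd hp (differentiableAt_pd hZ (0, 1)) (e1.mono fun q hq => hq.2)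
  exact ⟨e1.self_of_nhds.1, e1.self_of_nhds.2, e2.1, e2.2, e3.2⟩

lemma pd_periodic {I : Set ℝ} (hI : IsOpen I) (hp : ∀ w ∈ I, ∀ θ, Z (w, θ + 2 * π) = Z (w, θ))
    (v : ℝ × ℝ) {w : ℝ} (hw : w ∈ I) (θ : ℝ) : pd Z v (w, θ + 2 * π) = pd Z v (w, θ) := by
  have h1 : Z =ᶠ[𝓝 (w, θ)] fun q => Z (q + (0, 2 * π)) := by
    filter_upwards [continuous_fst.continuousAt.eventually (hI.mem_nhds (x := (w, θ).1) hw)]
      with q hq
    rw [← hp q.1 hq q.2]
    congr 1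
    ext <;> simp
  rw [pd_congr h1]
  unfold pd
  rw [fderiv_comp_add_right]
  simp

/-- a continuously differentiable periodic function has jets -/
lemma jet1_of_contDiff {I J : Set ℝ} (hI : I ⊆ J)
    (hZ : ∀ p ∈ J ×ˢ (univ : Set ℝ), ContDiffAt ℝ 1 Z p)
    (hp : ∀ w ∈ J, ∀ θ, Z (w, θ + 2 * π) = Z (w, θ)) :
    Jet1 I Z (pd Z (1, 0)) (pd Z (0, 1)) := by
  have hs : I ×ˢ (univ : Set ℝ) ⊆ J ×ˢ univ := prod_mono hI le_rfl
  exact
    { c0 := fun p hp => (hZ p (hs hp)).continuousAt.continuousWithinAt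
      c1 := (continuousOn_pd hZ _).mono hs
      c2 := (continuousOn_pd hZ _).mono hs
      dw := fun w hw θ => hasDerivAt_fst
        ((hZ _ ⟨hI (interior_subset hw), mem_univ θ⟩).differentiableAt one_ne_zero)
      dθ := fun w hw θ => hasDerivAt_snd
        ((hZ _ ⟨hI hw, mem_univ θ⟩).differentiableAt one_ne_zero)
      per := fun w hw => hp w (hI hw) }

lemma jet2_of_contDiff {I J : Set ℝ} (hJ : IsOpen J) (hI : I ⊆ J)
    (hZ : ∀ p ∈ J ×ˢ (univ : Set ℝ), ContDiffAt ℝ 2 Z p)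
    (hp : ∀ w ∈ J, ∀ θ, Z (w, θ + 2 * π) = Z (w, θ)) :
    Jet2 I Z (pd Z (1, 0)) (pd Z (0, 1)) (pd (pd Z (1, 0)) (1, 0)) (pd (pd Z (1, 0)) (0, 1))
      (pd (pd Z (0, 1)) (0, 1)) := by
  refine ⟨jet1_of_contDiff hI (fun p h => (hZ p h).of_le (by norm_num)) hp,
    jet1_of_contDiff hI (fun p h => contDiffAt_pd2 (hZ p h) _)
      fun w hw θ => pd_periodic hJ hp _ hw θ, ?_⟩
  have h := jet1_of_contDiff hI (fun p h => contDiffAt_pd2 (hZ p h) (0, 1))
      fun w hw θ => pd_periodic hJ hp _ hw θ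
  have e : ∀ p ∈ I ×ˢ (univ : Set ℝ), pd (pd Z (0, 1)) (1, 0) p = pd (pd Z (1, 0)) (0, 1) p :=
    fun p h => pd_comm (hZ p (prod_mono hI le_rfl h)) _ _
  exact
    { c0 := h.c0
      c1 := h.c1.congr fun p hp => (e p hp).symm
      c2 := h.c2
      dw := fun w hw θ => by
        rw [← e _ ⟨interior_subset hw, mem_univ θ⟩]
        exact h.dw w hw θ
      dθ := h.dθ
      per := h.per }

end smooth

end Vale.Agent.P218VA
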