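import Vale.Agent.P218XI.Fr

/-!
# Complex configurations and their action
-/

open scoped Matrix Topology Real ContDiff
open Complex Filter Set MeasureTheory Metric
open Vale.Agent.P272.K.LIN
open Vale.Agent.P218XI (Frame cylF si d1)

noncomputable section

namespace Vale.Agent.P218VA

/-- the square of the sine of the radius of the spherical cap of area `A` -/
def sn2 (A : ℂ) : ℂ := A / (2 * π) * (2 - A / (2 * π))

/-- the sine of the radius of the spherical cap of area `A` -/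
def sn (A : ℂ) : ℂ := Complex.sqrt (sn2 A)

/-- the boundary action -/
def Bd (W A : ℂ) : ℂ := 4 * π * cexp (-W) * (sn A - 1 / (8 * W ^ 2 * sn A))

/-- its derivative in the area -/
def BdA (W A : ℂ) : ℂ :=
  2 * cexp (-W) * (1 - A / (2 * π)) * (1 + 1 / (8 * W ^ 2 * sn A ^ 2)) / sn A

/-- its derivative in the height -/
def BdW (W A : ℂ) : ℂ :=
  4 * π * cexp (-W) * (-sn A + 1 / (8 * W ^ 2 * sn A) + 1 / (4 * W ^ 3 * sn A))

/-- The fixed data: charts at the ends, the level `s` of the cutoff, the reference surface `F`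
with its area `μ`, the field `ν`, the deep core `D`, the frames of the conical ends. -/
structure Geo (M ι κ : Type*) [TopologicalSpace M] [ChartedSpace E2 M] [MeasurableSpace M] where
  /-- charts at the ends -/
  φ : ι ⊕ κ → OpenPartialHomeomorph M E2
  /-- the level where the ends begin -/
  w0 : ℝ
  /-- the level of the cutoff -/
  s : ℝ
  /-- the reference surface -/
  F : M → C3
  /-- the direction of the deformations in the deep core -/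
  ν : M → C3
  /-- the reference area -/
  μ : Measure M
  /-- the finite cover in which jets are measured -/
  𝒞 : Cov E2 M
  /-- the frames of the conical ends -/
  Fr : κ → Frame
  /-- the deep core -/
  D : Set M
  ends : IsEnds φ w0
  lt : w0 < s
  one_le : 1 ≤ s
  area : IsArea (coreO φ (s + 2)) F μ
  deep : D ⊆ coreK φ s

/-- A configuration: the surface `X` on the core, its height `U` in the deep core, and on each
end a rotation and the jets of the angular coordinate. -/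
structure Cfg (M ι κ : Type*) where
  /-- the surface -/
  X : M → C3
  /-- the height over the reference surface -/
  U : M → ℂ
  /-- the rotations of the ends -/
  R : ι ⊕ κ → Matrix (Fin 3) (Fin 3) ℂ
  /-- the angular coordinate -/
  t : ι ⊕ κ → ℝ × ℝ → ℂ
  /-- its derivative in `w` -/
  tw : ι ⊕ κ → ℝ × ℝ → ℂ
  /-- its derivative in `θ` -/
  tθ : ι ⊕ κ → ℝ × ℝ → ℂ

/-- a reparametrisation of the heights which takes `W` to `W'` -/
structure IsPull (s W W' : ℝ) (ψ ψ' : ℝ → ℝ) (δ : ℝ) : Prop where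
  deriv : ∀ w, HasDerivAt ψ (ψ' w) w
  cont : Continuous ψ'
  low : ∀ w, w ≤ s + 2 → ψ w = w
  top : ψ W = W'
  c0 : ∀ w ∈ Icc s W, |ψ w - w| ≤ δ
  c1 : ∀ w ∈ Icc s W, |ψ' w - 1| ≤ δ

variable {M ι κ : Type*} [TopologicalSpace M] [ChartedSpace E2 M] [MeasurableSpace M]

/-- the area enclosed by the cross section of a cylindrical end at height `w` -/
def Cfg.cap (C : Cfg M ι κ) (i : ι) (w : ℝ) : ℂ := ∫ θ in (0 : ℝ)..2 * π, cc (C.t (.inl i) (w, θ))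

namespace Geo
variable (G : Geo M ι κ)

/-- the frames of all ends -/
def fr : ι ⊕ κ → Frame := Sum.elim (fun _ => cylF) G.Fr

/-- the heights covered by an end -/
def rg (W : ι → ℝ) : ι ⊕ κ → Set ℝ := Sum.elim (fun i => Icc G.s (W i)) fun _ => Ici G.s

/-- the position on an end, before the rotation -/
def Z (C : Cfg M ι κ) (j : ι ⊕ κ) (p : ℝ × ℝ) : C3 := (G.fr j).X p.1 p.2 (C.t j p)

/-- its derivative in `w` -/
def Z1 (C : Cfg M ι κ) (j : ι ⊕ κ) (p : ℝ × ℝ) : C3 := (G.fr j).a p.1 p.2 (C.t j p) (C.tw j p)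

/-- its derivative in `θ` -/
def Z2 (C : Cfg M ι κ) (j : ι ⊕ κ) (p : ℝ × ℝ) : C3 := (G.fr j).b p.1 p.2 (C.t j p) (C.tθ j p)

/-- the Gram determinant on an end -/
def grm (C : Cfg M ι κ) (j : ι ⊕ κ) (p : ℝ × ℝ) : ℂ := gram (G.Z1 C j p) (G.Z2 C j p)

/-- the Lagrangian on an end -/
def ell (C : Cfg M ι κ) (j : ι ⊕ κ) (p : ℝ × ℝ) : ℂ := Lag (G.Z C j p) (G.Z1 C j p) (G.Z2 C j p)

/-- the derivative of the action in the height of the cut -/
def Res (W : ι → ℝ) (C : Cfg M ι κ) (i : ι) : ℂ :=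
  (∫ θ in (0 : ℝ)..2 * π, 4 * cexp (-W i) *
    (d1 (C.t (.inl i) (W i, θ)) (C.tθ (.inl i) (W i, θ)) ^ 2 + si (C.t (.inl i) (W i, θ)) ^ 2) /
      Complex.sqrt (G.grm C (.inl i) (W i, θ))) + BdW (W i) (C.cap i (W i))

variable [Fintype ι] [Fintype κ]

/-- the action of a configuration whose cylindrical ends are cut at the heights `W` -/
def act (W : ι → ℝ) (C : Cfg M ι κ) : ℂ :=
  (∫ x, (psi G.φ G.s x : ℂ) * LagM G.F C.X x ∂G.μ) +
    (∑ i, ((∫ p in fd (Ioc G.s (W i)), (cut G.s p.1 : ℂ) * G.ell C (.inl i) p) +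
      Bd (W i) (C.cap i (W i))) +
    ∑ k, ∫ p in fd (Ioi G.s), (cut G.s p.1 : ℂ) * G.ell C (.inr k) p)

/-- solutions of the shrinker equation with the source `g` in the deep core and the natural
boundary condition at the heights `W` -/
structure Sol (W : ι → ℝ) (C : Cfg M ι κ) (g : M → ℂ) : Prop where
  le : ∀ i, G.s + 2 ≤ W i
  imm : ∀ x ∈ coreO G.φ (G.s + 2), Imm C.X x
  lag : ∀ x ∈ coreK G.φ (G.s + 1), ‖LagM G.F C.X x‖ ≤ 2
  deep : ∀ x ∈ G.D, C.X x = G.F x + C.U x • G.ν x ∧ ELM G.F C.X x (G.ν x) = g x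
  out : ∀ x ∈ coreK G.φ (G.s + 1), x ∉ G.D → ∀ V, ELM G.F C.X x V = 0
  src : ∀ x, x ∉ G.D → g x = 0
  orth : ∀ j, (C.R j)ᵀ * C.R j = 1
  glue : ∀ j p, G.s < p.1 → p.1 < G.s + 2 → C.X (Yp G.φ j p) = C.R j *ᵥ G.Z C j p
  jet : ∀ j, ∃ tww twθ tθθ, Jet2 (G.rg W j) (C.t j) (C.tw j) (C.tθ j) tww twθ tθθ ∧
    ∀ p : ℝ × ℝ, p.1 ∈ interior (G.rg W j) → PP (G.Z C j p) (G.Z1 C j p) (G.Z2 C j p)
      ((G.fr j).aa p.1 p.2 (C.t j p) (C.tw j p) (tww p))
      ((G.fr j).ab p.1 p.2 (C.t j p) (C.tw j p) (C.tθ j p) (twθ p))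
      ((G.fr j).bb p.1 p.2 (C.t j p) (C.tθ j p) (tθθ p)) = 0
  small : ∀ j (p : ℝ × ℝ), p.1 ∈ G.rg W j →
    ‖C.t j p‖ ≤ 1 / 2 ∧ p.1 * ‖C.tw j p‖ ≤ 1 ∧ ‖C.tθ j p‖ ≤ 1
  slit : ∀ i (p : ℝ × ℝ), p.1 ∈ Icc G.s (W i) → G.grm C (.inl i) p ∈ slitPlane
  cone : ∀ k, ∃ c > 0, ∀ p : ℝ × ℝ, G.s ≤ p.1 → c ≤ (G.grm C (.inr k) p).re
  low : ∀ i θ, 1 ≤ W i ^ 2 * ‖G.grm C (.inl i) (W i, θ)‖
  cap : ∀ i, 1 ≤ 4 * W i ^ 2 * (sn2 (C.cap i (W i))).re
  contact : ∀ i θ, 16 * (W i : ℂ) ^ 2 * cexp (-W i) *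
    d1 (C.t (.inl i) (W i, θ)) (C.tw (.inl i) (W i, θ)) * si (C.t (.inl i) (W i, θ)) /
      Complex.sqrt (G.grm C (.inl i) (W i, θ)) = -BdA (W i) (C.cap i (W i))

/-- first order closeness of a configuration `C'` cut at `W'` to a configuration `C` cut at `W` -/
structure Close (W W' : ι → ℝ) (C C' : Cfg M ι κ) (δ : ℝ) : Prop where
  core : JetClose G.𝒞 (coreK G.φ (G.s + 1)) C'.X C.X δ
  rot : ∀ j a b, ‖C'.R j a b - C.R j a b‖ ≤ δ
  cyl : ∀ i, ∃ ψ ψ', IsPull G.s (W i) (W' i) ψ ψ' δ ∧ ∀ w ∈ Icc G.s (W i), ∀ θ,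
    ‖C'.t (.inl i) (ψ w, θ) - C.t (.inl i) (w, θ)‖ ≤ δ ∧
      ‖C'.tw (.inl i) (ψ w, θ) - C.tw (.inl i) (w, θ)‖ ≤ δ ∧
      ‖C'.tθ (.inl i) (ψ w, θ) - C.tθ (.inl i) (w, θ)‖ ≤ δ
  cone : ∀ k (p : ℝ × ℝ), G.s ≤ p.1 → ‖C'.t (.inr k) p - C.t (.inr k) p‖ ≤ δ ∧
    p.1 * ‖C'.tw (.inr k) p - C.tw (.inr k) p‖ ≤ δ ∧ ‖C'.tθ (.inr k) p - C.tθ (.inr k) p‖ ≤ δ

/-- real configurations -/
structure IsReal (W : ι → ℝ) (C : Cfg M ι κ) : Prop where
  X : ∀ x ∈ coreO G.φ (G.s + 2), ∀ a, (C.X x a).im = 0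
  t : ∀ j (p : ℝ × ℝ), p.1 ∈ G.rg W j →
    (C.t j p).im = 0 ∧ (C.tw j p).im = 0 ∧ (C.tθ j p).im = 0

/-- real geometric data -/
structure RealData : Prop where
  F : ∀ x ∈ coreO G.φ (G.s + 2), ∀ a, (G.F x a).im = 0
  c : ∀ k, (G.Fr k).c.im = 0
  β : ∀ k θ, ((G.Fr k).β θ).im = 0

/-- A family of solutions, depending on the cuts `W ∈ A` and on a parameter `z ∈ dom W`, with
multipliers `lam` and pinned moments `mo`, which do not depend on `W`. -/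
structure Fam {P T : Type*} [NormedAddCommGroup P] [NormedSpace ℂ P] [Fintype T] [DecidableEq ι]
    (A : Set (ι → ℝ)) (dom : (ι → ℝ) → Set P) (C : (ι → ℝ) → P → Cfg M ι κ) (e : T → M → ℂ)
    (lam : (ι → ℝ) → P → T → ℂ) (mo : P → T → ℂ) : Prop where
  sol : ∀ W ∈ A, ∀ z ∈ dom W, G.Sol W (C W z) fun x => ∑ k, lam W z k * e k x
  int : ∀ W ∈ A, ∀ z ∈ dom W, ∀ k, Integrable (fun x => e k x * (C W z).U x) G.μ
  pin : ∀ W ∈ A, ∀ z ∈ dom W, ∀ k, ∫ x, e k x * (C W z).U x ∂G.μ = mo z k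
  opn : ∀ W ∈ A, IsOpen (dom W)
  hol : ∀ W ∈ A, DifferentiableOn ℂ mo (dom W)
  lipz : ∀ W ∈ A, ∀ z ∈ dom W, ∃ L : ℝ, ∀ᶠ z' in 𝓝 z, G.Close W W (C W z) (C W z') (L * ‖z' - z‖)
  lipW : ∀ W ∈ A, ∀ z ∈ dom W, ∀ j, ∃ L : ℝ, ∀ᶠ w in 𝓝 (W j), Function.update W j w ∈ A →
    z ∈ dom (Function.update W j w) →
      G.Close W (Function.update W j w) (C W z) (C (Function.update W j w) z) (L * |w - W j|)

end Geo

end Vale.Agent.P218VA
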