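import Vale.Agent.P218VA.Act
import Vale.Agent.P218OUT.Out

/-!
# Bounds, realness and derivatives of the reduced action
-/

open scoped Matrix Topology Real ContDiff
open Complex Filter Set MeasureTheory Metric Asymptotics Function
open Vale.Agent.P272.K.LIN
open Vale.Agent.P218XI (Frame cylF rt rt_sq rt_ne co si d1)

noncomputable section

set_option linter.unusedSectionVars false

namespace Vale.Agent.P218VA

lemma norm_d1_le {t : ℂ} (h : ‖t‖ ≤ 1 / 2) (z : ℂ) : ‖d1 t z‖ ≤ 4 * ‖z‖ := by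
  have h1 := lam_ge h
  rw [d1, norm_div, norm_mul, Complex.norm_two, div_le_iff₀ (by linarith)]
  nlinarith [norm_nonneg z]

lemma norm_si_le {t : ℂ} (h : ‖t‖ ≤ 1 / 2) : ‖si t‖ ≤ 2 := by
  have : ‖si t‖ ≤ 4 * ‖t‖ := norm_d1_le h t
  linarith

lemma norm_co_le {t : ℂ} (h : ‖t‖ ≤ 1 / 2) : ‖co t‖ ≤ 3 := by
  have h1 := lam_ge h
  have h2 := norm_sub_le 1 (t ^ 2)
  rw [norm_one, norm_pow] at h2
  rw [co, norm_div, div_le_iff₀ (by linarith)]
  nlinarith [norm_nonneg t]

lemma norm_cc_le {t : ℂ} (h : ‖t‖ ≤ 1 / 2) : ‖cc t‖ ≤ 1 := by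
  have h1 := lam_ge h
  rw [cc, norm_div, norm_mul, Complex.norm_two, norm_pow, div_le_iff₀ (by linarith)]
  nlinarith [norm_nonneg t]

lemma norm_sqrt_sq (z : ℂ) : ‖Complex.sqrt z‖ ^ 2 = ‖z‖ := by
  rw [← norm_pow, P218IN.sqrt_sq']

lemma exp_neg_le_maj {w : ℝ} (hw : 0 ≤ w) : Real.exp (-w) ≤ maj w :=
  Real.exp_le_exp.2 (by linarith)

lemma exists_lag_bound (F : Frame) : ∃ K, 0 ≤ K ∧ ∀ (w θ : ℝ) (t tw tθ : ℂ), 1 ≤ w →
    ‖t‖ ≤ 1 / 2 → w * ‖tw‖ ≤ 1 → ‖tθ‖ ≤ 1 →
      ‖Lag (F.X w θ t) (F.a w θ t tw) (F.b w θ t tθ)‖ ≤ K * Real.exp (-w) := by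
  obtain ⟨B, hB⟩ := (Function.Periodic.isBounded_of_continuous F.β_per Real.two_pi_pos.ne'
    F.β_sm.continuous).exists_norm_le
  refine ⟨1 + 4 * (16 + (‖F.c‖ * 3 + B * 2) ^ 2 * 65), by positivity,
    fun w θ t tw tθ hw h0 h1 h2 => ?_⟩
  have hw0 : 0 < w := by linarith
  have k1 : ‖F.G θ t‖ ≤ ‖F.c‖ * 3 + B * 2 := by
    have := hB _ ⟨θ, rfl⟩
    refine (norm_add_le _ _).trans ?_
    rw [norm_mul, norm_mul]
    gcongr
    exacts [norm_co_le h0, (norm_nonneg _).trans this, norm_si_le h0]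
  have k2 : ‖d1 t tθ‖ ≤ 4 := by linarith [norm_d1_le h0 tθ]
  have k3 : ‖4 * (w : ℂ) ^ 2 * d1 t tw ^ 2‖ ≤ 64 := by
    rw [mul_assoc, ← mul_pow, norm_mul, norm_pow, norm_mul, norm_real, Real.norm_of_nonneg hw0.le,
      Complex.norm_ofNat]
    have : w * ‖d1 t tw‖ ≤ 4 := by nlinarith [norm_d1_le h0 tw]
    nlinarith [mul_nonneg hw0.le (norm_nonneg (d1 t tw))]
  have k4 : ‖gram (F.a w θ t tw) (F.b w θ t tθ)‖ ≤ 4 * (16 + (‖F.c‖ * 3 + B * 2) ^ 2 * 65) := by
    rw [F.gram_eq θ tw tθ hw0 (lam_ne h0), norm_mul, Complex.norm_ofNat]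
    gcongr
    refine (norm_add_le _ _).trans ?_
    rw [norm_mul, norm_pow, norm_pow]
    gcongr
    · nlinarith [norm_nonneg (d1 t tθ)]
    · linarith [norm_add_le 1 (4 * (w : ℂ) ^ 2 * d1 t tw ^ 2), norm_one (α := ℂ)]
  rw [Lag, F.wt_X θ hw0.le (lam_ne h0), norm_mul, norm_cexp_neg, mul_comm]
  gcongr
  rw [← norm_sqrt_sq, ← ar] at k4
  nlinarith [sq_nonneg (‖ar (F.a w θ t tw) (F.b w θ t tθ)‖ - 1)]

lemma sn_bounds {W : ℝ} {A : ℂ} (hW : 1 ≤ W) (hA : ‖A‖ ≤ 2 * π)
    (h : 1 ≤ 4 * W ^ 2 * (sn2 A).re) :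
    ‖sn A‖ ≤ 2 ∧ ‖1 / (8 * (W : ℂ) ^ 2 * sn A)‖ ≤ 1 ∧ ‖1 / (4 * (W : ℂ) ^ 3 * sn A)‖ ≤ 1 := by
  have h1 : ‖A / (2 * π)‖ ≤ 1 := by
    rw [norm_div, norm_mul, Complex.norm_two, norm_real, Real.norm_of_nonneg Real.pi_pos.le]
    exact div_le_one_of_le₀ hA (by positivity)
  have h2 : ‖sn A‖ ^ 2 ≤ 3 := by
    rw [sn, norm_sqrt_sq, sn2, norm_mul]
    nlinarith [norm_sub_le 2 (A / (2 * π)), Complex.norm_two, norm_nonneg (A / (2 * π)),
      norm_nonneg (2 - A / (2 * π))]
  have h3 : 1 ≤ 2 * W * ‖sn A‖ := by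
    refine le_of_sq_le_sq ?_ (by positivity)
    rw [mul_pow, sn, norm_sqrt_sq]
    nlinarith [re_le_norm (sn2 A), sq_nonneg W]
  have h4 := norm_nonneg (sn A)
  refine ⟨by nlinarith, ?_, ?_⟩ <;>
  · rw [norm_div, norm_one, norm_mul, norm_mul, norm_pow, norm_real,
      Real.norm_of_nonneg (by linarith), Complex.norm_ofNat]
    refine div_le_one_of_le₀ ?_ (by positivity)
    nlinarith [mul_nonneg (sub_nonneg.2 hW) (mul_nonneg (zero_le_one.trans hW) h4),
      mul_nonneg (mul_nonneg (sub_nonneg.2 hW) (zero_le_one.trans hW))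
        (mul_nonneg (zero_le_one.trans hW) h4)]

lemma norm_pre (W : ℝ) (z : ℂ) : ‖4 * π * cexp (-W) * z‖ ≤ 16 * Real.exp (-W) * ‖z‖ := by
  rw [norm_mul, norm_mul, norm_mul, norm_cexp_neg, norm_real, Complex.norm_ofNat,
    Real.norm_of_nonneg Real.pi_pos.le]
  gcongr
  linarith [Real.pi_le_four]

lemma im_pd {D : Type*} [NormedAddCommGroup D] [NormedSpace ℝ D] {Y : D → C3} {y : D}
    (hY : DifferentiableAt ℝ Y y) (h : ∀ᶠ z in 𝓝 y, ∀ a, (Y z a).im = 0) (v : D) (a : Fin 3) :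
    (pd Y v y a).im = 0 := by
  have h1 := ((imCLM.comp (ContinuousLinearMap.proj (R := ℝ) (φ := fun _ : Fin 3 => ℂ)
    a)).hasFDerivAt.comp y hY.hasFDerivAt).unique
    ((hasFDerivAt_const (0 : ℝ) y).congr_of_eventuallyEq (h.mono fun z hz => hz a))
  exact DFunLike.congr_fun h1 v

lemma im_dot {a b : C3} (ha : ∀ i, (a i).im = 0) (hb : ∀ i, (b i).im = 0) : (a ⬝ᵥ b).im = 0 := by
  simp [dot3, ha, hb]

lemma im_sqrt {z : ℂ} (h : z ∈ slitPlane) (hz : z.im = 0) : (Complex.sqrt z).im = 0 := by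
  have h1 : 0 < z.re := h.resolve_right (not_not.2 hz)
  rw [Complex.sqrt_of_nonneg ⟨h1.le, hz.symm⟩, ofReal_im]

lemma im_Lag {X a b : C3} (hX : ∀ i, (X i).im = 0) (ha : ∀ i, (a i).im = 0)
    (hb : ∀ i, (b i).im = 0) (h : gram a b ∈ slitPlane) : (Lag X a b).im = 0 := by
  have h1 : (gram a b).im = 0 := by simp [gram, sq, im_dot ha ha, im_dot hb hb, im_dot ha hb]
  simp [Lag, wt, ar, im_sqrt h h1, exp_im, im_dot hX hX]

lemma im_integral {Y : Type*} [MeasurableSpace Y] {μ : Measure Y} {f : Y → ℂ}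
    (h : ∀ᵐ y ∂μ, (f y).im = 0) : (∫ y, f y ∂μ).im = 0 := by
  rw [integral_congr_ae (f := f) (g := fun y => ((f y).re : ℂ))
    (h.mono fun y hy => Complex.ext rfl (by simpa using hy)), integral_complex_ofReal, ofReal_im]

variable {M ι κ : Type*} [TopologicalSpace M] [ChartedSpace E2 M] [RSm E2 M] [T2Space M]
  [CompactSpace M] [MeasurableSpace M] [BorelSpace M] [Fintype ι] [Fintype κ]

lemma Imm.im_lag {Ω : Set M} (hΩ : IsOpen Ω) {X : M → C3} {x : M} (hx : x ∈ Ω) (h : Imm X x)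
    (hr : ∀ x ∈ Ω, ∀ a, (X x a).im = 0) :
    (LagF u1 u2 (cX (chartAt E2 x) X) (chartAt E2 x x)).im = 0 := by
  have he := chart_mem_atlas E2 x
  have hs := mem_chart_source E2 x
  have ev := ((tendsto_symm hs).eventually (hΩ.mem_nhds hx)).mono fun y hy => hr _ hy
  have hd := (h.ck _ he hs).differentiableAt two_ne_zero
  exact im_Lag ev.self_of_nhds (im_pd hd ev _) (im_pd hd ev _) (h.slit _ he hs)

namespace Geo
variable {G : Geo M ι κ} {W : ι → ℝ} {C : Cfg M ι κ} {g : M → ℂ}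

lemma Sol.norm_cap (h : G.Sol W C g) (i : ι) : ‖C.cap i (W i)‖ ≤ 2 * π := by
  have := intervalIntegral.norm_integral_le_of_norm_le_const (a := 0) (b := 2 * π) (C := 1)
    (f := fun θ => cc (C.t (.inl i) (W i, θ)))
    fun θ _ => norm_cc_le (h.small (.inl i) (W i, θ) (h.top_mem i)).1
  rwa [sub_zero, abs_of_pos Real.two_pi_pos, one_mul] at this

lemma Sol.one_le (h : G.Sol W C g) (i : ι) : 1 ≤ W i := by linarith [h.le i, G.one_le]

lemma Sol.norm_Bd (h : G.Sol W C g) (i : ι) :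
    ‖Bd (W i) (C.cap i (W i))‖ ≤ 48 * Real.exp (-W i) := by
  obtain ⟨h1, h2, -⟩ := sn_bounds (h.one_le i) (h.norm_cap i) (h.cap i)
  refine (norm_pre _ _).trans ?_
  nlinarith [norm_sub_le (sn (C.cap i (W i))) (1 / (8 * (W i : ℂ) ^ 2 * sn (C.cap i (W i)))),
    Real.exp_pos (-W i)]

theorem Sol.norm_Res (h : G.Sol W C g) (i : ι) :
    ‖G.Res W C i‖ ≤ 1000 * Real.exp (-W i) * W i := by
  obtain ⟨h1, h2, h3⟩ := sn_bounds (h.one_le i) (h.norm_cap i) (h.cap i)
  have hW := h.one_le i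
  have hE := Real.exp_pos (-W i)
  have k1 : ‖BdW (W i) (C.cap i (W i))‖ ≤ 64 * Real.exp (-W i) := by
    refine (norm_pre _ _).trans ?_
    nlinarith [norm_add₃_le (a := -sn (C.cap i (W i)))
      (b := 1 / (8 * (W i : ℂ) ^ 2 * sn (C.cap i (W i))))
      (c := 1 / (4 * (W i : ℂ) ^ 3 * sn (C.cap i (W i)))), norm_neg (sn (C.cap i (W i)))]
  refine (norm_add_le _ _).trans ((add_le_add (intervalIntegral.norm_integral_le_of_norm_le_const
    (C := 4 * Real.exp (-W i) * 20 * W i) fun θ _ => ?_) k1).trans ?_)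
  · obtain ⟨s0, -, s2⟩ := h.small (.inl i) (W i, θ) (h.top_mem i)
    have k2 : 1 ≤ W i * ‖Complex.sqrt (G.grm C (.inl i) (W i, θ))‖ := by
      refine le_of_sq_le_sq ?_ (by positivity)
      rw [mul_pow, norm_sqrt_sq, one_pow]
      exact h.low i θ
    have k3 : ‖d1 (C.t (.inl i) (W i, θ)) (C.tθ (.inl i) (W i, θ)) ^ 2 +
        si (C.t (.inl i) (W i, θ)) ^ 2‖ ≤ 20 := by
      refine (norm_add_le _ _).trans ?_
      rw [norm_pow, norm_pow]
      nlinarith [norm_d1_le s0 (C.tθ (.inl i) (W i, θ)), norm_si_le s0,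
        norm_nonneg (si (C.t (.inl i) (W i, θ))),
        norm_nonneg (d1 (C.t (.inl i) (W i, θ)) (C.tθ (.inl i) (W i, θ)))]
    rw [norm_div, norm_mul, norm_mul, norm_cexp_neg, Complex.norm_ofNat,
      div_le_iff₀ (pos_of_mul_pos_right (one_pos.trans_le k2) (by linarith)), mul_assoc _ (W i)]
    exact (mul_le_mul_of_nonneg_left k3 (by positivity)).trans
      (le_mul_of_one_le_right (by positivity) k2)
  · rw [sub_zero, abs_of_pos Real.two_pi_pos]
    nlinarith [Real.pi_le_four, mul_pos hE (one_pos.trans_le hW)]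

lemma exists_ell_bound (G : Geo M ι κ) : ∃ K, 0 ≤ K ∧ ∀ W C g, G.Sol W C g → ∀ j (p : ℝ × ℝ),
    p.1 ∈ G.rg W j → ‖G.ell C j p‖ ≤ K * Real.exp (-p.1) := by
  choose K hK H using fun j => exists_lag_bound (G.fr j)
  refine ⟨∑ j, K j, Finset.sum_nonneg fun j _ => hK j, fun W C g h j p hp => ?_⟩
  obtain ⟨h0, h1, h2⟩ := h.small j p hp
  refine (H j _ _ _ _ _ (one_le_of_mem hp) h0 h1 h2).trans ?_
  gcongr
  exact Finset.single_le_sum (fun j _ => hK j) (Finset.mem_univ j)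

theorem exists_act_bound (G : Geo M ι κ) : ∃ K, ∀ W C g, G.Sol W C g → ‖G.act W C‖ ≤ K := by
  obtain ⟨K, hK, H⟩ := G.exists_ell_bound
  have := G.area.fin
  refine ⟨2 * G.μ.real univ + (∑ _ : ι, (K * majI G.s + 48) + ∑ _ : κ, K * majI G.s),
    fun W C g h => (norm_add_le _ _).trans (add_le_add ?_ ((norm_add_le _ _).trans
      (add_le_add (norm_sum_le_of_le _ fun i _ => (norm_add_le _ _).trans (add_le_add ?_ ?_))
        (norm_sum_le_of_le _ fun k _ => ?_))))⟩
  · refine norm_integral_le_of_norm_le_const (.of_forall fun x => ?_)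
    by_cases hx : x ∈ coreK G.φ (G.s + 1)
    · rw [norm_mul]
      exact (mul_le_of_le_one_left (norm_nonneg _) (G.ends.norm_psi_le x)).trans (h.lag x hx)
    · rw [G.ends.psi_zero hx]; simp
  · exact norm_integral_le_maj measurableSet_Ioc Ioc_subset_Ioi_self hK fun p hp =>
      (norm_cut_mul _ _ _).trans ((H W C g h (.inl i) p (Ioc_subset_Icc_self hp)).trans
        (mul_le_mul_of_nonneg_left (exp_neg_le_maj (by linarith [hp.1, G.one_le])) hK))
  · have := Real.exp_le_one_iff.2 (show -W i ≤ 0 by linarith [h.one_le i])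
    linarith [h.norm_Bd i]
  · exact norm_integral_le_maj measurableSet_Ioi le_rfl hK fun p hp =>
      (norm_cut_mul _ _ _).trans ((H W C g h (.inr k) p (Ioi_subset_Ici_self hp)).trans
        (mul_le_mul_of_nonneg_left (exp_neg_le_maj (by linarith [mem_Ioi.1 hp, G.one_le])) hK))

lemma Sol.im_ell (h : G.Sol W C g) (hG : G.RealData) (hr : G.IsReal W C) {j : ι ⊕ κ} {p : ℝ × ℝ}
    (hp : p.1 ∈ G.rg W j) : (G.ell C j p).im = 0 := by
  obtain ⟨h0, h1, h2⟩ := hr.t j p hp
  have hw := one_pos.trans_le (one_le_of_mem hp)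
  have hc : (G.fr j).c.im = 0 ∧ ((G.fr j).β p.2).im = 0 := by
    cases j with
    | inl i => simp [fr]
    | inr k => exact ⟨hG.c k, hG.β k _⟩
  have r : ∀ {z : ℂ}, z.im = 0 → ∃ x : ℝ, z = x := fun h => ⟨_, Complex.ext rfl (by simpa using h)⟩
  have k : (G.grm C j p).im = 0 := by
    obtain ⟨x0, e0⟩ := r h0
    obtain ⟨x1, e1⟩ := r h1
    obtain ⟨x2, e2⟩ := r h2
    obtain ⟨x3, e3⟩ := r hc.1
    obtain ⟨x4, e4⟩ := r hc.2
    rw [grm, Z1, Z2, Frame.gram_eq _ _ _ _ hw (h.ne hp), Frame.G, e0, e1, e2, e3, e4]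
    simp only [d1, co, si]
    norm_cast
  rw [ell, Lag, Z, Frame.wt_X _ _ hw.le (h.ne hp), mul_im, ar, ← grm, im_sqrt (h.slit' hp) k,
    ← ofReal_neg, exp_ofReal_im]
  simp

theorem Sol.im_act (h : G.Sol W C g) (hG : G.RealData) (hr : G.IsReal W C) :
    (G.act W C).im = 0 := by
  have hK : coreK G.φ (G.s + 1) ⊆ coreO G.φ (G.s + 2) := coreK_subset_coreO (by linarith)
  have e1 : (∫ x, (psi G.φ G.s x : ℂ) * LagM G.F C.X x ∂G.μ).im = 0 :=
    im_integral (.of_forall fun x => by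
      by_cases hx : x ∈ coreK G.φ (G.s + 1)
      · simp [LagM, den, div_im, (h.imm x (hK hx)).im_lag G.area.opn (hK hx) hr.X,
          (G.area.imm x (hK hx)).im_lag G.area.opn (hK hx) hG.F]
      · rw [G.ends.psi_zero hx]; simp)
  have e2 : ∀ j I, MeasurableSet I → I ⊆ G.rg W j →
      (∫ p in fd I, (cut G.s p.1 : ℂ) * G.ell C j p).im = 0 := fun j I hI hs =>
    im_integral ((ae_restrict_mem (measurableSet_fd hI)).mono fun p hp => by
      simp [h.im_ell hG hr (hs hp.1)])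
  have e3 : ∀ i, (Bd (W i) (C.cap i (W i))).im = 0 := fun i => by
    have k : (C.cap i (W i)).im = 0 := by
      rw [Cfg.cap, intervalIntegral.integral_of_le Real.two_pi_pos.le]
      refine im_integral (.of_forall fun θ => ?_)
      obtain ⟨x, hx⟩ : ∃ x : ℝ, C.t (.inl i) (W i, θ) = x :=
        ⟨_, Complex.ext rfl (by simpa using (hr.t (.inl i) (W i, θ) (h.top_mem i)).1)⟩
      rw [hx, cc]
      norm_cast
    rw [Bd_eq]
    refine P218WD.im_Bd _ k (sn2_eq _ ▸ le_of_not_gt fun h0 => ?_)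
    nlinarith [h.cap i, sq_nonneg (W i)]
  simp only [act, add_im, im_sum, e1, e3, e2 (.inl _) _ measurableSet_Ioc Ioc_subset_Icc_self,
    e2 (.inr _) _ measurableSet_Ioi Ioi_subset_Ici_self, add_zero, Finset.sum_const_zero]

namespace Fam
variable {P T : Type*} [NormedAddCommGroup P] [NormedSpace ℂ P] [Fintype T] [DecidableEq ι]
  {A : Set (ι → ℝ)} {dom : (ι → ℝ) → Set P} {C : (ι → ℝ) → P → Cfg M ι κ} {e : T → M → ℂ}
  {lam : (ι → ℝ) → P → T → ℂ} {mo : P → T → ℂ} (h : G.Fam A dom C e lam mo)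
include h

lemma pair {W W' : ι → ℝ} {z z' : P} (hW : W ∈ A) (hz : z ∈ dom W) (hW' : W' ∈ A)
    (hz' : z' ∈ dom W') (c : T → ℂ) :
    ∫ x, (∑ k, c k * e k x) * ((C W' z').U x - (C W z).U x) ∂G.μ =
      ∑ k, c k * (mo z' k - mo z k) := by
  simp only [Finset.sum_mul, mul_assoc, mul_sub (e _ _)]
  rw [integral_finsetSum _ fun k _ =>
    ((h.int W' hW' z' hz' k).sub' (h.int W hW z hz k)).const_mul (c k)]
  refine Finset.sum_congr rfl fun k _ => ?_
  rw [integral_const_mul, integral_sub (h.int W' hW' z' hz' k) (h.int W hW z hz k),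
    h.pin W' hW' z' hz', h.pin W hW z hz]

/-- the multipliers are the gradient of the reduced action -/
theorem hasFDerivAt (hW : W ∈ A) {z : P} (hz : z ∈ dom W) :
    HasFDerivAt (fun z => G.act W (C W z))
      (∑ k, lam W z k • (ContinuousLinearMap.proj k).comp (fderiv ℂ mo z)) z := by
  obtain ⟨L, hL⟩ := h.lipz W hW z hz
  have hn := (h.opn W hW).mem_nhds hz
  have o : (fun z' => L * ‖z' - z‖) =O[𝓝 z] fun z' => z' - z :=
    (isBigO_refl _ _).norm_left.const_mul_left L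
  have H1 := (first_variation (o.trans_tendsto (tendsto_sub_nhds_zero_iff.2 tendsto_id))
    (h.sol W hW z hz) (W' := fun _ => W) (mem_of_superset hn fun z' hz' => h.sol W hW z' hz')
    hL).trans_isBigO o
  have H2 := IsLittleO.sum fun k (_ : k ∈ Finset.univ) => (isLittleO_pi.1
    ((h.hol W hW).differentiableAt hn).hasFDerivAt.isLittleO k).const_mul_left (lam W z k)
  refine HasFDerivAt.of_isLittleO ((H1.add H2).congr' ?_ EventuallyEq.rfl)
  filter_upwards [hn] with z' hz'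
  simp only [h.pair hW hz hW hz']
  simp [mul_sub]

theorem differentiableOn (hW : W ∈ A) : DifferentiableOn ℂ (fun z => G.act W (C W z)) (dom W) :=
  fun _ hz => (h.hasFDerivAt hW hz).differentiableAt.differentiableWithinAt

theorem norm_fderiv_le (hW : W ∈ A) {z : P} (hz : z ∈ dom W) :
    ‖fderiv ℂ (fun z => G.act W (C W z)) z‖ ≤ Fintype.card T * ‖fderiv ℂ mo z‖ * ‖lam W z‖ := by
  rw [(h.hasFDerivAt hW hz).fderiv]
  refine ContinuousLinearMap.opNorm_le_bound _ (by positivity) fun v => ?_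
  rw [sum_apply]
  refine (norm_sum_le_of_le _ (n := fun _ => ‖lam W z‖ * (‖fderiv ℂ mo z‖ * ‖v‖))
    fun k _ => ?_).trans (by simp [mul_comm, mul_left_comm])
  rw [smul_apply, norm_smul]
  exact mul_le_mul (norm_le_pi_norm _ k) ((norm_le_pi_norm _ k).trans
    ((fderiv ℂ mo z).le_opNorm v)) (norm_nonneg _) (norm_nonneg _)

/-- the derivative in the height of a cut -/
theorem hasDerivWithinAt {z : P} {j : ι} {I : Set ℝ}
    (hI : ∀ w ∈ I, update W j w ∈ A ∧ z ∈ dom (update W j w)) {w : ℝ} (hw : w ∈ I) :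
    HasDerivWithinAt (fun w => G.act (update W j w) (C (update W j w) z))
      (G.Res (update W j w) (C (update W j w) z) j) I w := by
  obtain ⟨L, hL⟩ := h.lipW _ (hI w hw).1 z (hI w hw).2 j
  simp only [update_self, update_idem] at hL
  have o : (fun w' => L * |w' - w|) =O[𝓝[I] w] fun w' => w' - w :=
    (isBigO_refl _ _).abs_left.const_mul_left L
  have H1 := (first_variation (o.trans_tendsto (tendsto_sub_nhds_zero_iff.2
    (tendsto_id.mono_left nhdsWithin_le_nhds))) (h.sol _ (hI w hw).1 z (hI w hw).2)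
    (W' := fun w' => update W j w') (C' := fun w' => C (update W j w') z)
    (eventually_mem_nhdsWithin.mono fun w' hw' => h.sol _ (hI w' hw').1 z (hI w' hw').2) (by
      filter_upwards [eventually_mem_nhdsWithin, nhdsWithin_le_nhds hL] with w' h1 h2
      exact h2 (hI w' h1).1 (hI w' h1).2)).trans_isBigO o
  refine hasDerivWithinAt_iff_isLittleO.2 (H1.congr' ?_ EventuallyEq.rfl)
  filter_upwards [eventually_mem_nhdsWithin] with w' h1
  rw [h.pair (hI w hw).1 (hI w hw).2 (hI w' h1).1 (hI w' h1).2,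
    Finset.sum_eq_single j (fun i _ hi => by simp [update_of_ne hi]) (by simp)]
  simp

theorem sub_eq_integral {z : P} {j : ι} {a b : ℝ} (hab : a ≤ b)
    (hI : ∀ w ∈ Icc a b, update W j w ∈ A ∧ z ∈ dom (update W j w)) :
    IntervalIntegrable (fun w => G.Res (update W j w) (C (update W j w) z) j) volume a b ∧
      G.act (update W j b) (C (update W j b) z) - G.act (update W j a) (C (update W j a) z) =
        ∫ w in a..b, G.Res (update W j w) (C (update W j w) z) j := by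
  have hd : ∀ w ∈ Ioo a b, HasDerivAt (fun w => G.act (update W j w) (C (update W j w) z))
      (G.Res (update W j w) (C (update W j w) z) j) w := fun w hw =>
    (h.hasDerivWithinAt hI (Ioo_subset_Icc_self hw)).hasDerivAt (Icc_mem_nhds hw.1 hw.2)
  have hi : IntervalIntegrable (fun w => G.Res (update W j w) (C (update W j w) z) j)
      volume a b := by
    rw [intervalIntegrable_iff_integrableOn_Ioo_of_le hab]
    refine (integrable_const (1000 * b)).mono'
      (((measurable_deriv _).aestronglyMeasurable.congr ((ae_restrict_mem measurableSet_Ioo).mono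
        fun w hw => (hd w hw).deriv))) ?_
    filter_upwards [ae_restrict_mem measurableSet_Ioo] with w hw
    have k := h.sol _ (hI w (Ioo_subset_Icc_self hw)).1 z (hI w (Ioo_subset_Icc_self hw)).2
    have k1 := k.norm_Res j
    have k2 := k.one_le j
    rw [update_self] at k1 k2
    have := Real.exp_le_one_iff.2 (show -w ≤ 0 by linarith)
    nlinarith [hw.2]
  exact ⟨hi, (intervalIntegral.integral_eq_sub_of_hasDerivAt_of_le hab
    (fun w hw => (h.hasDerivWithinAt hI hw).continuousWithinAt) hd hi).symm⟩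

end Fam

section seq
open P218SQ
variable {κ' T : Type*} [Fintype κ'] [Fintype T] [DecidableEq ι] {β K r w0 : ℝ}

lemma adm_update {W : ι → ℝ} {j : ι} {w w' : ℝ} (h : Adm w0 W) (h' : Adm w0 (update W j w'))
    (h0 : 0 ≤ W j) (hw : w ∈ Icc (W j) w') : Adm w0 (update W j w) := fun i => by
  have a := h i
  have b := h' i
  refine ⟨?_, fun k => ?_⟩
  · rcases eq_or_ne i j with rfl | hi
    · rw [update_self]; exact a.1.trans hw.1
    · rw [update_of_ne hi]; exact a.1
  · have a2 := a.2 k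
    have b2 := b.2 k
    rcases eq_or_ne i j with rfl | hi <;> rcases eq_or_ne k i with rfl | hk
    · rw [update_self]; linarith [hw.1]
    · rw [update_self, update_of_ne hk] at *; linarith [hw.2]
    · rw [update_of_ne hi]; exact a2
    · rw [update_of_ne hi]
      rcases eq_or_ne k j with rfl | hk
      · rw [update_self]; linarith [hw.1]
      · rw [update_of_ne hk]; exact a2

lemma seg_mem (h1 : 1 ≤ w0) (hβ : |β| ≤ w0) {W : ι → ℝ} {j : ι} {w' : ℝ} (h : Adm w0 W)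
    (h' : Adm w0 (update W j w')) {z : Pt ι κ'} (hz : z ∈ dom β K r (update W j w')) :
    ∀ w ∈ Icc (W j) w', Adm w0 (update W j w) ∧ z ∈ dom β K r (update W j w) := fun w hw => by
  have k := adm_update h h' (by linarith [(h j).1]) hw
  refine ⟨k, Out.dom_anti (fun i => h1.trans (k i).1) (fun i => hβ.trans (k i).1) (fun i => ?_) hz⟩
  rcases eq_or_ne i j with rfl | hi
  · simpa using hw.2
  · simp [update_of_ne hi]

variable {C : (ι → ℝ) → Pt ι κ' → Cfg M ι κ} {e : T → M → ℂ} {lam : (ι → ℝ) → Pt ι κ' → T → ℂ}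
  {mo : Pt ι κ' → T → ℂ}

/-- the increments of the reduced action -/
theorem Fam.inc_eq (h : G.Fam {W | Adm w0 W} (dom β K r) C e lam mo) (h1 : 1 ≤ w0)
    (hβ : |β| ≤ w0) {W : ι → ℝ} {j : ι} (hW : Adm w0 W) (hW' : Adm w0 (update W j (W j + 1)))
    {z : Pt ι κ'} (hz : z ∈ dom β K r (update W j (W j + 1))) :
    IntervalIntegrable (fun w => G.Res (update W j w) (C (update W j w) z) j) volume (W j)
      (W j + 1) ∧ inc (fun W z => G.act W (C W z)) j W z =
        ∫ w in W j..W j + 1, G.Res (update W j w) (C (update W j w) z) j := by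
  have k := h.sub_eq_integral (by linarith) (seg_mem h1 hβ hW hW' hz)
  rwa [update_eq_self] at k

/-- the reduced action satisfies the hypotheses which do not see the tip -/
theorem Fam.seqData (h : G.Fam {W | Adm w0 W} (dom β K r) C e lam mo) (h1 : 1 ≤ w0)
    (hβ : |β| ≤ w0) (hr : 0 < r) (hG : G.RealData)
    (hC : ∀ W, Adm w0 W → ∀ x, P218SQ.ofReal x ∈ dom β K r W →
      G.IsReal W (C W (P218SQ.ofReal x))) :
    ∃ B : ℝ, SeqData (fun W z => G.act W (C W z)) β K r w0 B 1 := by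
  obtain ⟨B, hB⟩ := G.exists_act_bound
  refine ⟨max B 2000, hr, fun W hW => h.differentiableOn hW,
    fun W hW z hz => (hB _ _ _ (h.sol W hW z hz)).trans (le_max_left _ _),
    fun W hW x hx => (h.sol W hW _ hx).im_act hG (hC W hW x hx),
    fun W j w' a1 a2 hW hW' z hz => ?_⟩
  have k := seg_mem h1 hβ hW hW' hz
  have k1 := (h.sub_eq_integral a1 k).2
  have k2 := h1.trans (hW j).1
  rw [update_eq_self] at k1
  rw [k1, pow_one]
  refine (intervalIntegral.norm_integral_le_of_norm_le_const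
    (C := 2000 * Real.exp (-W j) * W j) fun w hw => ?_).trans ?_
  · rw [uIoc_of_le a1] at hw
    have k3 := (h.sol _ (k w (Ioc_subset_Icc_self hw)).1 z (k w (Ioc_subset_Icc_self hw)).2).norm_Res j
    rw [update_self] at k3
    refine k3.trans ?_
    calc _ ≤ 1000 * Real.exp (-W j) * (2 * W j) := by
          gcongr
          · linarith [hw.1]
          · exact hw.1.le
          · linarith [hw.2]
      _ = _ := by ring
  · refine (mul_le_of_le_one_right (by positivity) (abs_le.2 ⟨by linarith, by linarith⟩)).trans ?_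
    gcongr
    exact le_max_right _ _

end seq

end Geo

end Vale.Agent.P218VA
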