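import Vale.Agent.P218VA.Cone
import Mathlib.MeasureTheory.Integral.IntervalIntegral.IntegrationByParts

/-!
# Calculus of first order closeness; reparametrisation of the heights
-/

open scoped Matrix Topology Real ContDiff
open Complex Filter Set MeasureTheory Metric Asymptotics
open Vale.Agent.P218XI (Frame rt rt_sq rt_ne co si d1)

noncomputable section

namespace Vale.Agent.P218VA

/-- bounded functions which differ by `O(δ)` -/
structure Cl {β E : Type*} [NormedAddCommGroup E] (L : Filter β) (δ : β → ℝ) (f' f : β → E) :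
    Prop where
  sub : (fun x => f' x - f x) =O[L] δ
  bd : f =O[L] fun _ => (1 : ℝ)
  bd' : f' =O[L] fun _ => (1 : ℝ)

namespace Cl
variable {β E : Type*} [NormedAddCommGroup E] {L : Filter β} {δ : β → ℝ} {f' f g' g : β → E}
  {c' c d' d : β → ℂ}

lemma of_sub (hδ : Tendsto δ L (𝓝 0)) (h : (fun x => f' x - f x) =O[L] δ)
    (hb : f =O[L] fun _ => (1 : ℝ)) : Cl L δ f' f :=
  ⟨h, hb, by simpa using (h.trans (hδ.isBigO_one ℝ)).add hb⟩

lemma of_le (hδ : Tendsto δ L (𝓝 0)) (h : ∀ᶠ x in L, ‖f' x - f x‖ ≤ δ x) {B : ℝ}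
    (hb : ∀ᶠ x in L, ‖f x‖ ≤ B) : Cl L δ f' f :=
  of_sub hδ (IsBigO.of_bound' (h.mono fun _ hx => hx.trans (le_abs_self _)))
    (IsBigO.of_bound B (by simpa using hb))

lemma refl (hb : f =O[L] fun _ => (1 : ℝ)) : Cl L δ f f :=
  ⟨by simpa using isBigO_zero δ L, hb, hb⟩

lemma const (a : E) : Cl L δ (fun _ => a) fun _ => a := refl (isBigO_const_const a one_ne_zero L)

lemma add (h : Cl L δ f' f) (k : Cl L δ g' g) :
    Cl L δ (fun x => f' x + g' x) fun x => f x + g x :=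
  ⟨(h.sub.add k.sub).congr_left fun x => by abel, h.bd.add k.bd, h.bd'.add k.bd'⟩

lemma sub' (h : Cl L δ f' f) (k : Cl L δ g' g) :
    Cl L δ (fun x => f' x - g' x) fun x => f x - g x :=
  ⟨(h.sub.sub k.sub).congr_left fun x => by abel, h.bd.sub k.bd, h.bd'.sub k.bd'⟩

lemma smul [NormedSpace ℂ E] (h : Cl L δ c' c) (k : Cl L δ g' g) :
    Cl L δ (fun x => c' x • g' x) fun x => c x • g x := by
  refine ⟨?_, by simpa using h.bd.smul k.bd, by simpa using h.bd'.smul k.bd'⟩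
  have h1 := h.sub.smul k.bd'
  have h2 := h.bd.smul k.sub
  simp only [smul_eq_mul, mul_one, one_mul] at h1 h2
  exact (h1.add h2).congr_left fun x => by module

lemma mul (h : Cl L δ c' c) (k : Cl L δ d' d) :
    Cl L δ (fun x => c' x * d' x) fun x => c x * d x := h.smul k

lemma inv (h : Cl L δ c' c) (h1 : ∀ᶠ x in L, 1 / 2 ≤ ‖c x‖) (h2 : ∀ᶠ x in L, 1 / 2 ≤ ‖c' x‖) :
    Cl L δ (fun x => (c' x)⁻¹) fun x => (c x)⁻¹ := by
  have k : ∀ {c : β → ℂ}, (∀ᶠ x in L, 1 / 2 ≤ ‖c x‖) →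
      (fun x => (c x)⁻¹) =O[L] fun _ => (1 : ℝ) := fun h =>
    IsBigO.of_bound 2 (h.mono fun x hx => by
      rw [norm_inv, norm_one, mul_one]
      exact inv_le_of_inv_le₀ two_pos (by simpa using hx))
  refine ⟨?_, k h1, k h2⟩
  have h3 := ((h.sub.mul (k h1)).mul (k h2)).neg_left
  simp only [mul_one] at h3
  refine h3.congr' ?_ EventuallyEq.rfl
  filter_upwards [h1, h2] with x a b
  have a' : c x ≠ 0 := norm_pos_iff.1 (by linarith)
  have b' : c' x ≠ 0 := norm_pos_iff.1 (by linarith)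
  field_simp
  ring

lemma pi {f' f : β → C3} (h : ∀ i, Cl L δ (fun x => f' x i) fun x => f x i) : Cl L δ f' f :=
  ⟨isBigO_pi.2 fun i => (h i).sub, isBigO_pi.2 fun i => (h i).bd, isBigO_pi.2 fun i => (h i).bd'⟩

lemma apply {f' f : β → C3} (h : Cl L δ f' f) (i : Fin 3) :
    Cl L δ (fun x => f' x i) fun x => f x i :=
  ⟨isBigO_pi.1 h.sub i, isBigO_pi.1 h.bd i, isBigO_pi.1 h.bd' i⟩

lemma vec {e' e : β → ℂ} (h0 : Cl L δ c' c) (h1 : Cl L δ d' d) (h2 : Cl L δ e' e) :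
    Cl L δ (fun x => (![c' x, d' x, e' x] : C3)) fun x => ![c x, d x, e x] :=
  pi fun i => by fin_cases i <;> assumption

lemma mulVec {R' R : β → Matrix (Fin 3) (Fin 3) ℂ} {f' f : β → C3}
    (hR : ∀ i j, Cl L δ (fun x => R' x i j) fun x => R x i j) (h : Cl L δ f' f) :
    Cl L δ (fun x => R' x *ᵥ f' x) fun x => R x *ᵥ f x :=
  pi fun i => by
    simp only [Matrix.mulVec, dot3]
    exact (((hR i 0).mul (h.apply 0)).add ((hR i 1).mul (h.apply 1))).add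
      ((hR i 2).mul (h.apply 2))

end Cl

lemma lam_ge {t : ℂ} (h : ‖t‖ ≤ 1 / 2) : 1 / 2 ≤ ‖1 + t ^ 2‖ := by
  have h1 := norm_sub_norm_le 1 (-t ^ 2)
  rw [sub_neg_eq_add, norm_neg, norm_pow, norm_one] at h1
  nlinarith [norm_nonneg t]

lemma lam_ne {t : ℂ} (h : ‖t‖ ≤ 1 / 2) : 1 + t ^ 2 ≠ 0 :=
  norm_pos_iff.1 (one_half_pos.trans_le (lam_ge h))

lemma isBigO_periodic {β E : Type*} [NormedAddCommGroup E] (L : Filter β) (θ : β → ℝ) {f : ℝ → E}
    (hf : Continuous f) (hp : ∀ θ, f (θ + 2 * π) = f θ) :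
    (fun x => f (θ x)) =O[L] fun _ => (1 : ℝ) := by
  obtain ⟨C, hC⟩ := (Function.Periodic.isBounded_of_continuous hp Real.two_pi_pos.ne'
    hf).exists_norm_le
  exact IsBigO.of_bound C (Eventually.of_forall fun x => by simpa using hC _ ⟨_, rfl⟩)

/-- close small angles -/
structure ClT {β : Type*} (L : Filter β) (δ : β → ℝ) (t' t : β → ℂ) : Prop where
  cl : Cl L δ t' t
  sm : ∀ᶠ x in L, ‖t x‖ ≤ 1 / 2
  sm' : ∀ᶠ x in L, ‖t' x‖ ≤ 1 / 2

namespace ClT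
variable {β : Type*} {L : Filter β} {δ : β → ℝ} {t' t z' z : β → ℂ} (h : ClT L δ t' t)
include h

lemma sq : Cl L δ (fun x => t' x ^ 2) fun x => t x ^ 2 := by
  simpa only [pow_two] using h.cl.mul h.cl

lemma inv : Cl L δ (fun x => (1 + t' x ^ 2)⁻¹) fun x => (1 + t x ^ 2)⁻¹ :=
  ((Cl.const 1).add h.sq).inv (h.sm.mono fun _ => lam_ge) (h.sm'.mono fun _ => lam_ge)

lemma co : Cl L δ (fun x => co (t' x)) fun x => co (t x) := by
  simpa only [P218XI.co, div_eq_mul_inv] using ((Cl.const 1).sub' h.sq).mul h.inv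

lemma d1 (k : Cl L δ z' z) : Cl L δ (fun x => d1 (t' x) (z' x)) fun x => d1 (t x) (z x) := by
  simpa only [P218XI.d1, div_eq_mul_inv] using ((Cl.const 2).mul k).mul h.inv

lemma si : Cl L δ (fun x => si (t' x)) fun x => si (t x) := h.d1 h.cl

lemma G (F : Frame) (θ : β → ℝ) : Cl L δ (fun x => F.G (θ x) (t' x)) fun x => F.G (θ x) (t x) :=
  ((Cl.const F.c).mul h.co).add
    ((Cl.refl (isBigO_periodic L θ F.β_sm.continuous F.β_per)).mul h.si)

lemma R (F : Frame) (θ : β → ℝ) {y' y : β → C3} (k : Cl L δ y' y) :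
    Cl L δ (fun x => F.R (θ x) (t' x) *ᵥ y' x) fun x => F.R (θ x) (t x) *ᵥ y x := by
  have h1 := Cl.refl (δ := δ) (isBigO_periodic L θ F.γ_sm.continuous F.γ_per)
  have h2 := Cl.refl (δ := δ) (isBigO_periodic L θ F.n_sm.continuous F.n_per)
  have h3 := Cl.refl (δ := δ) (isBigO_periodic L θ F.T_sm.continuous F.T_per)
  simp only [Frame.R_mulVec, Frame.u, Frame.v]
  exact (((k.apply 0).smul ((h.co.smul h1).add (h.si.smul h2))).add
    ((k.apply 1).smul ((h.co.smul h2).sub' (h.si.smul h1)))).add ((k.apply 2).smul h3)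

end ClT

lemma exists_bound3 {α Y : Type*} {l : Filter α} {S : Set Y} {δ : α → ℝ} {f g k : α × Y → C3}
    (hf : f =O[l ×ˢ 𝓟 S] fun x => δ x.1) (hg : g =O[l ×ˢ 𝓟 S] fun x => δ x.1)
    (hk : k =O[l ×ˢ 𝓟 S] fun x => δ x.1) : ∃ C : ℝ, ∀ᶠ n in l, ∀ p ∈ S,
      ‖f (n, p)‖ ≤ C * ‖δ n‖ ∧ ‖g (n, p)‖ ≤ C * ‖δ n‖ ∧ ‖k (n, p)‖ ≤ C * ‖δ n‖ := by
  obtain ⟨C, hC⟩ := (hf.prod_left (hg.prod_left hk)).bound
  rw [eventually_prod_principal_iff] at hC
  refine ⟨C, hC.mono fun n hn p hp => ?_⟩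
  simpa only [Prod.norm_mk, max_le_iff] using hn p hp

/-! ### Reparametrisation -/

namespace IsPull
variable {s W W' δ : ℝ} {ψ ψ' : ℝ → ℝ} (h : IsPull s W W' ψ ψ' δ)
include h

lemma continuous : Continuous ψ := continuous_iff_continuousAt.2 fun w => (h.deriv w).continuousAt

lemma pos (hδ : δ < 1) {w : ℝ} (hw : w ∈ Icc s W) : 0 < ψ' w := by
  linarith [(abs_le.1 (h.c1 w hw)).1]

lemma strictMonoOn (hδ : δ < 1) : StrictMonoOn ψ (Icc s W) :=
  strictMonoOn_of_deriv_pos (convex_Icc s W) h.continuous.continuousOn fun w hw => by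
    rw [(h.deriv w).deriv]
    exact h.pos hδ (interior_subset hw)

lemma bot : ψ s = s := h.low s (by linarith)

lemma mem (hδ : δ < 1) {w : ℝ} (hw : w ∈ Icc s W) : ψ w ∈ Icc s W' := by
  have h1 := (h.strictMonoOn hδ).monotoneOn
  have h2 := hw.1.trans hw.2
  exact ⟨h.bot ▸ h1 (left_mem_Icc.2 h2) hw hw.1, h.top ▸ h1 hw (right_mem_Icc.2 h2) hw.2⟩

lemma mem_Ioo (hδ : δ < 1) {w : ℝ} (hw : w ∈ Ioo s W) : ψ w ∈ Ioo s W' := by
  have h1 := h.strictMonoOn hδ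
  have h2 := (hw.1.trans hw.2).le
  exact ⟨h.bot ▸ h1 (left_mem_Icc.2 h2) (Ioo_subset_Icc_self hw) hw.1,
    h.top ▸ h1 (Ioo_subset_Icc_self hw) (right_mem_Icc.2 h2) hw.2⟩

lemma cut_eq (hδ : δ < 1) {w : ℝ} (hw : w ∈ Icc s W) : cut s (ψ w) = cut s w := by
  rcases le_total w (s + 2) with h1 | h1
  · rw [h.low w h1]
  · rw [cut_one (w := w) (by linarith), cut_one (by linarith [(abs_le.1 (h.c0 w hw)).1])]

lemma continuousOn_comp (hδ : δ < 1) {E : Type*} [TopologicalSpace E] {f : ℝ × ℝ → E}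
    (hf : ContinuousOn f (Icc s W' ×ˢ univ)) :
    ContinuousOn (fun p : ℝ × ℝ => f (ψ p.1, p.2)) (Icc s W ×ˢ univ) :=
  hf.comp ((h.continuous.comp continuous_fst).prodMk continuous_snd).continuousOn
    fun _ hp => ⟨h.mem hδ hp.1, mem_univ _⟩

lemma jet1 (hδ : δ < 1) {V V1 V2 : ℝ × ℝ → C3} (hV : Jet1 (Icc s W') V V1 V2) :
    Jet1 (Icc s W) (fun p => V (ψ p.1, p.2)) (fun p => (ψ' p.1 : ℂ) • V1 (ψ p.1, p.2))
      fun p => V2 (ψ p.1, p.2) where
  c0 := h.continuousOn_comp hδ hV.c0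
  c1 := (continuousOn_height (continuous_ofReal.comp h.cont) _).smul (h.continuousOn_comp hδ hV.c1)
  c2 := h.continuousOn_comp hδ hV.c2
  dw w hw θ := by
    rw [interior_Icc] at hw
    exact (hV.dw (ψ w) (interior_Icc (a := s) (b := W') ▸ h.mem_Ioo hδ hw) θ).scomp w (h.deriv w)
  dθ w hw θ := hV.dθ _ (h.mem hδ hw) θ
  per w hw θ := hV.per _ (h.mem hδ hw) θ

lemma integral_comp (hδ : δ < 1) (hW : s ≤ W) {f : ℝ × ℝ → ℂ}
    (hf : ContinuousOn f (Icc s W' ×ˢ univ)) :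
    ∫ p in fd (Ioc s W), (ψ' p.1 : ℂ) * f (ψ p.1, p.2) = ∫ p in fd (Ioc s W'), f p := by
  have hW' : s ≤ W' := (h.top ▸ h.mem hδ (right_mem_Icc.2 hW)).1
  rw [integral_fd_swap (integrableOn_fd hf), integral_fd_swap (integrableOn_fd
    ((continuousOn_height (c := fun w => (ψ' w : ℂ)) (continuous_ofReal.comp h.cont) _).fun_mul
      (h.continuousOn_comp hδ hf)))]
  refine intervalIntegral.integral_congr fun θ _ => ?_
  have k := intervalIntegral.integral_deriv_smul_comp' (a := s) (b := W) (f := ψ) (f' := ψ')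
    (g := fun w => f (w, θ)) (fun w _ => h.deriv w) h.cont.continuousOn
    ((continuousOn_slice hf θ).mono (by
      rintro _ ⟨w, hw, rfl⟩
      exact h.mem hδ (uIcc_of_le hW ▸ hw)))
  rw [h.bot, h.top, intervalIntegral.integral_of_le hW, intervalIntegral.integral_of_le hW'] at k
  exact k

lemma integral_Lag (hδ : δ < 1) (hW : s ≤ W) {V V1 V2 : ℝ × ℝ → C3}
    (hV : Jet1 (Icc s W') V V1 V2)
    (hg : ∀ p ∈ Icc s W' ×ˢ (univ : Set ℝ), gram (V1 p) (V2 p) ∈ slitPlane) :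
    ∫ p in fd (Ioc s W), (cut s p.1 : ℂ) *
      Lag (V (ψ p.1, p.2)) ((ψ' p.1 : ℂ) • V1 (ψ p.1, p.2)) (V2 (ψ p.1, p.2)) =
      ∫ p in fd (Ioc s W'), (cut s p.1 : ℂ) * Lag (V p) (V1 p) (V2 p) := by
  rw [← h.integral_comp hδ hW (hV.cLag hg)]
  refine setIntegral_congr_fun (measurableSet_fd measurableSet_Ioc) fun p hp => ?_
  have hw := Ioc_subset_Icc_self hp.1
  have h0 := h.pos hδ hw
  have k := Lag_change (p := ψ' p.1) (q := 0) (r := 0) (s := 1) (by simpa using h0.ne')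
    (V (ψ p.1, p.2)) (V1 (ψ p.1, p.2)) (V2 (ψ p.1, p.2))
  simp only [ofReal_zero, zero_smul, add_zero, ofReal_one, one_smul, zero_add, mul_one, mul_zero,
    sub_zero, abs_of_pos h0] at k
  simp only [k, h.cut_eq hδ hw]
  ring

lemma slit (hδ : δ < 1) {w : ℝ} (hw : w ∈ Icc s W) {a b : C3} (hg : gram a b ∈ slitPlane) :
    gram ((ψ' w : ℂ) • a) b ∈ slitPlane := by
  have k := (gram_change_slit (p := ψ' w) (q := 0) (r := 0) (s := 1)
    (by simpa using (h.pos hδ hw).ne') (a := a) (b := b)).2 hg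
  simpa using k

end IsPull

lemma isPull_id (s W : ℝ) {δ : ℝ} (hδ : 0 ≤ δ) : IsPull s W W id (fun _ => 1) δ :=
  ⟨hasDerivAt_id, continuous_const, fun _ _ => rfl, rfl, fun _ _ => by simpa, fun _ _ => by simpa⟩

end Vale.Agent.P218VA
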