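import Vale.Agent.P218VA.Area
import Vale.Agent.P218ST.Hub
import Vale.Agent.P218HB.Basic

/-!
# The properties of the reduced action
-/

open scoped Matrix Topology Real ContDiff
open Complex Filter Set MeasureTheory Metric Function
open Vale.Agent.P272.K.LIN Vale.Agent.P218GA Vale.Agent.P218HB Vale.Agent.P218ST
open Vale.Agent.P218SQ (Pt Adm)
open Vale.Agent.P218XI (Frame cylF coneF U0 kap prof)
open Vale.Agent.P218CO (cj)

noncomputable section

set_option linter.unusedSectionVars false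

namespace Vale.Agent.P218VA

lemma im_deriv {f : ℝ → ℂ} {f' : ℂ} {w : ℝ} (h : HasDerivAt f f' w)
    (h0 : ∀ᶠ v in 𝓝 w, (f v).im = 0) : f'.im = 0 :=
  (imCLM.hasFDerivAt.comp_hasDerivAt w h).unique
    ((hasDerivAt_const w (0 : ℝ)).congr_of_eventuallyEq h0)

lemma Jet1.im {I : Set ℝ} {V V1 V2 : ℝ × ℝ → ℂ} (h : Jet1 I V V1 V2)
    (hI : I ⊆ closure (interior I)) (h0 : ∀ p : ℝ × ℝ, p.1 ∈ I → (V p).im = 0) {p : ℝ × ℝ}
    (hp : p.1 ∈ I) : (V1 p).im = 0 ∧ (V2 p).im = 0 :=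
  ⟨EqOn.of_subset_closure (f := fun w => (V1 (w, p.2)).im) (g := fun _ => 0)
    (fun w hw => im_deriv (h.dw w hw _) (mem_of_superset (isOpen_interior.mem_nhds hw)
      fun v hv => h0 (v, p.2) (interior_subset hv)))
    (continuous_im.comp_continuousOn (h.c1.comp (by fun_prop) fun _ hw => ⟨hw, trivial⟩))
    continuousOn_const interior_subset hI hp,
    im_deriv (h.dθ p.1 hp p.2) (.of_forall fun θ => h0 (p.1, θ) hp)⟩

lemma tendsto_LagF {α D : Type*} [NormedAddCommGroup D] [NormedSpace ℝ D] {d1 d2 y : D}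
    {l : Filter α} {Y : α → D → C3} {Y0 : D → C3}
    (h : Tendsto (fun n => cj d1 d2 (Y n) y) l (𝓝 (cj d1 d2 Y0 y)))
    (hg : gramF d1 d2 Y0 y ∈ slitPlane) :
    Tendsto (fun n => LagF d1 d2 (Y n) y) l (𝓝 (LagF d1 d2 Y0 y)) := by
  have k : Continuous fun q : P218CO.J2 C3 => gram q.1.2.1 q.1.2.2 :=
    continuousOn_univ.1 (continuousOn_gram (by fun_prop) (by fun_prop))
  have k' : ContinuousOn (fun q : P218CO.J2 C3 => Lag q.1.1 q.1.2.1 q.1.2.2)
      ((fun q => gram q.1.2.1 q.1.2.2) ⁻¹' slitPlane) :=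
    continuousOn_Lag (by fun_prop) (by fun_prop) (by fun_prop) fun _ h => h
  have k'' := (k'.continuousAt (x := cj d1 d2 Y0 y)
    ((isOpen_slitPlane.preimage k).mem_nhds hg)).tendsto.comp h
  exact k''

lemma tendsto_hb {ι τ D G : Type} [Fintype ι] [Fintype τ] [NormedAddCommGroup G] [NormedSpace ℂ G]
    {c : Cst} {U : Set D} {g : (ι → ℝ) → Pt ι τ → D → G} {gb : Pt ι τ → D → G}
    (h : HB c U g gb) {y : D} (hy : y ∈ U) :
    Tendsto (fun v : ℝ => g (fun _ => v) 0 y) atTop (𝓝 (gb 0 y)) := by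
  obtain ⟨C, hC⟩ := h.close
  refine tendsto_iff_norm_sub_tendsto_zero.2 (squeeze_zero' (.of_forall fun _ => norm_nonneg _)
    ((eventually_ge_atTop c.w1).mono fun v hv => hC _ _ (Cst.ok_zero (c.adm_const hv)) y hy) ?_)
  have := (tendsto_finsetSum Finset.univ fun (_ : ι) _ =>
    tendsto_rpow_neg_atTop (by linarith [c.k_pos] : 0 < 1 + c.k)).const_mul C
  simpa only [neg_add', Finset.sum_const_zero, mul_zero] using this

section
variable {M ι κ : Type*} [TopologicalSpace M] [ChartedSpace E2 M] [RSm E2 M] [T2Space M]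
  [CompactSpace M] [MeasurableSpace M] [BorelSpace M] [Fintype ι] [Fintype κ] {G : Geo M ι κ}

lemma Geo.Sol.rg_sub {W : ι → ℝ} {C : Cfg M ι κ} {g : M → ℂ} (h : G.Sol W C g) (j : ι ⊕ κ) :
    G.rg W j ⊆ closure (interior (G.rg W j)) := by
  cases j with
  | inl i => rw [Geo.int_rg_inl, closure_Ioo (by linarith [h.le i])]; rfl
  | inr k => rw [Geo.int_rg_inr, closure_Ioi]; rfl

lemma Geo.tendsto_ell {α : Type*} {l : Filter α} [l.NeBot] {W : α → ι → ℝ} {C : α → Cfg M ι κ}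
    {g : α → M → ℂ} {j : ι ⊕ κ} {p : ℝ × ℝ} (hp : G.s < p.1) {t : α → ℝ × ℝ → ℂ}
    (hS : ∀ᶠ n in l, G.Sol (W n) (C n) (g n) ∧ p.1 ∈ interior (G.rg (W n) j) ∧
      ∀ q : ℝ × ℝ, q.1 ∈ G.rg (W n) j → (C n).t j q = t n q)
    {t0 : ℝ × ℝ → ℂ} (ht : ContDiffAt ℝ 1 t0 p) {R : Matrix (Fin 3) (Fin 3) ℂ} (hR : Rᵀ * R = 1)
    (e : ∀ᶠ q in 𝓝 p, G.F (Yp G.φ j q) = R *ᵥ (G.fr j).X q.1 q.2 (t0 q))
    (hF : Imm G.F (Yp G.φ j p)) (h0 : Tendsto (fun n => t n p) l (𝓝 (t0 p)))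
    (h1 : Tendsto (fun n => pd (t n) (1, 0) p) l (𝓝 (pd t0 (1, 0) p)))
    (h2 : Tendsto (fun n => pd (t n) (0, 1) p) l (𝓝 (pd t0 (0, 1) p))) :
    Tendsto (fun n => G.ell (C n) j p) l
      (𝓝 (LagF (1, 0) (0, 1) (fun q => G.F (Yp G.φ j q)) p)) := by
  have p0 : 0 < p.1 := by linarith [G.one_le]
  have p1 := G.lt.trans hp
  have k : ∀ᶠ n in l, t n p = (C n).t j p ∧ pd (t n) (1, 0) p = (C n).tw j p ∧
      pd (t n) (0, 1) p = (C n).tθ j p := hS.mono fun n ⟨h, hn, h'⟩ => by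
    have ev := (P218EF.ev_int hn).mono fun q hq => (h' q (interior_subset hq)).symm
    exact ⟨ev.self_of_nhds, (h.jt j).eq_pd hn (((P218EF.contDiffAt_jet1 (h.jt j)
      hn).differentiableAt one_ne_zero).congr_of_eventuallyEq ev) ev⟩
  have hl := lam_ne (le_of_tendsto h0.norm ((hS.and k).mono fun n ⟨h, h'⟩ =>
    h'.1 ▸ (h.1.small j p (interior_subset h.2.1)).1))
  obtain ⟨e1, e2⟩ := ((G.fr j).rot R hR).pd_X1 ht p0 hl
  simp only [Frame.rot_X, Frame.rot_a, Frame.rot_b] at e1 e2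
  have hg : gramF (1, 0) (0, 1) (fun q => G.F (Yp G.φ j q)) p ∈ slitPlane := (gramF_comp_slit
    ((hF.ck.at_target (G.ends.mem j) (G.ends.pol_mem j p1)).differentiableAt two_ne_zero)
    (differentiable_pol p) (jac_pol_ne p)).2 (hF.slit_target (G.ends.mem j) (G.ends.pol_mem j p1))
  rw [gramF_congr e, gramF, e1, e2, gram_rot hR] at hg
  rw [LagF_congr e, LagF, e1, e2, Lag_rot hR]
  refine (tendsto_Lag_frame (G.fr j) p0 p.2 h0 h1 h2 hl hg).congr' (k.mono fun n h => ?_)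
  simp only [h.1, h.2.1, h.2.2]
  rfl

end

variable {S : Set E3} {w : E3 → ℝ} {δ C₀ : ℝ} {ι κ M : Type} [Fintype ι] [Fintype κ]
  [TopologicalSpace M] [ChartedSpace E2 M] [T2Space M] [RSm E2 M] [CompactSpace M]
  [MeasurableSpace M] [BorelSpace M] {m : Model S w δ C₀ ι κ M} {τ : Type} [Fintype τ]

/-- the geometric data and the configurations are those of the static construction -/
structure Fit (H : Hub m τ) (c : Cst) (G : Geo M ι κ) (C : (ι → ℝ) → Pt ι τ → Cfg M ι κ) :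
    Prop where
  le : c.Le H.c
  φ : G.φ = m.φ
  s : G.s = H.s + 1
  F : G.F = fun x => cx (m.F x)
  μ : G.μ = m.mu0
  Fr : G.Fr = fun j => coneF (m.L j)
  X : ∀ W z, c.Ok W z → (C W z).X = H.X W z
  R : ∀ W z, c.Ok W z → (C W z).R = Sum.elim (H.R W z) fun _ => 1
  cyl : ∀ W z, c.Ok W z → ∀ i (p : ℝ × ℝ), p.1 ∈ Icc G.s (W i) →
    (C W z).t (.inl i) p = kap p.1 * U0 (H.α W z i) (H.J W z i) p
  cone : ∀ W z, c.Ok W z → ∀ j (p : ℝ × ℝ), G.s ≤ p.1 → (C W z).t (.inr j) p = H.t W z j p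

namespace Fit
variable {H : Hub m τ} {c : Cst} {G : Geo M ι κ} {C : (ι → ℝ) → Pt ι τ → Cfg M ι κ}
  (h : Fit H c G C) {W : ι → ℝ} {z : Pt ι τ} {g : M → ℂ}
include h

lemma glue (hz : c.Ok W z) (j : ι ⊕ κ) (p : ℝ × ℝ) (hp : p.1 ∈ interior (G.rg W j)) :
    (C W z).X (Yp G.φ j p) = (C W z).R j *ᵥ G.Z (C W z) j p := by
  have h1 : H.s < p.1 := by linarith [mem_Ioi.1 (Geo.int_rg_sub j hp), h.s]
  rw [h.X W z hz, h.R W z hz, h.φ, Geo.Z]
  cases j with
  | inl i =>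
    rw [h.cyl W z hz i p (interior_subset hp)]
    exact H.cyl W z (h.le.ok hz) i p h1 (Geo.int_rg_inl (G := G) i ▸ hp).2
  | inr k =>
    rw [h.cone W z hz k p (interior_subset hp), H.cone W z (h.le.ok hz) k p h1, Sum.elim_inr,
      Matrix.one_mulVec, Geo.fr, h.Fr, Sum.elim_inr]

lemma realData : G.RealData :=
  ⟨fun x _ a => by simp [h.F], fun k => by simp [h.Fr, P218XI.coneF_c],
    fun k θ => by simp [h.Fr, P218XI.coneF_β]⟩

lemma isReal {x : (ι → ℝ) × (τ → ℝ)} (hx : c.Ok W (P218SQ.ofReal x))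
    (hS : G.Sol W (C W (P218SQ.ofReal x)) g) : G.IsReal W (C W (P218SQ.ofReal x)) := by
  have hx' := h.le.ok hx
  have k : ∀ j (p : ℝ × ℝ), p.1 ∈ G.rg W j → ((C W (P218SQ.ofReal x)).t j p).im = 0 := by
    rintro (i | k) p hp
    · have hp' : p.1 ∈ Icc H.s (W i) := ⟨by linarith [hp.1, h.s], hp.2⟩
      have hr := (H.cylSol W _ hx' i).rg
      have h0 := one_pos.trans_le (Geo.one_le_of_mem hp)
      have h1 : (prof (H.α W (P218SQ.ofReal x) i) p.1).im = 0 :=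
        im_sqrt (Or.inl (lt_of_lt_of_le (add_pos_of_nonneg_of_pos (by positivity) (div_pos
          (by linarith [hr.big]) (by positivity))) (hr.re _ hp'))) (by simp [H.α_real W x hx' i])
      rw [h.cyl W _ hx i p hp]
      simp [U0, kap, h1, H.J_real W x hx' i 0 _ hp']
    · rw [h.cone W _ hx k p hp]
      exact H.t_real W x hx' k p (by linarith [mem_Ici.1 hp, h.s])
  refine ⟨fun y hy => ?_, fun j p hp => ⟨k j p hp, (hS.jt j).im (hS.rg_sub j) (k j) hp⟩⟩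
  rw [h.X W _ hx]
  rw [h.φ, h.s, add_assoc] at hy
  exact H.X_real W x hx' y (by norm_num at hy; exact coreO_subset_coreK hy)

lemma isArea : IsArea {x | ∀ j, x ≠ (G.φ j).symm 0} G.F G.μ := by
  rw [h.φ, h.F, h.μ]
  exact m.isArea

lemma lim {g : ℝ → M → ℂ}
    (hS : ∀ v, c.w1 ≤ v → G.Sol (fun _ => v) (C (fun _ => v) 0) (g v)) :
    Tendsto (fun v : ℝ => G.act (fun _ => v) (C (fun _ => v) 0)) atTop
      (𝓝 (m.mu0.real univ : ℝ)) := by
  have ok : ∀ᶠ v : ℝ in atTop, c.Ok (fun _ : ι => v) (0 : Pt ι τ) ∧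
      G.Sol (fun _ => v) (C (fun _ => v) 0) (g v) :=
    (eventually_ge_atTop c.w1).mono fun v hv => ⟨Cst.ok_zero (c.adm_const hv), hS v hv⟩
  have hK : coreK G.φ (G.s + 1) ⊆ coreO G.φ (G.s + 2) := coreK_subset_coreO (by linarith)
  rw [← h.μ]
  refine Geo.tendsto_act (ok.mono fun _ h => h.2) (fun _ => tendsto_id) h.isArea
    (by rw [h.μ, h.φ]; exact m.ae_reg) (fun x hx => ?_) fun j p hp => ?_
  · obtain ⟨c', -, e, he, T, y, hT, hj, hy, rfl, U, hU, gb, hf, h0⟩ := H.core x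
      (h.φ ▸ coreO_subset_coreK (coreK_subset_coreO (by linarith [h.s]) hx))
    have hF := G.area.imm _ (hK hx)
    have dT := hT.differentiableAt two_ne_zero
    have hg := (gramF_comp_slit (d1 := (1, 0)) (d2 := (0, 1)) ((hF.ck.at_target he
      hy).differentiableAt two_ne_zero) dT hj).2 (hF.slit_target he hy)
    have hn : LagF (1, 0) (0, 1) (fun z => G.F (e.symm (T z))) y ≠ 0 :=
      mul_ne_zero (wt_ne _) (ar_ne' hg)
    have k := tendsto_hb hf.hb (mem_of_mem_nhds hU)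
    rw [P218CO.cj_congr (g := fun z => G.F (e.symm (T z)))
      (mem_of_superset hU fun z hz => by rw [h.F]; exact h0 z hz)] at k
    have k' := (tendsto_LagF k hg).div_const (LagF (1, 0) (0, 1) (fun z => G.F (e.symm (T z))) y)
    rw [div_self hn] at k'
    refine k'.congr' (ok.mono fun v hv => ?_)
    simp only [← h.X _ _ hv.1]
    rw [← LagM_param he hy hF ((hv.2.imm _ (hK hx)).ck.of_le one_le_two) dT hj,
      mul_div_cancel_right₀ _ hn]
  have p0 : 0 < p.1 := by linarith [G.one_le]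
  have p1 : H.s < p.1 := by linarith [h.s]
  have hF := h.isArea.imm _ fun j' => G.ends.Yp_ne j j' (G.lt.trans hp)
  have hr : ∀ᶠ v : ℝ in atTop, p.1 ∈ interior (G.rg (fun _ => v) j) :=
    (eventually_gt_atTop p.1).mono fun v hv => Geo.mem_int_rg hp fun _ _ => hv
  have z0 : (0 : Pt ι τ) ∈ ball 0 H.c.r := mem_ball_self H.c.r_pos
  have ev : ∀ᶠ q : ℝ × ℝ in 𝓝 p, H.s < q.1 := continuous_fst.continuousAt.eventually
    (lt_mem_nhds p1)
  cases j with
  | inl i =>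
    obtain ⟨c', ub, hc', hf, h0⟩ := H.u_hf i (p.1 + 1)
    have hp' : p ∈ strip H.s (p.1 + 1) := ⟨p1, lt_add_one _⟩
    have k := tendsto_hb hf.hb hp'
    have cb := (hf.cdb 0 (mem_ball_self c'.r_pos) p hp').of_le one_le_two
    have e := (eventually_ge_atTop c'.w1).mono fun v hv => Frame.pd_kap1
      ((hf.cd _ _ (Cst.ok_zero (c'.adm_const hv)) p hp').of_le one_le_two) p0
    have k0 := k.fst_nhds.fst_nhds
    refine Geo.tendsto_ell hp ((ok.and hr).mono fun v hv => ⟨hv.1.2, hv.2, h.cyl _ _ hv.1.1 i⟩)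
      (t0 := fun q => kap q.1 * ub 0 q)
      ((((P218XI.contDiffAt_kap p0).of_le one_le_inf).comp p contDiffAt_fst).mul cb)
      (mat_orth (m.Q i)) ?_ hF (k0.const_mul _) ?_ ?_
    · filter_upwards [ev, continuous_fst.continuousAt.eventually (gt_mem_nhds (lt_add_one p.1))]
        with q h1 h2
      rw [(h0 q ⟨h1, h2⟩).1, h.F, h.φ]
      simp only [Yp]
      rw [m.cyl i q (by linarith [H.lt, H.le]), cx_isometry, P218XI.cx_xiCyl_Z]
      rfl
    · rw [(Frame.pd_kap1 cb p0).1]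
      exact ((k.fst_nhds.snd_nhds.fst_nhds.sub (k0.const_mul _)).const_mul _).congr'
        (e.mono fun v hv => hv.1.symm)
    · rw [(Frame.pd_kap1 cb p0).2]
      exact (k.fst_nhds.snd_nhds.snd_nhds.const_mul _).congr' (e.mono fun v hv => hv.2.symm)
  | inr j =>
    have k := (tendsto_hb (H.t_hn j).hb p1).fst_nhds
    refine Geo.tendsto_ell hp ((ok.and hr).mono fun v hv => ⟨hv.1.2, hv.2, h.cone _ _ hv.1.1 j⟩)
      (((H.t_hn j).cdb 0 z0 p p1).of_le one_le_two) (R := 1) (by simp) (ev.mono fun q hq => ?_) hF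
      k.fst_nhds ((tendsto_const_smul_iff₀ (ofReal_ne_zero.2 p0.ne')).1 k.snd_nhds.fst_nhds)
      k.snd_nhds.snd_nhds
    rw [H.t_zero j q hq, h.F, h.φ, Matrix.one_mulVec, Geo.fr, h.Fr]
    simp only [Yp]
    rw [m.cone j q (by linarith [H.lt, H.le]), P218XI.cx_xiCone]
    rfl

/-- the properties of the reduced action -/
theorem actOut [DecidableEq ι] {e : τ ⊕ ι → M → ℂ}
    (hf : G.Fam {W | Adm c.w1 W} c.dom C e H.lam H.mo)
    (hres : ∃ C' k c' : ℝ, 0 < k ∧ 0 < c' ∧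
      P218TP.ResData (fun W z => G.act W (C W z)) H.c.K c.r c.w1 C' k c') :
    H.ActOut fun W z => G.act W (C W z) where
  tip := by
    obtain ⟨C', k, c', hk, hc', hr⟩ := hres
    obtain ⟨B, hB⟩ := hf.seqData (by linarith [c.w1_ge]) (by rw [abs_one]; linarith [c.w1_ge])
      c.r_pos h.realData fun W hW x hx => h.isReal ⟨hW, hx⟩ (hf.sol W hW _ hx)
    exact ⟨_, _, B, C', k, c', 1, hk, hc', h.le.K ▸ hB, hr⟩
  grad := ⟨c, h.le, fun W z hz => by
    simp only [fderiv_apply ((hf.hol W hz.1).differentiableAt ((hf.opn W hz.1).mem_nhds hz.2))]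
    exact hf.hasFDerivAt hz.1 hz.2⟩
  area := ⟨c, 48, h.le, fun W x hx => by
    have hS := hf.sol W hx.1 _ hx.2
    have k := hS.area (Ω := Hub.Reg m W) h.isArea (fun x a => by simp [h.F])
      (fun y hy => (h.isReal hx hS).X y (coreK_subset_coreO (by linarith) hy)) (h.glue hx)
      (by rw [h.φ]; exact fun _ h => h)
    have k' : ∑ i, Real.exp (-W i) ≤ ∑ i, Real.exp (-W i / 2) :=
      Finset.sum_le_sum fun i _ => Real.exp_le_exp.2 (by linarith [hx.pos i])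
    rw [h.X W _ hx, h.F, h.μ] at k
    exact ⟨by linarith [k.1], k.2.trans (ENNReal.ofReal_le_ofReal (by linarith))⟩⟩
  lim := h.lim fun v hv => hf.sol _ (c.adm_const hv) 0 (Cst.ok_zero (c.adm_const hv)).2

end Fit

end Vale.Agent.P218VA
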