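import Vale.Agent.P218VA.Man

/-!
# Integration by parts on a surface with an atlas
-/

open scoped Matrix Topology Real ContDiff
open Complex Filter Set MeasureTheory Metric
open Vale.Agent.P272.K.LIN

noncomputable section

set_option linter.unusedSectionVars false

namespace Vale.Agent.P218VA

variable {M : Type*} [TopologicalSpace M] [ChartedSpace E2 M] [RSm E2 M] [T2Space M]
  [CompactSpace M] [MeasurableSpace M] [BorelSpace M]

/-- On the open set `Ω` the finite measure `μ` is the Gaussian area of the immersion `F`. -/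
structure IsArea (Ω : Set M) (F : M → C3) (μ : Measure M) : Prop where
  opn : IsOpen Ω
  fin : IsFiniteMeasure μ
  imm : ∀ x ∈ Ω, Imm F x
  chart : ∀ e ∈ atlas E2 M, ∀ g : M → ℂ, (∀ x, x ∉ e.source ∩ Ω → g x = 0) →
    ∫ x, g x ∂μ = ∫ y in e.target, g (e.symm y) * LagF u1 u2 (cX e F) y

variable {Ω Ω' K : Set M} {F X V : M → C3} {μ : Measure M}

lemma IsArea.mono (h : IsArea Ω F μ) (h' : IsOpen Ω') (hs : Ω' ⊆ Ω) : IsArea Ω' F μ where
  opn := h'
  fin := h.fin
  imm x hx := h.imm x (hs hx)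
  chart e he g hg := h.chart e he g fun x hx => hg x fun hx' => hx ⟨hx'.1, hs hx'.2⟩

lemma IsArea.integrable (h : IsArea Ω F μ) {g : M → ℂ} (hK : IsCompact K) (hKΩ : K ⊆ Ω)
    (hg : ContinuousOn g Ω) (h0 : ∀ x, x ∉ K → g x = 0) : Integrable g μ := by
  have := h.fin
  exact integrable_of_support h.opn hK hKΩ hg h0

/-- integration in a parametrisation over a product of lines -/
theorem IsArea.param (h : IsArea Ω F μ) {e : OpenPartialHomeomorph M E2} (he : e ∈ atlas E2 M)
    {T : ℝ × ℝ → E2} {s : Set (ℝ × ℝ)} (hs : MeasurableSet s)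
    (hT : ∀ p ∈ s, DifferentiableAt ℝ T p) (hi : InjOn T s)
    (hj : ∀ p ∈ s, jac (1, 0) (0, 1) T p ≠ 0) (ht : ∀ p ∈ s, T p ∈ e.target)
    (hΩ : ∀ p ∈ s, e.symm (T p) ∈ Ω) {g : M → ℂ}
    (h0 : ∀ x, x ∉ (fun p => e.symm (T p)) '' s → g x = 0) :
    ∫ x, g x ∂μ =
      ∫ p in s, g (e.symm (T p)) * LagF (1, 0) (0, 1) (fun q => F (e.symm (T q))) p := by
  rw [h.chart e he g fun x hx => h0 x ?_]
  · have hm : MeasurableSet (T '' s) := hs.image_of_continuousOn_injOn
      (fun p hp => (hT p hp).continuousAt.continuousWithinAt) hi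
    rw [setIntegral_eq_of_subset_of_forall_sdiff_eq_zero e.open_target.measurableSet
      (s := T '' s) (by rintro _ ⟨p, hp, rfl⟩; exact ht p hp), integral_image_prod hs hT hi]
    · refine setIntegral_congr_fun hs fun p hp => ?_
      have h1 := LagF_comp (((h.imm _ (hΩ p hp)).ck.at_target he (ht p hp)).differentiableAt
        (by norm_num)) (hT p hp) (hj p hp)
      simp only [cX] at h1 ⊢
      rw [h1]; ring
    · rintro y ⟨hy, hy'⟩
      rw [h0, zero_mul]
      rintro ⟨p, hp, hpy⟩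
      exact hy' ⟨p, hp, e.symm.injOn (ht p hp) hy hpy⟩
  · rintro ⟨p, hp, rfl⟩
    exact hx ⟨e.map_target (ht p hp), hΩ p hp⟩

/-- integration by parts for vector fields supported in one chart -/
lemma IsArea.variation_chart (h : IsArea Ω F μ) (hX : ∀ x ∈ Ω, Imm X x)
    (hV : ∀ x ∈ Ω, CkAt 1 V x) {e : OpenPartialHomeomorph M E2} (he : e ∈ atlas E2 M)
    (hK : IsCompact K) (hKΩ : K ⊆ e.source ∩ Ω) (h0 : ∀ x, x ∉ K → V x = 0) :
    ∫ x, dLagM F X V x ∂μ = ∫ x, ELM F X x (V x) ∂μ := by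
  have hev : ∀ x, x ∉ K → ∀ᶠ z in 𝓝 x, V z = 0 := fun x hx => by
    filter_upwards [hK.isClosed.isOpen_compl.mem_nhds hx] with z hz using h0 z hz
  set U := e.target ∩ e.symm ⁻¹' Ω with hU
  have hUo : IsOpen U := e.symm.isOpen_inter_preimage h.opn
  have hK' : IsCompact (e '' K) :=
    hK.image_of_continuousOn (e.continuousOn.mono fun x hx => (hKΩ hx).1)
  have hKU : e '' K ⊆ U := by
    rintro _ ⟨x, hx, rfl⟩
    refine ⟨e.map_source (hKΩ hx).1, ?_⟩
    rw [mem_preimage, e.left_inv (hKΩ hx).1]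
    exact (hKΩ hx).2
  set V' : E2 → C3 := e.target.indicator (cX e V) with hV'
  have e1 : ∀ y ∈ e.target, V' =ᶠ[𝓝 y] cX e V := fun y hy => by
    filter_upwards [e.open_target.mem_nhds hy] with z hz using indicator_of_mem hz _
  have e2 : ∀ y, y ∉ e '' K → V' y = 0 := fun y hy => by
    by_cases hy' : y ∈ e.target
    · rw [hV', indicator_of_mem hy']
      exact h0 _ fun hk => hy ⟨_, hk, e.right_inv hy'⟩
    · exact indicator_of_notMem hy' _
  have e3 : ∀ y, y ∉ e '' K → ∀ᶠ z in 𝓝 y, V' z = 0 := fun y hy => by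
    filter_upwards [hK'.isClosed.isOpen_compl.mem_nhds hy] with z hz using e2 z hz
  have key := integral_dLagF (μ := volume) (d1 := u1) (d2 := u2) (X := cX e X) (V := V') hUo hK'
    hKU (fun y hy => (hX _ hy.2).ck.at_target he hy.1)
    (fun y hy => ((hV _ hy.2).at_target he hy.1).congr_of_eventuallyEq (e1 y hy.1))
    (fun y hy => (hX _ hy.2).slit_target he hy.1) e2
  rw [h.chart e he _ fun x hx => dLagM_of_zero (hev x fun hk => hx (hKΩ hk)),
    h.chart e he _ fun x hx => by rw [h0 x fun hk => hx (hKΩ hk), ELM_zero]]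
  rw [← setIntegral_eq_integral_of_forall_compl_eq_zero (s := e.target)
    fun y hy => dLagF_of_zero (e3 y fun hk => hy (hKU hk).1),
    ← setIntegral_eq_integral_of_forall_compl_eq_zero (s := e.target)
    (f := fun y => ELF u1 u2 (cX e X) y (V' y)) fun y hy => by
      rw [e2 y fun hk => hy (hKU hk).1, ELF, EL_zero]] at key
  convert key using 1
  · refine setIntegral_congr_fun e.open_target.measurableSet fun y hy => ?_
    by_cases hy' : e.symm y ∈ Ω
    · have := dLagM_chart (h.imm _ hy') ((hX _ hy').ck.of_le (by norm_num)) (hV _ hy') he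
        (e.map_target hy)
      rw [e.right_inv hy] at this
      rw [this, dLagF_congr EventuallyEq.rfl (e1 y hy)]
    · rw [dLagM_of_zero (hev _ fun hk => hy' (hKΩ hk).2), zero_mul,
        dLagF_of_zero (e3 y fun hk => hy' (hKU hk).2)]
  · refine setIntegral_congr_fun e.open_target.measurableSet fun y hy => ?_
    by_cases hy' : e.symm y ∈ Ω
    · have := ELM_chart (h.imm _ hy') (hX _ hy').ck he (e.map_target hy) (V (e.symm y))
      rw [e.right_inv hy] at this
      rw [this, (e1 y hy).self_of_nhds, cX]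
    · rw [h0 _ fun hk => hy' (hKΩ hk).2, e2 y fun hk => hy' (hKU hk).2, ELM_zero, zero_mul, ELF,
        EL_zero]

/-- a smooth partition of unity subordinate to chart balls -/
lemma exists_partition (𝒞 : Cov E2 M) : ∃ ρ : Fin 𝒞.N → M → ℝ, (∀ i, CkFn E2 ∞ (ρ i)) ∧
    (∀ x, ∑ i, ρ i x = 1) ∧ (∀ i x, 0 ≤ ρ i x) ∧
    ∀ i x, ρ i x ≠ 0 → x ∈ (𝒞.e i).source ∧ 𝒞.e i x ∈ ball (𝒞.c i) (3 * 𝒞.r i) := by
  have hpos : ∀ x, 0 < ∑ i, 𝒞.η i x := fun x => by
    obtain ⟨i, hx, hxi⟩ := 𝒞.cover x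
    have hr := 𝒞.r_pos i
    have hη : 𝒞.η i x = 1 := 𝒞.η_eq_one hx
      (ball_subset_closedBall.trans (closedBall_subset_closedBall (by linarith)) hxi)
    exact Finset.sum_pos' (fun j _ => 𝒞.η_nonneg j x) ⟨i, Finset.mem_univ i, by rw [hη]; norm_num⟩
  refine ⟨fun i x => 𝒞.η i x / ∑ j, 𝒞.η j x, fun i => (𝒞.η_ck i).div
    (CkFn.sum fun j _ => 𝒞.η_ck j) fun x => (hpos x).ne', fun x => ?_,
    fun i x => div_nonneg (𝒞.η_nonneg i x) (hpos x).le, fun i x hx => 𝒞.η_ne_zero fun h0 => hx ?_⟩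
  · rw [← Finset.sum_div, div_self (hpos x).ne']
  · simp [h0]

/-- The first variation formula for compactly supported vector fields on a surface. -/
theorem IsArea.variation (h : IsArea Ω F μ) (hX : ∀ x ∈ Ω, Imm X x)
    (hV : ∀ x ∈ Ω, CkAt 1 V x) (hK : IsCompact K) (hKΩ : K ⊆ Ω) (h0 : ∀ x, x ∉ K → V x = 0) :
    ∫ x, dLagM F X V x ∂μ = ∫ x, ELM F X x (V x) ∂μ := by
  obtain ⟨𝒞⟩ := Cov.nonempty E2 M
  obtain ⟨ρ, hρ, hs, -, hsup⟩ := exists_partition 𝒞
  have hev : ∀ x, x ∉ K → ∀ᶠ z in 𝓝 x, V z = 0 := fun x hx => by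
    filter_upwards [hK.isClosed.isOpen_compl.mem_nhds hx] with z hz using h0 z hz
  set W : Fin 𝒞.N → M → C3 := fun i x => ((ρ i x : ℝ) : ℂ) • V x with hW
  have hWc : ∀ i, ∀ x ∈ Ω, CkAt 1 (W i) x := fun i x hx =>
    ((CkFn.ckAt (hρ i) x).of_le one_le_inf).ofReal.csmul (hV x hx)
  have hW0 : ∀ i x, x ∉ K → W i x = 0 := fun i x hx => by simp [hW, h0 x hx]
  have hsum : V = fun x => ∑ i, W i x := by
    funext x
    simp only [hW]
    rw [← Finset.sum_smul, ← Complex.ofReal_sum, hs x]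
    simp
  have e1 : ∀ x, dLagM F X V x = ∑ i, dLagM F X (W i) x := fun x => by
    by_cases hx : x ∈ Ω
    · conv_lhs => rw [hsum]
      exact dLagM_sum _ fun i _ => hWc i x hx
    · have hx' : x ∉ K := fun hk => hx (hKΩ hk)
      rw [dLagM_of_zero (hev x hx')]
      refine (Finset.sum_eq_zero fun i _ => dLagM_of_zero ?_).symm
      filter_upwards [hev x hx'] with z hz
      simp [hW, hz]
  have e2 : ∀ x, ELM F X x (V x) = ∑ i, ELM F X x (W i x) := fun x => by
    rw [← ELM_sum, congrFun hsum x]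
  simp only [e1, e2]
  rw [integral_finsetSum, integral_finsetSum]
  · refine Finset.sum_congr rfl fun i _ => ?_
    have hc : IsCompact ((𝒞.e i).symm '' closedBall (𝒞.c i) (3 * 𝒞.r i)) :=
      (isCompact_closedBall _ _).image_of_continuousOn
        ((𝒞.e i).continuousOn_symm.mono (𝒞.sub i))
    refine h.variation_chart hX (hWc i) (𝒞.mem i) (hK.inter_right hc.isClosed) ?_ fun x hx => ?_
    · rintro _ ⟨hk, y, hy, rfl⟩
      exact ⟨(𝒞.e i).map_target (𝒞.sub i hy), hKΩ hk⟩
    · by_cases hk : x ∈ K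
      · by_contra hne
        have h1 : ρ i x ≠ 0 := fun h1 => hne (by simp [hW, h1])
        obtain ⟨h2, h3⟩ := hsup i x h1
        exact hx ⟨hk, _, ball_subset_closedBall h3, (𝒞.e i).left_inv h2⟩
      · exact hW0 i x hk
  · intro i _
    exact h.integrable hK hKΩ (continuousOn_ELM h.opn h.imm hX
      fun x hx => (hWc i x hx).continuousAt.continuousWithinAt)
      fun x hx => by rw [hW0 i x hx, ELM_zero]
  · intro i _
    refine h.integrable hK hKΩ (continuousOn_dLagM h.opn h.imm hX (hWc i)) fun x hx =>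
      dLagM_of_zero ?_
    filter_upwards [hev x hx] with z hz
    simp [hW, hz]

end Vale.Agent.P218VA
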