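import Vale.Agent.P218VA.Glue

/-!
# The boundary term on a cylindrical end
-/

open scoped Matrix Topology Real
open Complex Filter Set MeasureTheory Metric Asymptotics

noncomputable section

namespace Vale.Agent.P218VA

/-- the complex version of the coordinates on spheres -/
def xiC (γ n : C3) (w : ℝ) (t : ℂ) : C3 :=
  (2 * (√w : ℝ) / (1 + t ^ 2) : ℂ) • ((1 - t ^ 2) • γ + (2 * t) • n)

lemma cx_xi (γ n : P218GA.E3) (w t : ℝ) :
    P218GA.cx (P218GA.xi γ n w t) = xiC (P218GA.cx γ) (P218GA.cx n) w t := by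
  unfold P218GA.xi xiC
  rw [map_smul, map_add, map_smul, map_smul, ← Complex.coe_smul, ← Complex.coe_smul,
    ← Complex.coe_smul]
  push_cast
  rfl

/-- the axis -/
def e3c : C3 := ![0, 0, 1]

/-- the unit normal of the cylinder -/
def ethc (θ : ℝ) : C3 := ![(Real.cos θ : ℂ), (Real.sin θ : ℂ), 0]

lemma cx_e3 : P218GA.cx P218GA.e3 = e3c := by
  funext i
  fin_cases i <;> simp [P218GA.cx, P218GA.e3, e3c]

lemma cx_eth (θ : ℝ) : P218GA.cx (P218GA.eth θ) = ethc θ := by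
  funext i
  fin_cases i <;> simp [P218GA.cx, P218GA.eth, ethc]

/-- stereographic polar coordinates on the unit sphere -/
def om (τ : ℂ) (θ : ℝ) : C3 :=
  ![2 * τ / (1 + τ ^ 2) * (Real.cos θ : ℝ), 2 * τ / (1 + τ ^ 2) * (Real.sin θ : ℝ),
    (1 - τ ^ 2) / (1 + τ ^ 2)]

/-- the derivative of `om (τ θ) θ` -/
def omd (τ τ' : ℂ) (θ : ℝ) : C3 :=
  ![2 * (1 - τ ^ 2) / (1 + τ ^ 2) ^ 2 * τ' * (Real.cos θ : ℝ) -
      2 * τ / (1 + τ ^ 2) * (Real.sin θ : ℝ),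
    2 * (1 - τ ^ 2) / (1 + τ ^ 2) ^ 2 * τ' * (Real.sin θ : ℝ) +
      2 * τ / (1 + τ ^ 2) * (Real.cos θ : ℝ),
    -(4 * τ) / (1 + τ ^ 2) ^ 2 * τ']

/-- the density of the enclosed spherical area -/
def cc (τ : ℂ) : ℂ := 2 * τ ^ 2 / (1 + τ ^ 2)

lemma xiC_cyl (w : ℝ) (τ : ℂ) (θ : ℝ) :
    xiC e3c (ethc θ) w τ = (2 * (√w : ℝ) : ℂ) • om τ θ := by
  funext i
  fin_cases i <;> simp [xiC, e3c, ethc, om] <;> ring

lemma cs_sq (θ : ℝ) : ((Real.cos θ : ℝ) : ℂ) ^ 2 + ((Real.sin θ : ℝ) : ℂ) ^ 2 = 1 := by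
  exact_mod_cast Real.cos_sq_add_sin_sq θ

lemma om_dot {τ : ℂ} (h : 1 + τ ^ 2 ≠ 0) (θ : ℝ) : om τ θ ⬝ᵥ om τ θ = 1 := by
  simp only [dot3, om, Matrix.cons_val_zero, Matrix.cons_val_one, Matrix.cons_val]
  field_simp
  linear_combination 4 * τ ^ 2 * cs_sq θ

lemma om_dot_omd {τ : ℂ} (h : 1 + τ ^ 2 ≠ 0) (τ' : ℂ) (θ : ℝ) : om τ θ ⬝ᵥ omd τ τ' θ = 0 := by
  simp only [dot3, om, omd, Matrix.cons_val_zero, Matrix.cons_val_one, Matrix.cons_val]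
  field_simp
  linear_combination 4 * τ * (1 - τ ^ 2) * τ' * cs_sq θ

lemma hasDerivAt_om {τ : ℝ → ℂ} {τ' : ℂ} {θ : ℝ} (hτ : HasDerivAt τ τ' θ) (h : 1 + τ θ ^ 2 ≠ 0) :
    HasDerivAt (fun t => om (τ t) t) (omd (τ θ) τ' θ) θ := by
  have h1 := (hτ.pow 2).const_add 1
  have h2 := (hτ.const_mul 2).div h1 h
  have h3 := (Real.hasDerivAt_cos θ).ofReal_comp
  have h4 := (Real.hasDerivAt_sin θ).ofReal_comp
  refine hasDerivAt_pi.2 fun i => ?_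
  fin_cases i
  · refine HasDerivAt.congr_deriv (h2.mul h3) ?_
    simp only [omd, Fin.zero_eta, Matrix.cons_val_zero, Pi.div_apply, Pi.pow_apply]
    push_cast
    field_simp
    ring
  · refine HasDerivAt.congr_deriv (h2.mul h4) ?_
    simp only [omd, Fin.mk_one, Matrix.cons_val_one, Matrix.cons_val_zero, Pi.div_apply,
      Pi.pow_apply]
    push_cast
    field_simp
    ring
  · refine HasDerivAt.congr_deriv (((hτ.pow 2).const_sub 1).div h1 h) ?_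
    simp only [omd, Fin.reduceFinMk, Matrix.cons_val, Pi.pow_apply]
    push_cast
    field_simp
    ring

lemma area_exact {τ σ : ℂ} (h : 1 + τ ^ 2 ≠ 0) (h' : 1 + σ ^ 2 ≠ 0) (τ' : ℂ) (θ : ℝ) :
    om τ θ ⬝ᵥ (om σ θ - om τ θ) ⨯₃ omd τ τ' θ =
      cc σ - cc τ - om τ θ 2 * ((om σ θ - om τ θ) ⬝ᵥ (om σ θ - om τ θ)) / 2 := by
  simp only [dot3, cross0, cross1, cross2, om, omd, cc, Pi.sub_apply, Matrix.cons_val_zero,
    Matrix.cons_val_one, Matrix.cons_val]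
  have e : ((Real.sin θ : ℝ) : ℂ) ^ 2 = 1 - ((Real.cos θ : ℝ) : ℂ) ^ 2 := by
    linear_combination cs_sq θ
  field_simp
  ring_nf
  rw [e]
  ring

/-- the contact density of a surface along the second coordinate line -/
def con (X a b : C3) : ℂ := wt X * (X ⬝ᵥ a ⨯₃ b) / (ar a b * (X ⬝ᵥ X))

lemma mom1_split {X a b : C3} (V : C3) (h1 : X ⬝ᵥ b = 0) (h2 : X ⬝ᵥ X ≠ 0) :
    mom1 X a b V = wt X / ar a b * ((b ⬝ᵥ b) * (a ⬝ᵥ X) / (X ⬝ᵥ X)) * (X ⬝ᵥ V) +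
      con X a b * (X ⬝ᵥ V ⨯₃ b) := by
  have key : (X ⬝ᵥ X) * (mm1 a b ⬝ᵥ V) = (b ⬝ᵥ b) * (a ⬝ᵥ X) * (X ⬝ᵥ V) +
      (X ⬝ᵥ a ⨯₃ b) * (X ⬝ᵥ V ⨯₃ b) +
      (X ⬝ᵥ b) * ((a ⬝ᵥ V) * (X ⬝ᵥ b) - (a ⬝ᵥ X) * (b ⬝ᵥ V) - (a ⬝ᵥ b) * (X ⬝ᵥ V)) := by
    simp only [mm1, dot3, cross0, cross1, cross2, Pi.sub_apply, Pi.smul_apply, smul_eq_mul]
    ring
  rw [h1, zero_mul, add_zero] at key
  unfold mom1 con
  by_cases h3 : ar a b = 0
  · simp [h3]
  field_simp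
  linear_combination wt X * key

lemma skew_triple (N : Matrix (Fin 3) (Fin 3) ℂ) (ω β : C3) :
    ω ⬝ᵥ (N *ᵥ ω) ⨯₃ β = (![N 2 1 - N 1 2, N 0 2 - N 2 0, N 1 0 - N 0 1] ⬝ᵥ β * (ω ⬝ᵥ ω) -
      ![N 2 1 - N 1 2, N 0 2 - N 2 0, N 1 0 - N 0 1] ⬝ᵥ ω * (ω ⬝ᵥ β) +
      ω ⬝ᵥ ((N + Nᵀ) *ᵥ ω) ⨯₃ β) / 2 := by
  simp only [dot3, cross0, cross1, cross2, Matrix.mulVec, Matrix.add_apply,
    Matrix.transpose_apply, Matrix.cons_val_zero, Matrix.cons_val_one, Matrix.cons_val]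
  ring

/-! ### Estimates -/

section bigO
variable {β : Type*} {L : Filter β} {f g : β → C3} {u v : β → ℝ}

lemma isBigO_dot (hf : f =O[L] u) (hg : g =O[L] v) :
    (fun x => f x ⬝ᵥ g x) =O[L] fun x => u x * v x := by
  have h1 := isBigO_pi.1 hf
  have h2 := isBigO_pi.1 hg
  simp only [dot3]
  exact (((h1 0).mul (h2 0)).add ((h1 1).mul (h2 1))).add ((h1 2).mul (h2 2))

lemma isBigO_cross (hf : f =O[L] u) (hg : g =O[L] v) :
    (fun x => f x ⨯₃ g x) =O[L] fun x => u x * v x := by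
  have h1 := isBigO_pi.1 hf
  have h2 := isBigO_pi.1 hg
  refine isBigO_pi.2 fun i => ?_
  fin_cases i
  · simp only [Fin.zero_eta, cross0]
    exact ((h1 1).mul (h2 2)).sub ((h1 2).mul (h2 1))
  · simp only [Fin.mk_one, cross1]
    exact ((h1 2).mul (h2 0)).sub ((h1 0).mul (h2 2))
  · simp only [Fin.reduceFinMk, cross2]
    exact ((h1 0).mul (h2 1)).sub ((h1 1).mul (h2 0))

lemma isBigO_mulVec {N : β → Matrix (Fin 3) (Fin 3) ℂ} (hN : ∀ i j, (fun x => N x i j) =O[L] u)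
    (hg : g =O[L] v) : (fun x => N x *ᵥ g x) =O[L] fun x => u x * v x :=
  isBigO_pi.2 fun i => isBigO_dot (f := fun x => N x i) (isBigO_pi.2 (hN i)) hg

lemma isBigO_matMul {N N' : β → Matrix (Fin 3) (Fin 3) ℂ}
    (hN : ∀ i j, (fun x => N x i j) =O[L] u) (hN' : ∀ i j, (fun x => N' x i j) =O[L] v) (i j) :
    (fun x => (N x * N' x) i j) =O[L] fun x => u x * v x :=
  isBigO_dot (f := fun x => N x i) (g := fun x k => N' x k j) (isBigO_pi.2 (hN i))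
    (isBigO_pi.2 fun k => hN' k j)

end bigO

lemma isBigO_one_of_continuous {α G : Type*} [NormedAddCommGroup G] (l : Filter α) {f : ℝ → G}
    (hf : Continuous f) :
    (fun x : α × ℝ => f x.2) =O[l ×ˢ 𝓟 (Icc 0 (2 * π))] fun _ => (1 : ℝ) := by
  obtain ⟨C, hC⟩ := isCompact_Icc.exists_bound_of_continuousOn
    (s := Icc 0 (2 * π)) hf.continuousOn
  refine IsBigO.of_bound C ?_
  filter_upwards [tendsto_snd.eventually (eventually_mem_set.2 (mem_principal_self _))] with x hx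
  simpa using hC _ hx

lemma isBigO_integral {α : Type*} {l : Filter α} {f : α → ℝ → ℂ} {u : α → ℝ}
    (h : (fun x : α × ℝ => f x.1 x.2) =O[l ×ˢ 𝓟 (Icc 0 (2 * π))] fun x => u x.1) :
    (fun n => ∫ θ in (0 : ℝ)..2 * π, f n θ) =O[l] u := by
  obtain ⟨C, hC⟩ := h.bound
  rw [eventually_prod_principal_iff] at hC
  refine IsBigO.of_bound (C * (2 * π)) ?_
  filter_upwards [hC] with n hn
  have := intervalIntegral.norm_integral_le_of_norm_le_const (a := 0) (b := 2 * π)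
    (C := C * ‖u n‖) (f := f n) fun θ hθ => hn θ (by
      rw [uIoc_of_le Real.two_pi_pos.le] at hθ
      exact Ioc_subset_Icc_self hθ)
  rw [sub_zero, abs_of_pos Real.two_pi_pos] at this
  linarith

/-- the density of the radial part of the first momentum -/
def rad (X a b : C3) : ℂ := wt X / ar a b * ((b ⬝ᵥ b) * (a ⬝ᵥ X) / (X ⬝ᵥ X))

lemma continuous_om {τ : ℝ → ℂ} (hτ : Continuous τ) (h : ∀ θ, 1 + τ θ ^ 2 ≠ 0) :
    Continuous fun θ => om (τ θ) θ := by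
  refine continuous_pi fun i => ?_
  fin_cases i <;> simp only [om, Fin.zero_eta, Fin.mk_one, Fin.reduceFinMk, Matrix.cons_val_zero,
    Matrix.cons_val_one, Matrix.cons_val] <;> fun_prop (disch := assumption)

lemma continuous_omd {τ τd : ℝ → ℂ} (hτ : Continuous τ) (hτd : Continuous τd)
    (h : ∀ θ, 1 + τ θ ^ 2 ≠ 0) : Continuous fun θ => omd (τ θ) (τd θ) θ := by
  have h2 : ∀ θ, (1 + τ θ ^ 2) ^ 2 ≠ 0 := fun θ => pow_ne_zero _ (h θ)
  refine continuous_pi fun i => ?_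
  fin_cases i <;> simp only [omd, Fin.zero_eta, Fin.mk_one, Fin.reduceFinMk, Matrix.cons_val_zero,
    Matrix.cons_val_one, Matrix.cons_val] <;> fun_prop (disch := assumption)

lemma continuous_cc {τ : ℝ → ℂ} (hτ : Continuous τ) (h : ∀ θ, 1 + τ θ ^ 2 ≠ 0) :
    Continuous fun θ => cc (τ θ) := by
  unfold cc
  fun_prop (disch := assumption)

lemma cc_eq {τ : ℂ} (h : 1 + τ ^ 2 ≠ 0) (θ : ℝ) : cc τ = 1 - om τ θ 2 := by
  simp only [cc, om, Matrix.cons_val]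
  field_simp
  ring

lemma rot_om_dot {R : Matrix (Fin 3) (Fin 3) ℂ} (hR : Rᵀ * R = 1) (ρ : ℂ) {τ : ℂ}
    (h : 1 + τ ^ 2 ≠ 0) (θ : ℝ) : (R *ᵥ (ρ • om τ θ)) ⬝ᵥ (R *ᵥ (ρ • om τ θ)) = ρ ^ 2 := by
  rw [dot_rot hR, smul_dotProduct, dotProduct_smul, om_dot h]
  simp [sq]

section expansion
variable {α : Type*} {l : Filter α} {δ : α → ℝ} {ρ : ℂ} {ρ' : α → ℂ}
  {R : Matrix (Fin 3) (Fin 3) ℂ} {R' : α → Matrix (Fin 3) (Fin 3) ℂ} {τ τd : ℝ → ℂ}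
  {τ' : α → ℝ → ℂ}

lemma isBigO_om_sub (hδ : Tendsto δ l (𝓝 0)) (hρ : ρ ≠ 0) (hρ' : (fun n => ρ' n - ρ) =O[l] δ)
    (hR : Rᵀ * R = 1) (hR' : ∀ᶠ n in l, (R' n)ᵀ * R' n = 1)
    (hRR : ∀ i j, (fun n => R' n i j - R i j) =O[l] δ) (cτ : Continuous τ)
    (hne : ∀ θ, 1 + τ θ ^ 2 ≠ 0)
    (hV : ∀ᶠ n in l, ∀ θ, ‖R' n *ᵥ (ρ' n • om (τ' n θ) θ) - R *ᵥ (ρ • om (τ θ) θ)‖ ≤ δ n) :
    (fun x : α × ℝ => om (τ' x.1 x.2) x.2 - om (τ x.2) x.2) =O[l ×ˢ 𝓟 (Icc 0 (2 * π))]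
      fun x => δ x.1 := by
  have cω := continuous_om cτ hne
  have cΓ : Continuous fun θ => R *ᵥ (ρ • om (τ θ) θ) :=
    continuous_const.matrix_mulVec (cω.const_smul ρ)
  set L := l ×ˢ 𝓟 (Icc 0 (2 * π)) with hL
  have o1 : (fun x : α × ℝ => δ x.1) =O[L] fun _ => (1 : ℝ) :=
    (hδ.comp tendsto_fst).isBigO_one ℝ
  have oV : (fun x : α × ℝ => R' x.1 *ᵥ (ρ' x.1 • om (τ' x.1 x.2) x.2) -
      R *ᵥ (ρ • om (τ x.2) x.2)) =O[L] fun x => δ x.1 := by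
    refine IsBigO.of_bound 1 ?_
    filter_upwards [tendsto_fst.eventually hV] with x hx
    rw [one_mul]
    exact (hx x.2).trans (le_abs_self _)
  have oR : ∀ i j, (fun x : α × ℝ => (R' x.1 - R) i j) =O[L] fun x => δ x.1 :=
    fun i j => (hRR i j).comp_tendsto tendsto_fst
  have h1 : ∀ i j, (fun x : α × ℝ => (R' x.1)ᵀ i j) =O[L] fun _ => (1 : ℝ) := fun i j => by
    have := ((oR j i).trans o1).add (isBigO_const_const (R j i) one_ne_zero L)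
    simpa using this
  have hlim : Tendsto ρ' l (𝓝 ρ) := tendsto_sub_nhds_zero_iff.1 (hρ'.trans_tendsto hδ)
  have oρ : (fun x : α × ℝ => (ρ' x.1)⁻¹) =O[L] fun _ => (1 : ℝ) :=
    ((hlim.inv₀ hρ).comp tendsto_fst).isBigO_one ℝ
  have h2 := ((isBigO_mulVec h1 oV).add ((isBigO_mulVec (N := fun x : α × ℝ => (R' x.1 - R)ᵀ)
    (fun i j => oR j i) (isBigO_one_of_continuous l cΓ)).congr_right
    (g₂ := fun x => 1 * δ x.1) fun x => by ring)).sub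
    (((hρ'.comp_tendsto tendsto_fst).smul (isBigO_one_of_continuous l cω)).congr_right
    (g₂ := fun x => 1 * δ x.1) fun x => by simp)
  refine ((oρ.smul h2).congr_right fun x => by simp).congr' ?_ EventuallyEq.rfl
  filter_upwards [tendsto_fst.eventually hR', tendsto_fst.eventually (hlim.eventually_ne hρ)]
    with x hx hx'
  simp only [Function.comp, Matrix.mulVec_sub, Matrix.transpose_sub, Matrix.mulVec_mulVec, hx,
    Matrix.one_mulVec]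
  rw [sub_mul, hR, Matrix.sub_mulVec, Matrix.one_mulVec, sub_add_sub_cancel, sub_smul,
    sub_sub_sub_cancel_right, ← smul_sub, inv_smul_smul₀ hx']

lemma isBigO_area_sub (hδ : Tendsto δ l (𝓝 0)) (hρ : ρ ≠ 0) (hρ' : (fun n => ρ' n - ρ) =O[l] δ)
    (hR : Rᵀ * R = 1) (hR' : ∀ᶠ n in l, (R' n)ᵀ * R' n = 1)
    (hRR : ∀ i j, (fun n => R' n i j - R i j) =O[l] δ) (cτ : Continuous τ)
    (hne : ∀ θ, 1 + τ θ ^ 2 ≠ 0) (hne' : ∀ᶠ n in l, ∀ θ, 1 + τ' n θ ^ 2 ≠ 0)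
    (hc' : ∀ᶠ n in l, Continuous (τ' n))
    (hV : ∀ᶠ n in l, ∀ θ, ‖R' n *ᵥ (ρ' n • om (τ' n θ) θ) - R *ᵥ (ρ • om (τ θ) θ)‖ ≤ δ n) :
    (fun n => (∫ θ in (0 : ℝ)..2 * π, cc (τ' n θ)) - ∫ θ in (0 : ℝ)..2 * π, cc (τ θ)) =O[l] δ := by
  have h1 := (isBigO_pi.1 (isBigO_om_sub hδ hρ hρ' hR hR' hRR cτ hne hV) 2).neg_left
  refine (isBigO_integral (f := fun n θ => -(om (τ' n θ) θ - om (τ θ) θ) 2) h1).congr' ?_
    EventuallyEq.rfl
  filter_upwards [hne', hc'] with n hn hn'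
  rw [← intervalIntegral.integral_sub ((continuous_cc hn' hn).intervalIntegrable _ _)
    ((continuous_cc cτ hne).intervalIntegrable _ _)]
  refine intervalIntegral.integral_congr fun θ _ => ?_
  rw [cc_eq (hn θ) θ, cc_eq (hne θ) θ, Pi.sub_apply]
  ring

/-- The boundary term of the first variation is the variation of the enclosed area and of the
radius of the sphere. -/
theorem bdry_expansion (hδ : Tendsto δ l (𝓝 0)) (hρ : ρ ≠ 0)
    (hρ' : (fun n => ρ' n - ρ) =O[l] δ) (hR : Rᵀ * R = 1) (hR' : ∀ᶠ n in l, (R' n)ᵀ * R' n = 1)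
    (hRR : ∀ i j, (fun n => R' n i j - R i j) =O[l] δ)
    (hτ : ∀ θ, HasDerivAt τ (τd θ) θ) (hτd : Continuous τd) (hper : τ (2 * π) = τ 0)
    (hne : ∀ θ, 1 + τ θ ^ 2 ≠ 0) (hne' : ∀ᶠ n in l, ∀ θ, 1 + τ' n θ ^ 2 ≠ 0)
    (hc' : ∀ᶠ n in l, Continuous (τ' n)) {a : ℝ → C3} (ha : Continuous a)
    (hg : ∀ θ, gram (a θ) (R *ᵥ (ρ • omd (τ θ) (τd θ) θ)) ∈ slitPlane) {P : ℂ}
    (hP : ∀ θ, con (R *ᵥ (ρ • om (τ θ) θ)) (a θ) (R *ᵥ (ρ • omd (τ θ) (τd θ) θ)) = P)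
    (hV : ∀ᶠ n in l, ∀ θ, ‖R' n *ᵥ (ρ' n • om (τ' n θ) θ) - R *ᵥ (ρ • om (τ θ) θ)‖ ≤ δ n) :
    (fun n => (∫ θ in (0 : ℝ)..2 * π, mom1 (R *ᵥ (ρ • om (τ θ) θ)) (a θ)
        (R *ᵥ (ρ • omd (τ θ) (τd θ) θ))
        (R' n *ᵥ (ρ' n • om (τ' n θ) θ) - R *ᵥ (ρ • om (τ θ) θ))) -
      ((ρ' n ^ 2 - ρ ^ 2) / 2 * (∫ θ in (0 : ℝ)..2 * π, rad (R *ᵥ (ρ • om (τ θ) θ)) (a θ)
        (R *ᵥ (ρ • omd (τ θ) (τd θ) θ))) + P * R.det * ρ ^ 3 *
        ((∫ θ in (0 : ℝ)..2 * π, cc (τ' n θ)) - ∫ θ in (0 : ℝ)..2 * π, cc (τ θ))))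
      =O[l] fun n => δ n * δ n := by
  have hRt : R * Rᵀ = 1 := mul_eq_one_comm.1 hR
  have cτ : Continuous τ := continuous_iff_continuousAt.2 fun θ => (hτ θ).continuousAt
  have dω : ∀ θ, HasDerivAt (fun t => om (τ t) t) (omd (τ θ) (τd θ) θ) θ :=
    fun θ => hasDerivAt_om (hτ θ) (hne θ)
  have cω := continuous_om cτ hne
  have cβ := continuous_omd cτ hτd hne
  have cc1 := continuous_cc cτ hne
  have cΓ : Continuous fun θ => R *ᵥ (ρ • om (τ θ) θ) :=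
    continuous_const.matrix_mulVec (cω.const_smul ρ)
  have cb : Continuous fun θ => R *ᵥ (ρ • omd (τ θ) (τd θ) θ) :=
    continuous_const.matrix_mulVec (cβ.const_smul ρ)
  have hΓ : ∀ θ, (R *ᵥ (ρ • om (τ θ) θ)) ⬝ᵥ (R *ᵥ (ρ • om (τ θ) θ)) = ρ ^ 2 := fun θ =>
    rot_om_dot hR ρ (hne θ) θ
  have od := isBigO_om_sub hδ hρ hρ' hR hR' hRR cτ hne hV
  set L := l ×ˢ 𝓟 (Icc 0 (2 * π)) with hL
  set N : α → Matrix (Fin 3) (Fin 3) ℂ := fun n => Rᵀ * (R' n - R) with hN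
  set σ : α → C3 := fun n => ![N n 2 1 - N n 1 2, N n 0 2 - N n 2 0, N n 1 0 - N n 0 1] with hσ
  have cμ : Continuous fun θ => rad (R *ᵥ (ρ • om (τ θ) θ)) (a θ)
      (R *ᵥ (ρ • omd (τ θ) (τd θ) θ)) := by
    rw [← continuousOn_univ]
    exact (continuousOn_wt_div cΓ.continuousOn ha.continuousOn cb.continuousOn
      fun θ _ => hg θ).mul (((continuousOn_dot cb.continuousOn cb.continuousOn).mul
        (continuousOn_dot ha.continuousOn cΓ.continuousOn)).div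
        (continuousOn_dot cΓ.continuousOn cΓ.continuousOn)
        fun θ _ => by rw [hΓ]; exact pow_ne_zero _ hρ)
  set V : α × ℝ → C3 := fun x =>
    R' x.1 *ᵥ (ρ' x.1 • om (τ' x.1 x.2) x.2) - R *ᵥ (ρ • om (τ x.2) x.2) with hVd
  set d : α × ℝ → C3 := fun x => om (τ' x.1 x.2) x.2 - om (τ x.2) x.2 with hd
  have o1 : (fun x : α × ℝ => δ x.1) =O[L] fun _ => (1 : ℝ) :=
    (hδ.comp tendsto_fst).isBigO_one ℝ
  have oV : V =O[L] fun x => δ x.1 := by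
    refine IsBigO.of_bound 1 ?_
    filter_upwards [tendsto_fst.eventually hV] with x hx
    rw [one_mul]
    exact (hx x.2).trans (le_abs_self _)
  have oR : ∀ i j, (fun x : α × ℝ => (R' x.1 - R) i j) =O[L] fun x => δ x.1 :=
    fun i j => (hRR i j).comp_tendsto tendsto_fst
  have oc : ∀ (A : Matrix (Fin 3) (Fin 3) ℂ) i j, (fun _ : α × ℝ => A i j) =O[L] fun _ => (1 : ℝ) :=
    fun A i j => isBigO_const_const _ one_ne_zero _
  have oN : ∀ i j, (fun x : α × ℝ => N x.1 i j) =O[L] fun x => δ x.1 := fun i j => by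
    simpa using isBigO_matMul (oc Rᵀ) oR i j
  have oω := isBigO_one_of_continuous l cω
  have oβ := isBigO_one_of_continuous l cβ
  have oρ : (fun x : α × ℝ => ρ' x.1 - ρ) =O[L] fun x => δ x.1 := hρ'.comp_tendsto tendsto_fst
  have o2 : (fun x : α × ℝ => mom1 (R *ᵥ (ρ • om (τ x.2) x.2)) (a x.2)
      (R *ᵥ (ρ • omd (τ x.2) (τd x.2) x.2)) (V x) - ((ρ' x.1 ^ 2 - ρ ^ 2) / 2 *
      rad (R *ᵥ (ρ • om (τ x.2) x.2)) (a x.2) (R *ᵥ (ρ • omd (τ x.2) (τd x.2) x.2)) +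
      P * R.det * ρ ^ 3 *
      (cc (τ' x.1 x.2) - cc (τ x.2) + σ x.1 ⬝ᵥ omd (τ x.2) (τd x.2) x.2 / 2))) =O[L]
      fun x => δ x.1 * δ x.1 := by
    have t1 := (isBigO_one_of_continuous l cμ).mul (isBigO_dot oV oV)
    have t2 := (isBigO_pi.1 oω 2).mul (isBigO_dot od od)
    have t3 := isBigO_dot oω (isBigO_cross (isBigO_mulVec oN od) oβ)
    have t4 := isBigO_dot oω (isBigO_cross (isBigO_mulVec
      (isBigO_matMul (N := fun x : α × ℝ => (N x.1)ᵀ) (fun i j => oN j i) oN) oω) oβ)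
    have t5 := isBigO_dot oω (isBigO_cross od oβ)
    have t6 := isBigO_dot oω (isBigO_cross (isBigO_mulVec oN oω) oβ)
    have t7 := isBigO_dot oω (isBigO_cross (isBigO_mulVec oN (od.trans o1)) oβ)
    simp only [one_mul, mul_one] at t1 t2 t3 t4 t5 t6 t7
    refine (((t1.const_mul_left (-1 / 2)).add ((((t2.const_mul_left (-1 / 2)).add t3).add
      (t4.const_mul_left (-1 / 2))).const_mul_left (P * R.det * ρ ^ 3))).add
      ((oρ.mul ((t5.add t6).add t7)).const_mul_left (P * R.det * ρ ^ 2))).congr' ?_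
      EventuallyEq.rfl
    filter_upwards [tendsto_fst.eventually hR', tendsto_fst.eventually hne'] with x hx hx'
    have e1 : R' x.1 = R * (1 + N x.1) := by
      simp only [hN]
      rw [mul_add, mul_one, ← mul_assoc, hRt, one_mul, add_sub_cancel]
    have e2 : N x.1 + (N x.1)ᵀ = -((N x.1)ᵀ * N x.1) := by
      have : (1 + N x.1)ᵀ * (1 + N x.1) = 1 := by
        rw [e1, Matrix.transpose_mul, mul_assoc, ← mul_assoc Rᵀ, hR, one_mul] at hx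
        exact hx
      rw [Matrix.transpose_add, Matrix.transpose_one, add_mul, mul_add, mul_add] at this
      simp only [one_mul, mul_one] at this
      rw [eq_neg_iff_add_eq_zero]
      calc _ = 1 + N x.1 + ((N x.1)ᵀ + (N x.1)ᵀ * N x.1) - 1 := by abel
        _ = 0 := by rw [this, sub_self]
    have e3 : V x = R *ᵥ (ρ' x.1 • (d x + N x.1 *ᵥ om (τ x.2) x.2 + N x.1 *ᵥ d x) +
        (ρ' x.1 - ρ) • om (τ x.2) x.2) := by
      simp only [hVd, hd]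
      rw [e1, ← Matrix.mulVec_mulVec, ← Matrix.mulVec_sub]
      congr 1
      simp only [Matrix.add_mulVec, Matrix.one_mulVec, Matrix.mulVec_smul, Matrix.mulVec_sub]
      module
    have e4 : (R *ᵥ (ρ • om (τ x.2) x.2)) ⬝ᵥ V x = (ρ' x.1 ^ 2 - ρ ^ 2 - V x ⬝ᵥ V x) / 2 := by
      have h1 := rot_om_dot hx (ρ' x.1) (hx' x.2) x.2
      have h2 := hΓ x.2
      simp only [hVd, sub_dotProduct, dotProduct_sub, h1, h2]
      rw [dotProduct_comm (R' x.1 *ᵥ _)]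
      ring
    have e5 : (R *ᵥ (ρ • om (τ x.2) x.2)) ⬝ᵥ (R *ᵥ (ρ • omd (τ x.2) (τd x.2) x.2)) = 0 := by
      rw [dot_rot hR, smul_dotProduct, dotProduct_smul, om_dot_omd (hne x.2)]
      simp
    rw [mom1_split _ e5 (by rw [hΓ]; exact pow_ne_zero _ hρ), hP, e4]
    have e8 : (R *ᵥ (ρ • om (τ x.2) x.2)) ⬝ᵥ V x ⨯₃ (R *ᵥ (ρ • omd (τ x.2) (τd x.2) x.2)) =
        R.det * (ρ ^ 2 * ρ' x.1 * (om (τ x.2) x.2 ⬝ᵥ d x ⨯₃ omd (τ x.2) (τd x.2) x.2 +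
          om (τ x.2) x.2 ⬝ᵥ (N x.1 *ᵥ om (τ x.2) x.2) ⨯₃ omd (τ x.2) (τd x.2) x.2 +
          om (τ x.2) x.2 ⬝ᵥ (N x.1 *ᵥ d x) ⨯₃ omd (τ x.2) (τd x.2) x.2)) := by
      rw [e3, triple_mulVec]
      simp only [map_smul, map_add, LinearMap.smul_apply, LinearMap.add_apply, smul_dotProduct,
        dotProduct_smul, dotProduct_add, smul_eq_mul, dot_self_cross]
      ring
    have e6 := area_exact (hne x.2) (hx' x.2) (τd x.2) x.2
    have e7 := skew_triple (N x.1) (om (τ x.2) x.2) (omd (τ x.2) (τd x.2) x.2)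
    rw [e2, om_dot (hne x.2), om_dot_omd (hne x.2), Matrix.neg_mulVec] at e7
    simp only [map_neg, LinearMap.neg_apply, dotProduct_neg] at e7
    rw [e8]
    simp only [hσ, hd, rad] at e6 ⊢
    rw [e6, e7]
    ring
  refine (isBigO_integral (f := fun n θ => mom1 (R *ᵥ (ρ • om (τ θ) θ)) (a θ)
      (R *ᵥ (ρ • omd (τ θ) (τd θ) θ)) (V (n, θ)) - ((ρ' n ^ 2 - ρ ^ 2) / 2 *
      rad (R *ᵥ (ρ • om (τ θ) θ)) (a θ) (R *ᵥ (ρ • omd (τ θ) (τd θ) θ)) + P * R.det * ρ ^ 3 *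
      (cc (τ' n θ) - cc (τ θ) + σ n ⬝ᵥ omd (τ θ) (τd θ) θ / 2))) o2).congr' ?_ EventuallyEq.rfl
  filter_upwards [hne', hc'] with n hn hn'
  have cc2 := continuous_cc hn' hn
  have cω' := continuous_om hn' hn
  have cV : Continuous fun θ => V (n, θ) :=
    ((continuous_const (y := R' n)).matrix_mulVec (cω'.const_smul (ρ' n))).sub cΓ
  have c3 : Continuous fun θ => σ n ⬝ᵥ omd (τ θ) (τd θ) θ / 2 :=
    (continuous_const.dotProduct cβ).div_const _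
  have c4 : Continuous fun θ => mom1 (R *ᵥ (ρ • om (τ θ) θ)) (a θ)
      (R *ᵥ (ρ • omd (τ θ) (τd θ) θ)) (V (n, θ)) := by
    rw [← continuousOn_univ]
    exact continuousOn_mom1 cΓ.continuousOn ha.continuousOn cb.continuousOn cV.continuousOn
      fun θ _ => hg θ
  have z : ∫ θ in (0 : ℝ)..2 * π, σ n ⬝ᵥ omd (τ θ) (τd θ) θ / 2 = 0 := by
    rw [intervalIntegral.integral_eq_sub_of_hasDerivAt (f := fun θ => σ n ⬝ᵥ om (τ θ) θ / 2)
      (fun θ _ => by simpa using (hasDerivAt_dot (hasDerivAt_const θ (σ n)) (dω θ)).div_const 2)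
      (c3.intervalIntegrable _ _), hper]
    simp [om]
  have c5 := (continuous_const (y := P * R.det * ρ ^ 3)).fun_mul ((cc2.fun_sub cc1).fun_add c3)
  have c6 := (continuous_const (y := (ρ' n ^ 2 - ρ ^ 2) / 2)).fun_mul cμ
  rw [intervalIntegral.integral_sub (c4.intervalIntegrable _ _)
    ((c6.fun_add c5).intervalIntegrable _ _), intervalIntegral.integral_add
    (c6.intervalIntegrable _ _) (c5.intervalIntegrable _ _),
    intervalIntegral.integral_const_mul, intervalIntegral.integral_const_mul,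
    intervalIntegral.integral_add
    ((cc2.fun_sub cc1).intervalIntegrable _ _) (c3.intervalIntegrable _ _), z, add_zero,
    intervalIntegral.integral_sub (cc2.intervalIntegrable _ _) (cc1.intervalIntegrable _ _)]

end expansion

end Vale.Agent.P218VA
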