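import Vale.Agent.P218VA.Strip
import Vale.Agent.P272.K.LIN.Cov

/-!
# The Lagrangian densities on a surface with an atlas
-/

open scoped Matrix Topology Real ContDiff
open Complex Filter Set MeasureTheory Metric
open Vale.Agent.P272.K.LIN

noncomputable section

set_option linter.unusedSectionVars false

namespace Vale.Agent.P218VA

lemma two_le_inf : (2 : WithTop ℕ∞) ≤ ∞ := by norm_cast

lemma one_le_inf : (1 : WithTop ℕ∞) ≤ ∞ := by norm_cast

variable {M : Type*} [TopologicalSpace M] [ChartedSpace E2 M]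

/-- a function read in a chart -/
def cX {G : Type*} (e : OpenPartialHomeomorph M E2) (X : M → G) : E2 → G := fun y => X (e.symm y)

section ck
variable {G : Type*} [NormedAddCommGroup G] [NormedSpace ℝ G]

/-- `X` is of class `C^k` at `x` in all charts -/
def CkAt (k : WithTop ℕ∞) (X : M → G) (x : M) : Prop :=
  ∀ e ∈ atlas E2 M, x ∈ e.source → ContDiffAt ℝ k (cX e X) (e x)

variable {k l : WithTop ℕ∞} {X X' : M → G} {x : M} {e e' : OpenPartialHomeomorph M E2}

lemma CkAt.of_le (h : CkAt k X x) (hl : l ≤ k) : CkAt l X x := fun e he hx => (h e he hx).of_le hl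

lemma CkFn.ckAt (h : CkFn E2 k X) (x : M) : CkAt k X x := fun e he hx => h e he x hx

lemma tendsto_symm (hx : x ∈ e.source) : Tendsto e.symm (𝓝 (e x)) (𝓝 x) := by
  have := e.symm.continuousAt (x := e x) (e.map_source hx)
  unfold ContinuousAt at this
  rwa [e.left_inv hx] at this

lemma cX_congr {G : Type*} {X X' : M → G} (hx : x ∈ e.source) (h : X =ᶠ[𝓝 x] X') :
    cX e X =ᶠ[𝓝 (e x)] cX e X' := (tendsto_symm hx).eventually h

lemma CkAt.congr (h : CkAt k X x) (h' : X' =ᶠ[𝓝 x] X) : CkAt k X' x :=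
  fun e he hx => (h e he hx).congr_of_eventuallyEq (cX_congr hx h')

lemma cX_trans {G : Type*} (X : M → G) (hx : x ∈ e.source) (hx' : x ∈ e'.source) :
    cX e' X =ᶠ[𝓝 (e' x)] fun y => cX e X (e (e'.symm y)) := by
  filter_upwards [symm_trans_eq hx hx'] with y hy
  simp only [cX]
  rw [e.left_inv hy.1]

lemma ckAt_of_chart [RSm E2 M] (hk : k ≤ ∞) (he : e ∈ atlas E2 M) (hx : x ∈ e.source)
    (h : ContDiffAt ℝ k (cX e X) (e x)) : CkAt k X x := by
  intro e' he' hx'
  have h1 : ContDiffAt ℝ k (fun y => e (e'.symm y)) (e' x) :=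
    (RSm.trans e' he' e he x hx' hx).of_le hk
  refine ContDiffAt.congr_of_eventuallyEq (ContDiffAt.comp (g := cX e X) (e' x) ?_ h1)
    (cX_trans X hx hx')
  rwa [e'.left_inv hx']

lemma CkAt.continuousAt (h : CkAt k X x) : ContinuousAt X x := by
  have hx := mem_chart_source E2 x
  have h1 := (h _ (chart_mem_atlas E2 x) hx).continuousAt
  have h3 : ContinuousAt (fun z => cX (chartAt E2 x) X (chartAt E2 x z)) x :=
    ContinuousAt.comp (f := chartAt E2 x) h1 ((chartAt E2 x).continuousAt hx)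
  refine h3.congr ?_
  filter_upwards [(chartAt E2 x).open_source.mem_nhds hx] with z hz
  simp only [cX]
  rw [(chartAt E2 x).left_inv hz]

lemma CkAt.add (h : CkAt k X x) (h' : CkAt k X' x) : CkAt k (fun z => X z + X' z) x :=
  fun e he hx => (h e he hx).add (h' e he hx)

lemma CkAt.sub (h : CkAt k X x) (h' : CkAt k X' x) : CkAt k (fun z => X z - X' z) x :=
  fun e he hx => (h e he hx).sub (h' e he hx)

lemma CkAt.ofReal {c : M → ℝ} (h : CkAt k c x) : CkAt k (fun z => (c z : ℂ)) x :=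
  fun e he hx => Complex.ofRealCLM.contDiff.contDiffAt.comp (e x) (h e he hx)

lemma CkAt.csmul {c : M → ℂ} {V : M → C3} (h : CkAt k c x) (h' : CkAt k V x) :
    CkAt k (fun z => c z • V z) x := fun e he hx => contDiffAt_csmul (h e he hx) (h' e he hx)

lemma CkAt.at_target (he : e ∈ atlas E2 M) {y : E2} (hy : y ∈ e.target)
    (h : CkAt k X (e.symm y)) : ContDiffAt ℝ k (cX e X) y := by
  have := h e he (e.map_target hy)
  rwa [e.right_inv hy] at this

end ck

variable [RSm E2 M] {e e' : OpenPartialHomeomorph M E2} {x : M}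

lemma trans_smooth (he : e ∈ atlas E2 M) (he' : e' ∈ atlas E2 M) (hx : x ∈ e.source)
    (hx' : x ∈ e'.source) : ContDiffAt ℝ 2 (fun y => e (e'.symm y)) (e' x) :=
  (RSm.trans e' he' e he x hx' hx).of_le two_le_inf

lemma jac_trans_ne (he : e ∈ atlas E2 M) (he' : e' ∈ atlas E2 M) (hx : x ∈ e.source)
    (hx' : x ∈ e'.source) : jac u1 u2 (fun y => e (e'.symm y)) (e' x) ≠ 0 := by
  have h1 := (trans_smooth he he' hx hx').differentiableAt (by norm_num)
  have h2 := (trans_smooth he' he hx' hx).differentiableAt (by norm_num)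
  have h3 : (fun y => e' (e.symm (e (e'.symm y)))) =ᶠ[𝓝 (e' x)] id := by
    filter_upwards [symm_trans_eq hx hx'] with y hy
    rw [e.left_inv hy.1, e'.right_inv hy.2, id]
  have h4 := h3.fderiv_eq (𝕜 := ℝ)
  rw [fderiv_fun_comp (e' x) (g := fun y => e' (e.symm y)) (by rwa [e'.left_inv hx']) h1,
    fderiv_id] at h4
  have h5 := congrArg ContinuousLinearMap.det h4
  rw [← det_eq_jac]
  intro h0
  unfold ContinuousLinearMap.det at h5 h0
  rw [ContinuousLinearMap.toLinearMap_comp, LinearMap.det_comp, h0, mul_zero] at h5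
  simp at h5

/-- `X` is a complex immersion of class `C^2` at `x` -/
structure Imm (X : M → C3) (x : M) : Prop where
  ck : CkAt 2 X x
  slit : ∀ e ∈ atlas E2 M, x ∈ e.source → gramF u1 u2 (cX e X) (e x) ∈ slitPlane

variable {F X V : M → C3}

lemma imm_of_chart (he : e ∈ atlas E2 M) (hx : x ∈ e.source)
    (h : ContDiffAt ℝ 2 (cX e X) (e x)) (hs : gramF u1 u2 (cX e X) (e x) ∈ slitPlane) :
    Imm X x := by
  refine ⟨ckAt_of_chart two_le_inf he hx h, fun e' he' hx' => ?_⟩
  rw [gramF_congr (cX_trans X hx hx'), gramF_comp_slit _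
    ((trans_smooth he he' hx hx').differentiableAt (by norm_num)) (jac_trans_ne he he' hx hx')]
  · rwa [e'.left_inv hx']
  · rw [e'.left_inv hx']
    exact h.differentiableAt (by norm_num)

lemma Imm.congr {X' : M → C3} (h : Imm X x) (h' : X' =ᶠ[𝓝 x] X) : Imm X' x :=
  ⟨h.ck.congr h', fun e he hx => by rw [gramF_congr (cX_congr hx h')]; exact h.slit e he hx⟩

lemma Imm.lag_ne (h : Imm F x) (he : e ∈ atlas E2 M) (hx : x ∈ e.source) :
    LagF u1 u2 (cX e F) (e x) ≠ 0 := mul_ne_zero (wt_ne _) (ar_ne' (h.slit e he hx))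

/-- the reference density in the preferred chart -/
def den (F : M → C3) (x : M) : ℂ := LagF u1 u2 (cX (chartAt E2 x) F) (chartAt E2 x x)

/-- the Lagrangian relative to the reference density -/
def LagM (F X : M → C3) (x : M) : ℂ :=
  LagF u1 u2 (cX (chartAt E2 x) X) (chartAt E2 x x) / den F x

/-- the derivative of the Lagrangian relative to the reference density -/
def dLagM (F X V : M → C3) (x : M) : ℂ :=
  dLagF u1 u2 (cX (chartAt E2 x) X) (cX (chartAt E2 x) V) (chartAt E2 x x) / den F x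

/-- the Euler-Lagrange density relative to the reference density -/
def ELM (F X : M → C3) (x : M) (W : C3) : ℂ :=
  ELF u1 u2 (cX (chartAt E2 x) X) (chartAt E2 x x) W / den F x

lemma LagM_congr {X' : M → C3} (h : X =ᶠ[𝓝 x] X') : LagM F X x = LagM F X' x := by
  unfold LagM; rw [LagF_congr (cX_congr (mem_chart_source E2 x) h)]

lemma dLagM_congr {X' V' : M → C3} (h : X =ᶠ[𝓝 x] X') (h' : V =ᶠ[𝓝 x] V') :
    dLagM F X V x = dLagM F X' V' x := by
  unfold dLagM
  rw [dLagF_congr (cX_congr (mem_chart_source E2 x) h) (cX_congr (mem_chart_source E2 x) h')]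

lemma ELM_congr {X' : M → C3} (h : X =ᶠ[𝓝 x] X') (W : C3) : ELM F X x W = ELM F X' x W := by
  unfold ELM; rw [ELF_congr (cX_congr (mem_chart_source E2 x) h)]

lemma dLagM_of_zero (h : ∀ᶠ z in 𝓝 x, V z = 0) : dLagM F X V x = 0 := by
  unfold dLagM
  rw [dLagF_of_zero (V := cX (chartAt E2 x) V)
    ((tendsto_symm (mem_chart_source E2 x)).eventually h), zero_div]

@[simp] lemma ELM_zero : ELM F X x 0 = 0 := by simp [ELM, ELF]

lemma ELM_add (W W' : C3) : ELM F X x (W + W') = ELM F X x W + ELM F X x W' := by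
  simp only [ELM, ELF, EL_add]; ring

lemma ELM_smul (c : ℂ) (W : C3) : ELM F X x (c • W) = c * ELM F X x W := by
  simp only [ELM, ELF, EL_smul]; ring

lemma ELM_sum {ι : Type*} (s : Finset ι) (W : ι → C3) :
    ELM F X x (∑ i ∈ s, W i) = ∑ i ∈ s, ELM F X x (W i) := by
  classical
  induction s using Finset.induction_on with
  | empty => simp
  | insert i s hi ih => rw [Finset.sum_insert hi, Finset.sum_insert hi, ELM_add, ih]

lemma LagM_self (hF : Imm F x) : LagM F F x = 1 :=
  div_self (hF.lag_ne (chart_mem_atlas E2 x) (mem_chart_source E2 x))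

lemma den_chart (hF : Imm F x) (he : e ∈ atlas E2 M) (hx : x ∈ e.source) :
    LagF u1 u2 (cX e F) (e x) =
      (|jac u1 u2 (fun y => chartAt E2 x (e.symm y)) (e x)| : ℝ) * den F x := by
  have hc := chart_mem_atlas E2 x
  have hx0 := mem_chart_source E2 x
  rw [LagF_congr (cX_trans F hx0 hx), LagF_comp _
    ((trans_smooth hc he hx0 hx).differentiableAt (by norm_num)) (jac_trans_ne hc he hx0 hx)]
  · rw [e.left_inv hx]; rfl
  · rw [e.left_inv hx]
    exact (hF.ck _ hc hx0).differentiableAt (by norm_num)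

lemma LagM_chart (hF : Imm F x) (hX : CkAt 1 X x) (he : e ∈ atlas E2 M) (hx : x ∈ e.source) :
    LagM F X x * LagF u1 u2 (cX e F) (e x) = LagF u1 u2 (cX e X) (e x) := by
  have hc := chart_mem_atlas E2 x
  have hx0 := mem_chart_source E2 x
  have h0 : den F x ≠ 0 := hF.lag_ne hc hx0
  rw [den_chart hF he hx, LagF_congr (cX_trans X hx0 hx), LagF_comp _
    ((trans_smooth hc he hx0 hx).differentiableAt (by norm_num)) (jac_trans_ne hc he hx0 hx)]
  · rw [e.left_inv hx, LagM]; field_simp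
  · rw [e.left_inv hx]
    exact (hX _ hc hx0).differentiableAt one_ne_zero

lemma dLagM_chart (hF : Imm F x) (hX : CkAt 1 X x) (hV : CkAt 1 V x) (he : e ∈ atlas E2 M)
    (hx : x ∈ e.source) :
    dLagM F X V x * LagF u1 u2 (cX e F) (e x) = dLagF u1 u2 (cX e X) (cX e V) (e x) := by
  have hc := chart_mem_atlas E2 x
  have hx0 := mem_chart_source E2 x
  have h0 : den F x ≠ 0 := hF.lag_ne hc hx0
  rw [den_chart hF he hx, dLagF_congr (cX_trans X hx0 hx) (cX_trans V hx0 hx), dLagF_comp _ _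
    ((trans_smooth hc he hx0 hx).differentiableAt (by norm_num)) (jac_trans_ne hc he hx0 hx)]
  · rw [e.left_inv hx, dLagM]; field_simp
  · rw [e.left_inv hx]
    exact (hX _ hc hx0).differentiableAt one_ne_zero
  · rw [e.left_inv hx]
    exact (hV _ hc hx0).differentiableAt one_ne_zero

lemma ELM_chart (hF : Imm F x) (hX : CkAt 2 X x) (he : e ∈ atlas E2 M) (hx : x ∈ e.source)
    (W : C3) : ELM F X x W * LagF u1 u2 (cX e F) (e x) = ELF u1 u2 (cX e X) (e x) W := by
  have hc := chart_mem_atlas E2 x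
  have hx0 := mem_chart_source E2 x
  have h0 : den F x ≠ 0 := hF.lag_ne hc hx0
  rw [den_chart hF he hx, ELF_congr (cX_trans X hx0 hx), ELF_comp _
    (trans_smooth hc he hx0 hx) (jac_trans_ne hc he hx0 hx)]
  · rw [e.left_inv hx, ELM]; field_simp
  · rw [e.left_inv hx]
    exact hX _ hc hx0

/-! ### Other parametrisations -/

section param
variable {D : Type*} [NormedAddCommGroup D] [NormedSpace ℝ D] {d1 d2 : D} {T : D → E2} {y : D}

lemma LagM_param (he : e ∈ atlas E2 M) (hy : T y ∈ e.target) (hF : Imm F (e.symm (T y)))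
    (hX : CkAt 1 X (e.symm (T y))) (hT : DifferentiableAt ℝ T y) (hj : jac d1 d2 T y ≠ 0) :
    LagM F X (e.symm (T y)) * LagF d1 d2 (fun z => F (e.symm (T z))) y =
      LagF d1 d2 (fun z => X (e.symm (T z))) y := by
  have h := LagM_chart hF hX he (e.map_target hy)
  rw [e.right_inv hy] at h
  have h1 := LagF_comp ((hF.ck.at_target he hy).differentiableAt (by norm_num)) hT hj
  have h2 := LagF_comp ((hX.at_target he hy).differentiableAt one_ne_zero) hT hj
  simp only [cX] at h1 h2
  rw [h1, h2, ← h]; ring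

lemma dLagM_param (he : e ∈ atlas E2 M) (hy : T y ∈ e.target) (hF : Imm F (e.symm (T y)))
    (hX : CkAt 1 X (e.symm (T y))) (hV : CkAt 1 V (e.symm (T y))) (hT : DifferentiableAt ℝ T y)
    (hj : jac d1 d2 T y ≠ 0) :
    dLagM F X V (e.symm (T y)) * LagF d1 d2 (fun z => F (e.symm (T z))) y =
      dLagF d1 d2 (fun z => X (e.symm (T z))) (fun z => V (e.symm (T z))) y := by
  have h := dLagM_chart hF hX hV he (e.map_target hy)
  rw [e.right_inv hy] at h
  have h1 := LagF_comp ((hF.ck.at_target he hy).differentiableAt (by norm_num)) hT hj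
  have h2 := dLagF_comp ((hX.at_target he hy).differentiableAt one_ne_zero)
    ((hV.at_target he hy).differentiableAt one_ne_zero) hT hj
  simp only [cX] at h1 h2
  rw [h1, h2, ← h]; ring

lemma ELM_param (he : e ∈ atlas E2 M) (hy : T y ∈ e.target) (hF : Imm F (e.symm (T y)))
    (hX : CkAt 2 X (e.symm (T y))) (hT : ContDiffAt ℝ 2 T y) (hj : jac d1 d2 T y ≠ 0) (W : C3) :
    ELM F X (e.symm (T y)) W * LagF d1 d2 (fun z => F (e.symm (T z))) y =
      ELF d1 d2 (fun z => X (e.symm (T z))) y W := by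
  have h := ELM_chart hF hX he (e.map_target hy) W
  rw [e.right_inv hy] at h
  have h1 := LagF_comp ((hF.ck.at_target he hy).differentiableAt (by norm_num))
    (hT.differentiableAt (by norm_num)) hj
  have h2 := ELF_comp (hX.at_target he hy) hT hj W
  simp only [cX] at h1 h2
  rw [h1, h2, ← h]; ring

end param

/-! ### Continuity -/

lemma continuousOn_of_chart {Ω : Set M} (hΩ : IsOpen Ω) (hF : ∀ x ∈ Ω, Imm F x) {g : M → ℂ}
    {Dn : OpenPartialHomeomorph M E2 → E2 → ℂ}
    (h1 : ∀ e ∈ atlas E2 M, ∀ x ∈ Ω, x ∈ e.source → g x * LagF u1 u2 (cX e F) (e x) = Dn e (e x))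
    (h2 : ∀ e ∈ atlas E2 M, ContinuousOn (Dn e) (e.target ∩ e.symm ⁻¹' Ω)) :
    ContinuousOn g Ω := by
  intro x hx
  have hc := chart_mem_atlas E2 x
  have hx0 := mem_chart_source E2 x
  set c := chartAt E2 x
  have hU : c.target ∩ c.symm ⁻¹' Ω ∈ 𝓝 (c x) :=
    (c.symm.isOpen_inter_preimage hΩ).mem_nhds ⟨c.map_source hx0, by
      simpa only [mem_preimage, c.left_inv hx0] using hx⟩
  have k1 : ContinuousAt (LagF u1 u2 (cX c F)) (c x) :=
    (continuousOn_LagF (U := c.target ∩ c.symm ⁻¹' Ω)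
      (fun y hy => ((hF _ hy.2).ck.at_target hc hy.1).of_le (by norm_num)) fun y hy => by
        have := (hF _ hy.2).slit c hc (c.map_target hy.1)
        rwa [c.right_inv hy.1] at this).continuousAt hU
  have k2 : ContinuousAt (fun y => Dn c y / LagF u1 u2 (cX c F) y) (c x) :=
    ((h2 c hc).continuousAt hU).div k1 ((hF x hx).lag_ne hc hx0)
  have k3 : ContinuousAt (fun z => Dn c (c z) / LagF u1 u2 (cX c F) (c z)) x :=
    ContinuousAt.comp (f := c) k2 (c.continuousAt hx0)
  refine (k3.congr ?_).continuousWithinAt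
  filter_upwards [c.open_source.mem_nhds hx0, hΩ.mem_nhds hx] with z hz hz'
  rw [← h1 c hc z hz' hz, mul_div_cancel_right₀ _ ((hF z hz').lag_ne hc hz)]

lemma Imm.slit_target (he : e ∈ atlas E2 M) {y : E2} (hy : y ∈ e.target)
    (h : Imm X (e.symm y)) : gramF u1 u2 (cX e X) y ∈ slitPlane := by
  have := h.slit e he (e.map_target hy)
  rwa [e.right_inv hy] at this

variable {Ω : Set M}

lemma continuousOn_LagM (hΩ : IsOpen Ω) (hF : ∀ x ∈ Ω, Imm F x) (hX : ∀ x ∈ Ω, Imm X x) :
    ContinuousOn (LagM F X) Ω :=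
  continuousOn_of_chart hΩ hF (Dn := fun e => LagF u1 u2 (cX e X))
    (fun _ he x hx hx' => LagM_chart (hF x hx) ((hX x hx).ck.of_le (by norm_num)) he hx')
    fun _ he => continuousOn_LagF
      (fun _ hy => ((hX _ hy.2).ck.at_target he hy.1).of_le (by norm_num))
      fun _ hy => (hX _ hy.2).slit_target he hy.1

lemma continuousOn_dLagM (hΩ : IsOpen Ω) (hF : ∀ x ∈ Ω, Imm F x) (hX : ∀ x ∈ Ω, Imm X x)
    (hV : ∀ x ∈ Ω, CkAt 1 V x) : ContinuousOn (dLagM F X V) Ω :=
  continuousOn_of_chart hΩ hF (Dn := fun e => dLagF u1 u2 (cX e X) (cX e V))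
    (fun _ he x hx hx' => dLagM_chart (hF x hx) ((hX x hx).ck.of_le (by norm_num)) (hV x hx) he hx')
    fun _ he => continuousOn_dLagF
      (fun _ hy => ((hX _ hy.2).ck.at_target he hy.1).of_le (by norm_num))
      (fun _ hy => (hV _ hy.2).at_target he hy.1) fun _ hy => (hX _ hy.2).slit_target he hy.1

lemma continuousOn_ELM (hΩ : IsOpen Ω) (hF : ∀ x ∈ Ω, Imm F x) (hX : ∀ x ∈ Ω, Imm X x)
    (hV : ContinuousOn V Ω) : ContinuousOn (fun x => ELM F X x (V x)) Ω :=
  continuousOn_of_chart hΩ hF (Dn := fun e y => ELF u1 u2 (cX e X) y (V (e.symm y)))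
    (fun e he x hx hx' => by rw [e.left_inv hx']; exact ELM_chart (hF x hx) (hX x hx).ck he hx' _)
    fun e he => continuousOn_ELF (fun _ hy => (hX _ hy.2).ck.at_target he hy.1)
      (hV.comp (e.continuousOn_symm.mono inter_subset_left) fun _ hy => hy.2)
      fun _ hy => (hX _ hy.2).slit_target he hy.1

lemma dLagM_add {U : M → C3} (hV : CkAt 1 V x) (hU : CkAt 1 U x) :
    dLagM F X (fun z => V z + U z) x = dLagM F X V x + dLagM F X U x := by
  have hc := chart_mem_atlas E2 x
  have hx0 := mem_chart_source E2 x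
  have h1 := (hV _ hc hx0).differentiableAt one_ne_zero
  have h2 := (hU _ hc hx0).differentiableAt one_ne_zero
  unfold dLagM dLagF
  rw [← add_div, ← dLag_add, ← pd_add h1 h2, ← pd_add h1 h2]
  rfl

lemma ckAt_sum {ι : Type*} {G : Type*} [NormedAddCommGroup G] [NormedSpace ℝ G] {k : WithTop ℕ∞}
    {s : Finset ι} {V : ι → M → G} (hV : ∀ i ∈ s, CkAt k (V i) x) :
    CkAt k (fun z => ∑ i ∈ s, V i z) x :=
  fun e he hx => ContDiffAt.sum fun i hi => hV i hi e he hx

lemma dLagM_sum {ι : Type*} (s : Finset ι) {V : ι → M → C3} (hV : ∀ i ∈ s, CkAt 1 (V i) x) :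
    dLagM F X (fun z => ∑ i ∈ s, V i z) x = ∑ i ∈ s, dLagM F X (V i) x := by
  classical
  induction s using Finset.induction_on with
  | empty => exact dLagM_of_zero (by simp)
  | insert i s hi ih =>
    simp only [Finset.sum_insert hi]
    rw [dLagM_add (hV i (Finset.mem_insert_self i s))
      (ckAt_sum fun j hj => hV j (Finset.mem_insert_of_mem hj)),
      ih fun j hj => hV j (Finset.mem_insert_of_mem hj)]

end Vale.Agent.P218VA
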