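import Vale.Agent.P218VA.Loc
import Mathlib.MeasureTheory.Function.Jacobian
import Mathlib.MeasureTheory.Measure.Haar.InnerProductSpace
import Mathlib.MeasureTheory.Measure.Lebesgue.EqHaar

/-!
# Changes of parameters for parametrised complex surfaces
-/

open scoped Matrix Topology
open Complex Filter Set MeasureTheory

noncomputable section

namespace Vale.Agent.P218VA

/-- the Euclidean plane -/
abbrev E2 := EuclideanSpace ℝ (Fin 2)

/-- first basis vector of the plane -/
def u1 : E2 := EuclideanSpace.single 0 1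

/-- second basis vector of the plane -/
def u2 : E2 := EuclideanSpace.single 1 1

lemma E2_decomp (v : E2) : v = v 0 • u1 + v 1 • u2 := by
  ext i
  fin_cases i <;> simp [u1, u2]

variable {D : Type*} [NormedAddCommGroup D] [NormedSpace ℝ D] (d1 d2 : D)

/-- the Jacobian determinant of a map to the plane -/
def jac (T : D → E2) (y : D) : ℝ := pd T d1 y 0 * pd T d2 y 1 - pd T d2 y 0 * pd T d1 y 1

variable {d1 d2} {T : D → E2} {y : D} {X V : E2 → C3}

lemma pd_comp_gen {F : Type*} [NormedAddCommGroup F] [NormedSpace ℝ F] {X : E2 → F}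
    (hX : DifferentiableAt ℝ X (T y)) (hT : DifferentiableAt ℝ T y) (d : D) :
    pd (fun z => X (T z)) d y = pd T d y 0 • pd X u1 (T y) + pd T d y 1 • pd X u2 (T y) := by
  unfold pd
  rw [fderiv_fun_comp y hX hT, ContinuousLinearMap.comp_apply]
  conv_lhs => rw [E2_decomp (fderiv ℝ T y d)]
  rw [map_add, map_smul, map_smul]

lemma pd_comp (hX : DifferentiableAt ℝ X (T y)) (hT : DifferentiableAt ℝ T y) (d : D) :
    pd (fun z => X (T z)) d y =
      ((pd T d y 0 : ℝ) : ℂ) • pd X u1 (T y) + ((pd T d y 1 : ℝ) : ℂ) • pd X u2 (T y) := by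
  rw [pd_comp_gen hX hT, Complex.coe_smul, Complex.coe_smul]

lemma differentiableAt_coord (hT : ContDiffAt ℝ 2 T y) (d : D) (i : Fin 2) :
    DifferentiableAt ℝ (fun z => ((pd T d z i : ℝ) : ℂ)) y :=
  Complex.ofRealCLM.differentiableAt.comp y
    ((EuclideanSpace.proj (𝕜 := ℝ) i).differentiableAt.comp y (differentiableAt_pd hT d))

lemma pd_pd_comp (hX : ContDiffAt ℝ 2 X (T y)) (hT : ContDiffAt ℝ 2 T y) (d d' : D) :
    pd (pd (fun z => X (T z)) d) d' y =
      (((pd T d y 0 : ℝ) : ℂ) * (pd T d' y 0 : ℝ)) • pd (pd X u1) u1 (T y) +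
      (((pd T d y 0 : ℝ) : ℂ) * (pd T d' y 1 : ℝ) + ((pd T d' y 0 : ℝ) : ℂ) * (pd T d y 1 : ℝ)) •
        pd (pd X u1) u2 (T y) +
      (((pd T d y 1 : ℝ) : ℂ) * (pd T d' y 1 : ℝ)) • pd (pd X u2) u2 (T y) +
      (pd (fun z => ((pd T d z 0 : ℝ) : ℂ)) d' y • pd X u1 (T y) +
        pd (fun z => ((pd T d z 1 : ℝ) : ℂ)) d' y • pd X u2 (T y)) := by
  have hT1 : DifferentiableAt ℝ T y := hT.differentiableAt (by norm_num)
  have e1 : ∀ᶠ z in 𝓝 y, DifferentiableAt ℝ T z :=
    (hT.eventually (by simp)).mono fun z hz => hz.differentiableAt (by norm_num)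
  have e2 : ∀ᶠ z in 𝓝 y, DifferentiableAt ℝ X (T z) :=
    hT1.continuousAt.eventually
      ((hX.eventually (by simp)).mono fun z hz => hz.differentiableAt (by norm_num))
  have e3 : pd (fun z => X (T z)) d =ᶠ[𝓝 y] fun z =>
      ((pd T d z 0 : ℝ) : ℂ) • pd X u1 (T z) + ((pd T d z 1 : ℝ) : ℂ) • pd X u2 (T z) := by
    filter_upwards [e1, e2] with z h1 h2 using pd_comp h2 h1 d
  have a1 : DifferentiableAt ℝ (fun z => pd X u1 (T z)) y :=
    (differentiableAt_pd hX u1).comp y hT1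
  have a2 : DifferentiableAt ℝ (fun z => pd X u2 (T z)) y :=
    (differentiableAt_pd hX u2).comp y hT1
  rw [pd_congr e3, pd_add ((differentiableAt_coord hT d 0).fun_smul a1)
    ((differentiableAt_coord hT d 1).fun_smul a2), pd_csmul (differentiableAt_coord hT d 0) a1,
    pd_csmul (differentiableAt_coord hT d 1) a2, pd_comp (differentiableAt_pd hX u1) hT1,
    pd_comp (differentiableAt_pd hX u2) hT1, pd_comm hX u2 u1]
  module

lemma gramF_comp (hX : DifferentiableAt ℝ X (T y)) (hT : DifferentiableAt ℝ T y) :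
    gramF d1 d2 (fun z => X (T z)) y = ((jac d1 d2 T y : ℝ) : ℂ) ^ 2 * gramF u1 u2 X (T y) := by
  unfold gramF jac
  rw [pd_comp hX hT, pd_comp hX hT, gram_change]
  push_cast
  rfl

lemma gramF_comp_slit (hX : DifferentiableAt ℝ X (T y)) (hT : DifferentiableAt ℝ T y)
    (h : jac d1 d2 T y ≠ 0) :
    gramF d1 d2 (fun z => X (T z)) y ∈ slitPlane ↔ gramF u1 u2 X (T y) ∈ slitPlane := by
  rw [gramF_comp hX hT, slit_real_mul h]

lemma LagF_comp (hX : DifferentiableAt ℝ X (T y)) (hT : DifferentiableAt ℝ T y)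
    (h : jac d1 d2 T y ≠ 0) :
    LagF d1 d2 (fun z => X (T z)) y = (|jac d1 d2 T y| : ℝ) * LagF u1 u2 X (T y) := by
  unfold LagF
  rw [pd_comp hX hT, pd_comp hX hT]
  exact Lag_change h _ _ _

lemma dLagF_comp (hX : DifferentiableAt ℝ X (T y)) (hV : DifferentiableAt ℝ V (T y))
    (hT : DifferentiableAt ℝ T y) (h : jac d1 d2 T y ≠ 0) :
    dLagF d1 d2 (fun z => X (T z)) (fun z => V (T z)) y =
      (|jac d1 d2 T y| : ℝ) * dLagF u1 u2 X V (T y) := by
  unfold dLagF
  rw [pd_comp hX hT, pd_comp hX hT, pd_comp hV hT, pd_comp hV hT]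
  exact dLag_change h _ _ _ _ _ _

lemma PPF_comp (hX : ContDiffAt ℝ 2 X (T y)) (hT : ContDiffAt ℝ 2 T y) :
    PPF d1 d2 (fun z => X (T z)) y = ((jac d1 d2 T y : ℝ) : ℂ) ^ 3 * PPF u1 u2 X (T y) := by
  have hT1 : DifferentiableAt ℝ T y := hT.differentiableAt (by norm_num)
  have hX1 : DifferentiableAt ℝ X (T y) := hX.differentiableAt (by norm_num)
  unfold PPF jac
  rw [pd_pd_comp hX hT, pd_pd_comp hX hT, pd_pd_comp hX hT, pd_comp hX1 hT1, pd_comp hX1 hT1]
  push_cast
  rw [← PP_change]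
  congr 1 <;> module

lemma ELF_comp (hX : ContDiffAt ℝ 2 X (T y)) (hT : ContDiffAt ℝ 2 T y) (h : jac d1 d2 T y ≠ 0)
    (W : C3) :
    ELF d1 d2 (fun z => X (T z)) y W = (|jac d1 d2 T y| : ℝ) * ELF u1 u2 X (T y) W := by
  have hT1 : DifferentiableAt ℝ T y := hT.differentiableAt (by norm_num)
  have hX1 : DifferentiableAt ℝ X (T y) := hX.differentiableAt (by norm_num)
  unfold ELF
  rw [pd_pd_comp hX hT, pd_pd_comp hX hT, pd_pd_comp hX hT, pd_comp hX1 hT1, pd_comp hX1 hT1]
  unfold jac at h ⊢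
  rw [← EL_change h]
  congr 1 <;> module

lemma cross_comp (hX : DifferentiableAt ℝ X (T y)) (hT : DifferentiableAt ℝ T y) :
    pd (fun z => X (T z)) d1 y ⨯₃ pd (fun z => X (T z)) d2 y =
      ((jac d1 d2 T y : ℝ) : ℂ) • (pd X u1 (T y) ⨯₃ pd X u2 (T y)) := by
  unfold jac
  rw [pd_comp hX hT, pd_comp hX hT, cross_change]
  push_cast
  rfl

lemma det_eq_jac (T : E2 → E2) (y : E2) : (fderiv ℝ T y).det = jac u1 u2 T y := by
  unfold jac pd
  rw [ContinuousLinearMap.det, ← LinearMap.det_toMatrix (EuclideanSpace.basisFun (Fin 2) ℝ).toBasis,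
    Matrix.det_fin_two]
  simp [LinearMap.toMatrix_apply, u1, u2]

/-- change of variables in the plane -/
theorem integral_image_E2 {T : E2 → E2} {s : Set E2} (hs : MeasurableSet s)
    (hT : ∀ y ∈ s, DifferentiableAt ℝ T y) (hi : InjOn T s) (g : E2 → ℂ) :
    ∫ x in T '' s, g x = ∫ y in s, (|jac u1 u2 T y| : ℝ) * g (T y) := by
  rw [integral_image_eq_integral_abs_det_fderiv_smul volume hs
    (fun y hy => (hT y hy).hasFDerivAt.hasFDerivWithinAt) hi]
  simp only [det_eq_jac, Complex.real_smul]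

/-- the identification of the product of two lines with the plane -/
def toE2 : (ℝ × ℝ) ≃L[ℝ] E2 :=
  (ContinuousLinearEquiv.finTwoArrow ℝ ℝ).symm.trans (EuclideanSpace.equiv (Fin 2) ℝ).symm

lemma toE2_apply (p : ℝ × ℝ) : toE2 p = WithLp.toLp 2 ![p.1, p.2] := rfl

lemma toE2_symm_apply (v : E2) : toE2.symm v = (v 0, v 1) := rfl

lemma measurePreserving_toE2 : MeasurePreserving toE2 volume volume :=
  (PiLp.volume_preserving_toLp (Fin 2)).comp (volume_preserving_finTwoArrow ℝ).symm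

/-- change of variables from a product of lines to the plane -/
theorem integral_image_prod {T : ℝ × ℝ → E2} {s : Set (ℝ × ℝ)} (hs : MeasurableSet s)
    (hT : ∀ y ∈ s, DifferentiableAt ℝ T y) (hi : InjOn T s) (g : E2 → ℂ) :
    ∫ x in T '' s, g x = ∫ y in s, (|jac (1, 0) (0, 1) T y| : ℝ) * g (T y) := by
  have he : MeasurableEmbedding toE2 := toE2.toHomeomorph.measurableEmbedding
  have h1 : T '' s = (fun v => T (toE2.symm v)) '' (toE2 '' s) := by
    rw [image_image]; simp
  have hd : ∀ y ∈ s, DifferentiableAt ℝ (fun v => T (toE2.symm v)) (toE2 y) := fun y hy =>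
    DifferentiableAt.comp (toE2 y) (g := T) (by simpa using hT y hy)
      toE2.symm.differentiableAt
  rw [h1, integral_image_E2 (he.measurableSet_image.2 hs),
    measurePreserving_toE2.setIntegral_image_emb he]
  · refine setIntegral_congr_fun hs fun y hy => ?_
    have h2 : ∀ v, pd (fun v => T (toE2.symm v)) v (toE2 y) = pd T (toE2.symm v) y := fun v => by
      unfold pd
      rw [fderiv_fun_comp (toE2 y) (by simpa using hT y hy) toE2.symm.differentiableAt,
        ContinuousLinearEquiv.fderiv]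
      simp
    have h3 : toE2.symm u1 = (1, 0) := by simp [toE2_symm_apply, u1]
    have h4 : toE2.symm u2 = (0, 1) := by simp [toE2_symm_apply, u2]
    simp only [jac, h2, h3, h4, ContinuousLinearEquiv.symm_apply_apply]
  · rintro _ ⟨y, hy, rfl⟩
    exact hd y hy
  · rintro _ ⟨y, hy, rfl⟩ _ ⟨z, hz, rfl⟩ h
    simp only [ContinuousLinearEquiv.symm_apply_apply] at h
    rw [hi hy hz h]

end Vale.Agent.P218VA
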