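import Vale.Agent.P218VA.Tay
import Vale.Agent.P218GA.Model
import Mathlib.Analysis.SpecialFunctions.SmoothTransition
import Mathlib.Analysis.SpecialFunctions.Complex.Circle

/-!
# Exponential polar coordinates, the cutoff functions, the core
-/

open scoped Matrix Topology Real ContDiff
open Filter Set MeasureTheory Metric
open Vale.Agent.P272.K.LIN
open Vale.Agent.P218GA (pol)

noncomputable section

set_option linter.unusedSectionVars false

namespace Vale.Agent.P218VA

lemma pol_zero (p : ℝ × ℝ) : pol p 0 = Real.exp (-p.1) * Real.cos p.2 := rfl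

lemma pol_one (p : ℝ × ℝ) : pol p 1 = Real.exp (-p.1) * Real.sin p.2 := rfl

lemma norm_pol (p : ℝ × ℝ) : ‖pol p‖ = Real.exp (-p.1) := by
  rw [EuclideanSpace.norm_eq, Fin.sum_univ_two, pol_zero, pol_one, Real.norm_eq_abs,
    Real.norm_eq_abs, sq_abs, sq_abs, mul_pow, mul_pow, ← mul_add, Real.cos_sq_add_sin_sq,
    mul_one, Real.sqrt_sq (Real.exp_pos _).le]

lemma contDiff_pol {n : WithTop ℕ∞} : ContDiff ℝ n pol := by
  refine contDiff_euclidean.2 fun i => ?_
  fin_cases i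
  · exact (contDiff_fst.neg.exp).mul contDiff_snd.cos
  · exact (contDiff_fst.neg.exp).mul contDiff_snd.sin

lemma differentiable_pol : Differentiable ℝ pol := (contDiff_pol (n := 1)).differentiable one_ne_zero

lemma pd_coord {T : ℝ × ℝ → E2} {p : ℝ × ℝ} (hT : DifferentiableAt ℝ T p) (v : ℝ × ℝ) (i : Fin 2)
    {c : ℝ} (h : HasDerivAt (fun t : ℝ => T (p + t • v) i) c 0) : pd T v p i = c :=
  ((EuclideanSpace.proj (𝕜 := ℝ) i).hasFDerivAt.comp_hasDerivAt 0 (hasDerivAt_pd hT v)).unique h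

lemma jac_pol (p : ℝ × ℝ) : jac (1, 0) (0, 1) pol p = -Real.exp (-p.1) ^ 2 := by
  have k1 : HasDerivAt (fun t : ℝ => Real.exp (-(p.1 + t))) (-Real.exp (-p.1)) 0 := by
    simpa using (((hasDerivAt_id (0 : ℝ)).const_add p.1).neg).exp
  have k2 : HasDerivAt (fun t : ℝ => Real.cos (p.2 + t)) (-Real.sin p.2) 0 := by
    simpa using ((hasDerivAt_id (0 : ℝ)).const_add p.2).cos
  have k3 : HasDerivAt (fun t : ℝ => Real.sin (p.2 + t)) (Real.cos p.2) 0 := by
    simpa using ((hasDerivAt_id (0 : ℝ)).const_add p.2).sin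
  unfold jac
  rw [pd_coord (differentiable_pol p) (1, 0) 0 (c := -Real.exp (-p.1) * Real.cos p.2)
      (by simpa [pol_zero] using k1.mul_const (Real.cos p.2)),
    pd_coord (differentiable_pol p) (1, 0) 1 (c := -Real.exp (-p.1) * Real.sin p.2)
      (by simpa [pol_one] using k1.mul_const (Real.sin p.2)),
    pd_coord (differentiable_pol p) (0, 1) 0 (c := Real.exp (-p.1) * -Real.sin p.2)
      (by simpa [pol_zero] using k2.const_mul (Real.exp (-p.1))),
    pd_coord (differentiable_pol p) (0, 1) 1 (c := Real.exp (-p.1) * Real.cos p.2)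
      (by simpa [pol_one] using k3.const_mul (Real.exp (-p.1)))]
  linear_combination (-Real.exp (-p.1) ^ 2) * Real.cos_sq_add_sin_sq p.2

lemma jac_pol_ne (p : ℝ × ℝ) : jac (1, 0) (0, 1) pol p ≠ 0 := by
  rw [jac_pol]
  exact neg_ne_zero.2 (pow_ne_zero _ (Real.exp_pos _).ne')

lemma pol_periodic (w θ : ℝ) : pol (w, θ + 2 * π) = pol (w, θ) := by
  simp [pol]

lemma pol_injOn (I : Set ℝ) : InjOn pol (fd I) := by
  rintro ⟨w, θ⟩ h ⟨w', θ'⟩ h' e
  have h1 : w = w' := by
    have := congrArg norm e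
    rw [norm_pol, norm_pol] at this
    simpa using this
  subst h1
  have h2 : Real.cos θ = Real.cos θ' :=
    mul_left_cancel₀ (Real.exp_pos _).ne' (congrArg (fun v : E2 => v 0) e)
  have h3 : Real.sin θ = Real.sin θ' :=
    mul_left_cancel₀ (Real.exp_pos _).ne' (congrArg (fun v : E2 => v 1) e)
  have h4 : θ = θ' := Circle.exp_injOn_Ioc (a := 0) (b := 2 * π) (by simp) h.2 h'.2 (by
    ext1
    rw [Circle.coe_exp, Circle.coe_exp, Complex.exp_mul_I, Complex.exp_mul_I,
      ← Complex.ofReal_cos, ← Complex.ofReal_cos, ← Complex.ofReal_sin, ← Complex.ofReal_sin,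
      h2, h3])
  rw [h4]

lemma exists_pol {y : E2} (hy : y ≠ 0) : ∃ θ ∈ Ioc 0 (2 * π), pol (-Real.log ‖y‖, θ) = y := by
  set z : ℂ := ⟨y 0, y 1⟩ with hz
  have hn : ‖z‖ = ‖y‖ := by
    rw [EuclideanSpace.norm_eq, Fin.sum_univ_two, Complex.norm_eq_sqrt_sq_add_sq]
    simp [hz]
  have hy' : 0 < ‖y‖ := norm_pos_iff.2 hy
  have hz0 : z ≠ 0 := by rw [← norm_pos_iff, hn]; exact hy'
  refine ⟨toIocMod Real.two_pi_pos 0 z.arg, by simpa using toIocMod_mem_Ioc Real.two_pi_pos 0 z.arg, ?_⟩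
  have e : toIocMod Real.two_pi_pos 0 z.arg =
      z.arg - (toIocDiv Real.two_pi_pos 0 z.arg : ℤ) * (2 * π) := by
    rw [toIocMod, zsmul_eq_mul]
  ext i
  fin_cases i
  · change Real.exp (- -Real.log ‖y‖) * Real.cos _ = y 0
    rw [e, Real.cos_sub_int_mul_two_pi, Complex.cos_arg hz0, neg_neg, Real.exp_log hy', hn]
    field_simp
    rfl
  · change Real.exp (- -Real.log ‖y‖) * Real.sin _ = y 1
    rw [e, Real.sin_sub_int_mul_two_pi, Complex.sin_arg, neg_neg, Real.exp_log hy', hn]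
    field_simp
    rfl

/-! ### The cutoff functions -/

/-- the cutoff in a chart at an end -/
def cutE (s : ℝ) (y : E2) : ℝ :=
  Real.smoothTransition ((Real.exp (-s) ^ 2 - ‖y‖ ^ 2) / (Real.exp (-s) ^ 2 - Real.exp (-(s + 1)) ^ 2))

/-- the cutoff as a function of the height: `0` below `s`, `1` above `s + 1` -/
def cut (s w : ℝ) : ℝ :=
  Real.smoothTransition
    ((Real.exp (-s) ^ 2 - Real.exp (-w) ^ 2) / (Real.exp (-s) ^ 2 - Real.exp (-(s + 1)) ^ 2))

lemma cutE_pol (s : ℝ) (p : ℝ × ℝ) : cutE s (pol p) = cut s p.1 := by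
  rw [cutE, norm_pol, cut]

lemma cut_den_pos (s : ℝ) : 0 < Real.exp (-s) ^ 2 - Real.exp (-(s + 1)) ^ 2 :=
  sub_pos.2 (pow_lt_pow_left₀ (Real.exp_lt_exp.2 (by linarith)) (Real.exp_pos _).le two_ne_zero)

lemma contDiff_cutE (s : ℝ) : ContDiff ℝ ∞ (cutE s) :=
  Real.smoothTransition.contDiff.comp ((contDiff_const.sub (contDiff_norm_sq ℝ)).div_const _)

lemma contDiff_cut (s : ℝ) : ContDiff ℝ ∞ (cut s) :=
  Real.smoothTransition.contDiff.comp
    ((contDiff_const.sub (contDiff_id.neg.exp.pow 2)).div_const _)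

lemma cutE_zero {s : ℝ} {y : E2} (h : Real.exp (-s) ≤ ‖y‖) : cutE s y = 0 :=
  Real.smoothTransition.zero_of_nonpos (div_nonpos_of_nonpos_of_nonneg
    (sub_nonpos.2 (pow_le_pow_left₀ (Real.exp_pos _).le h 2)) (cut_den_pos s).le)

lemma cutE_one {s : ℝ} {y : E2} (h : ‖y‖ ≤ Real.exp (-(s + 1))) : cutE s y = 1 :=
  Real.smoothTransition.one_of_one_le ((one_le_div (cut_den_pos s)).2
    (sub_le_sub_left (pow_le_pow_left₀ (norm_nonneg _) h 2) _))

lemma cut_zero {s w : ℝ} (h : w ≤ s) : cut s w = 0 := by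
  rw [← cutE_pol s (w, 0)]
  exact cutE_zero (by rw [norm_pol]; exact Real.exp_le_exp.2 (neg_le_neg h))

lemma cut_one {s w : ℝ} (h : s + 1 ≤ w) : cut s w = 1 := by
  rw [← cutE_pol s (w, 0)]
  exact cutE_one (by rw [norm_pol]; exact Real.exp_le_exp.2 (neg_le_neg h))

lemma cut_nonneg (s w : ℝ) : 0 ≤ cut s w := Real.smoothTransition.nonneg _

lemma cut_le_one (s w : ℝ) : cut s w ≤ 1 := Real.smoothTransition.le_one _

lemma norm_cut_le (s w : ℝ) : ‖(cut s w : ℂ)‖ ≤ 1 := by
  rw [Complex.norm_real, Real.norm_of_nonneg (cut_nonneg s w)]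
  exact cut_le_one s w

lemma hasDerivAt_cut (s w : ℝ) :
    HasDerivAt (fun w => (cut s w : ℂ)) ((deriv (cut s) w : ℝ) : ℂ) w :=
  (((contDiff_cut s).differentiable (by simp)) w).hasDerivAt.ofReal_comp

lemma continuous_cut (s : ℝ) : Continuous fun w => (cut s w : ℂ) :=
  Complex.continuous_ofReal.comp (contDiff_cut s).continuous

lemma continuous_dcut (s : ℝ) : Continuous fun w => ((deriv (cut s) w : ℝ) : ℂ) :=
  Complex.continuous_ofReal.comp ((contDiff_cut s).continuous_deriv (by simp))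

lemma dcut_zero {s w : ℝ} (h : s + 1 < w) : deriv (cut s) w = 0 := by
  have : cut s =ᶠ[𝓝 w] fun _ => 1 := by
    filter_upwards [lt_mem_nhds h] with v hv using cut_one hv.le
  rw [this.deriv_eq, deriv_const]

/-! ### The core -/

variable {M : Type*} [TopologicalSpace M] [ChartedSpace E2 M] {ε : Type*}

/-- disjoint charts onto discs around the punctures -/
structure IsEnds (φ : ε → OpenPartialHomeomorph M E2) (w0 : ℝ) : Prop where
  mem : ∀ j, φ j ∈ atlas E2 M
  target : ∀ j, (φ j).target = ball 0 (Real.exp (-w0))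
  disj : ∀ j j' x, x ∈ (φ j).source → x ∈ (φ j').source → j = j'

lemma isEnds_model {S : Set P218GA.E3} {w : P218GA.E3 → ℝ} {δ C : ℝ} {ι κ M : Type}
    [TopologicalSpace M] [ChartedSpace E2 M] (m : P218GA.Model S w δ C ι κ M) :
    IsEnds m.φ m.w0 := ⟨m.mem, m.target, m.disj⟩

variable (φ : ε → OpenPartialHomeomorph M E2)

/-- the part of the surface below the height `r` -/
def coreO (r : ℝ) : Set M := {x | ∀ j, x ∈ (φ j).source → Real.exp (-r) < ‖φ j x‖}

/-- the part of the surface below or at the height `r` -/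
def coreK (r : ℝ) : Set M := {x | ∀ j, x ∈ (φ j).source → Real.exp (-r) ≤ ‖φ j x‖}

/-- the polar parametrisation of an end -/
def Yp (j : ε) (p : ℝ × ℝ) : M := (φ j).symm (pol p)

/-- the cutoff of the core -/
def psi [Fintype ε] (s : ℝ) (x : M) : ℝ := 1 - ∑ j, ext0 (φ j) (cutE s) x

variable {φ} {w0 s r : ℝ}

lemma coreO_subset_coreK : coreO φ r ⊆ coreK φ r := fun _ h j hj => (h j hj).le

lemma coreK_subset_coreO {r' : ℝ} (h : r < r') : coreK φ r ⊆ coreO φ r' := fun _ hx j hj =>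
  (Real.exp_lt_exp.2 (by linarith)).trans_le (hx j hj)

lemma isClosed_coreK : IsClosed (coreK φ r) := by
  have : coreK φ r = ⋂ j, ((φ j).source ∩ φ j ⁻¹' ball 0 (Real.exp (-r)))ᶜ := by
    ext x
    simp [coreK]
  rw [this]
  exact isClosed_iInter fun j => ((φ j).isOpen_inter_preimage isOpen_ball).isClosed_compl

lemma isCompact_coreK [CompactSpace M] : IsCompact (coreK φ r) := isClosed_coreK.isCompact

namespace IsEnds

lemma closedBall_subset (h : IsEnds φ w0) (hr : w0 < r) (j : ε) :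
    closedBall 0 (Real.exp (-r)) ⊆ (φ j).target := by
  rw [h.target]
  exact closedBall_subset_ball (Real.exp_lt_exp.2 (by linarith))

lemma pol_mem (h : IsEnds φ w0) (j : ε) {p : ℝ × ℝ} (hp : w0 < p.1) : pol p ∈ (φ j).target := by
  rw [h.target, mem_ball_zero_iff, norm_pol]
  exact Real.exp_lt_exp.2 (by linarith)

lemma Yp_mem (h : IsEnds φ w0) (j : ε) {p : ℝ × ℝ} (hp : w0 < p.1) : Yp φ j p ∈ (φ j).source :=
  (φ j).map_target (h.pol_mem j hp)

lemma φ_Yp (h : IsEnds φ w0) (j : ε) {p : ℝ × ℝ} (hp : w0 < p.1) : φ j (Yp φ j p) = pol p :=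
  (φ j).right_inv (h.pol_mem j hp)

lemma Yp_mem_coreO (h : IsEnds φ w0) (j : ε) {p : ℝ × ℝ} (hp : w0 < p.1) (hr : p.1 < r) :
    Yp φ j p ∈ coreO φ r := fun j' hj' => by
  obtain rfl := h.disj j j' _ (h.Yp_mem j hp) hj'
  rw [h.φ_Yp j hp, norm_pol]
  exact Real.exp_lt_exp.2 (by linarith)

lemma Yp_mem_coreK (h : IsEnds φ w0) (j : ε) {p : ℝ × ℝ} (hp : w0 < p.1) (hr : p.1 ≤ r) :
    Yp φ j p ∈ coreK φ r := fun j' hj' => by
  obtain rfl := h.disj j j' _ (h.Yp_mem j hp) hj'
  rw [h.φ_Yp j hp, norm_pol]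
  exact Real.exp_le_exp.2 (by linarith)

lemma isOpen_coreO [T2Space M] [Finite ε] (h : IsEnds φ w0) (hr : w0 < r) :
    IsOpen (coreO φ r) := by
  have : coreO φ r = ⋂ j, ((φ j).symm '' closedBall 0 (Real.exp (-r)))ᶜ := by
    ext x
    simp only [coreO, mem_ofPred_eq, mem_iInter, mem_compl_iff]
    refine forall_congr' fun j => ⟨fun h1 ⟨y, hy, e⟩ => ?_, fun h1 hx => ?_⟩
    · have hy' := h.closedBall_subset hr j hy
      have := h1 (e ▸ (φ j).map_target hy')
      rw [← e, (φ j).right_inv hy'] at this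
      exact absurd (mem_closedBall_zero_iff.1 hy) (not_le.2 this)
    · by_contra h2
      exact h1 ⟨φ j x, mem_closedBall_zero_iff.2 (not_lt.1 h2), (φ j).left_inv hx⟩
  rw [this]
  exact isOpen_iInter_of_finite fun j => ((isCompact_closedBall _ _).image_of_continuousOn
    ((φ j).continuousOn_symm.mono (h.closedBall_subset hr j))).isClosed.isOpen_compl

variable [Fintype ε]

lemma psi_of_mem (h : IsEnds φ w0) {j : ε} {x : M} (hx : x ∈ (φ j).source) :
    psi φ s x = 1 - cutE s (φ j x) := by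
  rw [psi, Finset.sum_eq_single j (fun j' _ hj => ext0_of_notMem fun hx' => hj (h.disj _ _ _ hx' hx))
    (by simp), ext0_of_mem hx]

lemma psi_Yp (h : IsEnds φ w0) (j : ε) {p : ℝ × ℝ} (hp : w0 < p.1) :
    psi φ s (Yp φ j p) = 1 - cut s p.1 := by
  rw [h.psi_of_mem (h.Yp_mem j hp), h.φ_Yp j hp, cutE_pol]

lemma psi_zero (h : IsEnds φ w0) {x : M} (hx : x ∉ coreK φ (s + 1)) : psi φ s x = 0 := by
  simp only [coreK, mem_ofPred_eq, not_forall, not_le] at hx
  obtain ⟨j, hj, hx⟩ := hx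
  rw [h.psi_of_mem hj, cutE_one hx.le, sub_self]

lemma psi_one {x : M} (hx : x ∈ coreK φ s) : psi φ s x = 1 := by
  rw [psi, Finset.sum_eq_zero, sub_zero]
  intro j _
  by_cases hj : x ∈ (φ j).source
  · rw [ext0_of_mem hj, cutE_zero (hx j hj)]
  · exact ext0_of_notMem hj

lemma norm_psi_le (h : IsEnds φ w0) (x : M) : ‖(psi φ s x : ℂ)‖ ≤ 1 := by
  rw [Complex.norm_real, Real.norm_eq_abs]
  by_cases hx : ∃ j, x ∈ (φ j).source
  · obtain ⟨j, hj⟩ := hx
    rw [h.psi_of_mem hj, abs_le]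
    have h1 : 0 ≤ cutE s (φ j x) := Real.smoothTransition.nonneg _
    have h2 : cutE s (φ j x) ≤ 1 := Real.smoothTransition.le_one _
    constructor <;> linarith
  · rw [psi_one fun j hj => absurd ⟨j, hj⟩ hx, abs_one]

lemma psi_ck [T2Space M] [RSm E2 M] (h : IsEnds φ w0) (hs : w0 < s) : CkFn E2 ∞ (psi φ s) :=
  (ckFn_const 1).sub (CkFn.sum fun j _ => ext0_ck le_rfl (h.mem j) (isCompact_closedBall _ _)
    (h.closedBall_subset hs j) (fun y hy => cutE_zero (by
      rw [mem_closedBall_zero_iff, not_le] at hy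
      exact hy.le)) fun _ _ => (contDiff_cutE s).contDiffAt)

/-- the cutoff is locally constant away from the collars -/
lemma psi_eventually [T2Space M] (h : IsEnds φ w0) (hs : w0 < s) {x : M}
    (hx : ∀ j, x ∉ Yp φ j '' fd (Icc s (s + 1))) : ∀ᶠ z in 𝓝 x, psi φ s z = psi φ s x := by
  have key : ∀ j, ∀ᶠ z in 𝓝 x, ext0 (φ j) (cutE s) z = ext0 (φ j) (cutE s) x := fun j => by
    by_cases hj : x ∈ (φ j).source
    · have hc : ContinuousAt (fun z => ‖φ j z‖) x := ((φ j).continuousAt hj).norm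
      rcases lt_or_ge (Real.exp (-s)) ‖φ j x‖ with h1 | h1
      · filter_upwards [(φ j).open_source.mem_nhds hj, hc.eventually (lt_mem_nhds h1)] with z hz hz'
        rw [ext0_of_mem hz, ext0_of_mem hj, cutE_zero h1.le, cutE_zero hz'.le]
      rcases lt_or_ge ‖φ j x‖ (Real.exp (-(s + 1))) with h2 | h2
      · filter_upwards [(φ j).open_source.mem_nhds hj, hc.eventually (gt_mem_nhds h2)] with z hz hz'
        rw [ext0_of_mem hz, ext0_of_mem hj, cutE_one h2.le, cutE_one hz'.le]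
      have h3 : 0 < ‖φ j x‖ := (Real.exp_pos _).trans_le h2
      obtain ⟨θ, hθ, e⟩ := exists_pol (norm_pos_iff.1 h3)
      refine absurd ⟨(-Real.log ‖φ j x‖, θ), ⟨⟨?_, ?_⟩, hθ⟩, ?_⟩ (hx j)
      · have := Real.log_le_log h3 h1
        rw [Real.log_exp] at this
        change s ≤ -Real.log ‖φ j x‖
        linarith
      · have := Real.log_le_log (Real.exp_pos _) h2
        rw [Real.log_exp] at this
        change -Real.log ‖φ j x‖ ≤ s + 1
        linarith
      · rw [Yp, e, (φ j).left_inv hj]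
    · rw [ext0_of_notMem hj]
      exact ext0_eventually_zero (isCompact_closedBall _ _) (h.closedBall_subset hs j)
        (fun y hy => cutE_zero (by
          rw [mem_closedBall_zero_iff, not_le] at hy
          exact hy.le)) hj
  filter_upwards [eventually_all.2 key] with z hz
  simp only [psi, hz]

end IsEnds

end Vale.Agent.P218VA
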