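import Vale.Agent.P218VA.Fam
import Vale.Agent.P218MP.Polar
import Vale.Agent.P218EF.Fun

/-!
# The action and the area
-/

open scoped Matrix Topology Real ContDiff
open Complex Filter Set MeasureTheory Metric Asymptotics Function
open Vale.Agent.P272.K.LIN
open Vale.Agent.P218GA (pol)
open Vale.Agent.P218XI (Frame cylF rt rt_sq rt_ne co si d1)

noncomputable section

set_option linter.unusedSectionVars false

namespace Vale.Agent.P218VA

lemma re_sqrt_nonneg (z : ℂ) : 0 ≤ (Complex.sqrt z).re := by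
  rw [Complex.sqrt, Complex.cpow_inv_two_re]
  exact Real.sqrt_nonneg _

lemma re_Lag_nonneg {X : C3} (hX : (X ⬝ᵥ X).im = 0) (a b : C3) : 0 ≤ (Lag X a b).re := by
  have e : wt X = (Real.exp (-(X ⬝ᵥ X).re / 4) : ℝ) := by
    rw [wt, ofReal_exp]
    congr 1
    exact Complex.ext (by simp) (by simp [hX])
  rw [Lag, e, re_ofReal_mul]
  exact mul_nonneg (Real.exp_pos _).le (re_sqrt_nonneg _)

lemma tendsto_Lag_frame {α : Type*} {l : Filter α} (F : Frame) {w : ℝ} (hw : 0 < w) (θ : ℝ)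
    {t tw tθ : α → ℂ} {a b c : ℂ} (h0 : Tendsto t l (𝓝 a)) (h1 : Tendsto tw l (𝓝 b))
    (h2 : Tendsto tθ l (𝓝 c)) (ha : 1 + a ^ 2 ≠ 0)
    (hg : gram (F.a w θ a b) (F.b w θ a c) ∈ slitPlane) :
    Tendsto (fun n => Lag (F.X w θ (t n)) (F.a w θ (t n) (tw n)) (F.b w θ (t n) (tθ n))) l
      (𝓝 (Lag (F.X w θ a) (F.a w θ a b) (F.b w θ a c))) := by
  have hl : Tendsto (fun n => 1 + t n ^ 2) l (𝓝 (1 + a ^ 2)) := (h0.pow 2).const_add 1
  have hG : Tendsto (fun n => F.G θ (t n)) l (𝓝 (F.G θ a)) :=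
    ((((h0.pow 2).const_sub 1).div hl ha).const_mul _).add (((h0.const_mul 2).div hl ha).const_mul _)
  have k := (((((h2.const_mul 2).div hl ha).pow 2).add ((hG.pow 2).mul
    (((((h1.const_mul 2).div hl ha).pow 2).const_mul (4 * (w : ℂ) ^ 2)).const_add 1))).const_mul 4)
  rw [F.gram_eq θ b c hw ha] at hg
  rw [Lag, F.wt_X θ hw.le ha, ar, F.gram_eq θ b c hw ha]
  refine (((Complex.continuousAt_sqrt (hg.imp le_of_lt id)).tendsto.comp k).const_mul
    (cexp (-w))).congr' ?_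
  filter_upwards [hl.eventually_ne ha] with n hn
  rw [Lag, F.wt_X θ hw.le hn, ar, F.gram_eq θ _ _ hw hn]
  rfl

variable {M : Type*} [TopologicalSpace M] [ChartedSpace E2 M] [RSm E2 M] [T2Space M]
  [CompactSpace M] [MeasurableSpace M] [BorelSpace M]

section split
variable {ε : Type*} [Fintype ε] {φ : ε → OpenPartialHomeomorph M E2} {w0 s : ℝ} {F X : M → C3}
  {μ : Measure M} {Ω : Set M} {I : ε → Set ℝ}

lemma exists_Yp {j : ε} {x : M} (hx : x ∈ (φ j).source) (h0 : φ j x ≠ 0) :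
    ∃ θ ∈ Ioc 0 (2 * π), Yp φ j (-Real.log ‖φ j x‖, θ) = x := by
  obtain ⟨θ, hθ, e⟩ := exists_pol h0
  exact ⟨θ, hθ, by rw [Yp, e, (φ j).left_inv hx]⟩

lemma exists_Yp_of_notMem {x : M} (hx : ∀ j, x ≠ (φ j).symm 0) (hx' : x ∉ coreK φ s) :
    ∃ j p, p ∈ fd (Ioi s) ∧ Yp φ j p = x := by
  simp only [coreK, mem_ofPred_eq, not_forall, not_le] at hx'
  obtain ⟨j, hj, h1⟩ := hx'
  have h0 : φ j x ≠ 0 := fun e => hx j (by rw [← e, (φ j).left_inv hj])
  obtain ⟨θ, hθ, e⟩ := exists_Yp hj h0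
  exact ⟨j, (-Real.log ‖φ j x‖, θ),
    ⟨lt_neg.1 ((Real.log_lt_iff_lt_exp (norm_pos_iff.2 h0)).2 h1), hθ⟩, e⟩

lemma IsEnds.le_of_mem (h : IsEnds φ w0) {j : ε} {p : ℝ × ℝ} (hp : w0 < p.1) {r : ℝ}
    (hx : Yp φ j p ∈ coreK φ r) : p.1 ≤ r := by
  have := hx j (h.Yp_mem j hp)
  rw [h.φ_Yp j hp, norm_pol, Real.exp_le_exp] at this
  linarith

lemma IsEnds.Yp_ne (h : IsEnds φ w0) (j j' : ε) {p : ℝ × ℝ} (hp : w0 < p.1) :
    Yp φ j p ≠ (φ j').symm 0 := fun e => by
  have h0 : (0 : E2) ∈ (φ j').target := h.target j' ▸ mem_ball_self (Real.exp_pos _)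
  obtain rfl := h.disj j j' _ (h.Yp_mem j hp) (e ▸ (φ j').map_target h0)
  have := h.φ_Yp j hp
  rw [e, (φ j).right_inv h0] at this
  exact (Real.exp_pos _).ne' (by rw [← norm_pol, ← this, norm_zero])

lemma IsEnds.ne_of_mem (h : IsEnds φ w0) {r : ℝ} {x : M} (hx : x ∈ coreK φ r) (j : ε) :
    x ≠ (φ j).symm 0 := fun e => by
  have h0 : (0 : E2) ∈ (φ j).target := h.target j ▸ mem_ball_self (Real.exp_pos _)
  have := hx j (e ▸ (φ j).map_target h0)
  rw [e, (φ j).right_inv h0, norm_zero] at this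
  exact this.not_gt (Real.exp_pos _)

lemma IsEnds.fst_eq (h : IsEnds φ w0) {j j' : ε} {p q : ℝ × ℝ} (hp : w0 < p.1) (hq : w0 < q.1)
    (e : Yp φ j p = Yp φ j' q) : j = j' ∧ p.1 = q.1 := by
  obtain rfl := h.disj j j' _ (h.Yp_mem j hp) (e ▸ h.Yp_mem j' hq)
  have := congrArg (fun x => ‖φ j x‖) e
  simp only [h.φ_Yp j hp, h.φ_Yp j hq, norm_pol, Real.exp_eq_exp] at this
  exact ⟨rfl, neg_injective this⟩

/-- immersions in polar coordinates -/
lemma IsEnds.imm (h : IsEnds φ w0) (j : ε) {p : ℝ × ℝ} (hp : w0 < p.1)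
    (hX : ContDiffAt ℝ 2 (fun q => X (Yp φ j q)) p)
    (hg : gramF (1, 0) (0, 1) (fun q => X (Yp φ j q)) p ∈ slitPlane) : Imm X (Yp φ j p) := by
  obtain ⟨σ, h1, h2, h3, -⟩ := P218MP.exists_local_inv p
  have k : ContDiffAt ℝ 2 (cX (φ j) X) (pol p) :=
    (ContDiffAt.comp (g := fun q => X (Yp φ j q)) (pol p) (by rwa [h2])
      (h1.of_le two_le_inf)).congr_of_eventuallyEq (h3.mono fun y hy => by simp [cX, Yp, hy])
  refine imm_of_chart (h.mem j) (h.Yp_mem j hp) (by rwa [h.φ_Yp j hp]) ?_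
  rw [h.φ_Yp j hp]
  exact (gramF_comp_slit (k.differentiableAt two_ne_zero) (differentiable_pol p)
    (jac_pol_ne p)).1 hg

lemma IsEnds.lagF_ne (h : IsEnds φ w0) (j : ε) {p : ℝ × ℝ} (hp : w0 < p.1)
    (hF : Imm F (Yp φ j p)) : LagF (1, 0) (0, 1) (fun q => F (Yp φ j q)) p ≠ 0 :=
  mul_ne_zero (wt_ne _) (ar_ne' ((gramF_comp_slit
    ((hF.ck.at_target (h.mem j) (h.pol_mem j hp)).differentiableAt two_ne_zero)
    (differentiable_pol p) (jac_pol_ne p)).2 (hF.slit_target (h.mem j) (h.pol_mem j hp))))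

/-- the equation in polar coordinates -/
lemma IsEnds.elm_zero (h : IsEnds φ w0) (j : ε) {p : ℝ × ℝ} (hp : w0 < p.1)
    (hF : Imm F (Yp φ j p)) (hX : CkAt 2 X (Yp φ j p))
    (h0 : PPF (1, 0) (0, 1) (fun q => X (Yp φ j q)) p = 0) (V : C3) :
    ELM F X (Yp φ j p) V = 0 := by
  have h1 := ELM_param (h.mem j) (h.pol_mem j hp) hF hX contDiff_pol.contDiffAt (jac_pol_ne p) V
  have h2 : ELF (1, 0) (0, 1) (fun q => X (Yp φ j q)) p V = 0 := by
    rw [PPF] at h0
    rw [ELF, EL, h0]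
    simp
  exact (mul_eq_zero.1 (h1.trans h2)).resolve_right (h.lagF_ne j hp hF)

/-- the core together with the parts of the ends over `I j` -/
def part (φ : ε → OpenPartialHomeomorph M E2) (s : ℝ) (I : ε → Set ℝ) : Set M :=
  coreK φ s ∪ ⋃ j, Yp φ j '' fd (I j)

lemma IsEnds.measurableSet_part (h : IsEnds φ w0) (hs : w0 < s) (hm : ∀ j, MeasurableSet (I j))
    (h1 : ∀ j, I j ⊆ Ioi s) : MeasurableSet (part φ s I) :=
  isClosed_coreK.measurableSet.union (MeasurableSet.iUnion fun j =>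
    h.measurableSet_image j (hm j) fun _ hw => hs.trans (h1 j hw))

lemma IsEnds.indicator_part (h : IsEnds φ w0) (hs : w0 < s) (h1 : ∀ j, I j ⊆ Ioi s)
    (h2 : ∀ j, Ioc s (s + 1) ⊆ I j) (g : M → ℂ) (x : M) :
    (part φ s I).indicator g x = (psi φ s x : ℂ) * g x +
      ∑ j, (Yp φ j '' fd (I j)).indicator (fun x => (1 - psi φ s x : ℂ) * g x) x := by
  by_cases hx : ∃ j, x ∈ Yp φ j '' fd (I j)
  · obtain ⟨j, hj⟩ := hx
    rw [Finset.sum_eq_single j (fun j' _ hj' => indicator_of_notMem (fun hx' => hj' ?_) _)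
      (by simp), indicator_of_mem hj,
      indicator_of_mem (show x ∈ part φ s I from Or.inr (mem_iUnion.2 ⟨j, hj⟩))]
    · ring
    obtain ⟨p, hp, rfl⟩ := hj
    obtain ⟨q, hq, e⟩ := hx'
    exact (h.fst_eq (hs.trans (h1 _ hq.1)) (hs.trans (h1 _ hp.1)) e).1
  · rw [not_exists] at hx
    rw [Finset.sum_eq_zero fun j _ => indicator_of_notMem (hx j) _, add_zero]
    by_cases hK : x ∈ coreK φ s
    · rw [indicator_of_mem (show x ∈ part φ s I from Or.inl hK), IsEnds.psi_one hK]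
      simp
    · rw [indicator_of_notMem (by simp [part, hK, hx]), h.psi_zero fun hK' => ?_]
      · simp
      obtain ⟨j, p, hp, rfl⟩ := exists_Yp_of_notMem (h.ne_of_mem hK') hK
      exact hx j ⟨p, ⟨h2 j ⟨hp.1, h.le_of_mem (hs.trans hp.1) hK'⟩, hp.2⟩, rfl⟩

theorem IsEnds.integral_part (h : IsEnds φ w0) (hs : w0 < s) (hA : IsArea Ω F μ)
    (hm : ∀ j, MeasurableSet (I j)) (h1 : ∀ j, I j ⊆ Ioi s) (h2 : ∀ j, Ioc s (s + 1) ⊆ I j)
    (hΩ : part φ s I ⊆ Ω) {g : M → ℂ} (hg : IntegrableOn g (part φ s I) μ) :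
    ∫ x in part φ s I, g x ∂μ = ∫ x, (psi φ s x : ℂ) * g x ∂μ + ∑ j, ∫ p in fd (I j),
      (cut s p.1 : ℂ) * (g (Yp φ j p) * LagF (1, 0) (0, 1) (fun q => F (Yp φ j q)) p) := by
  have hI : ∀ j, I j ⊆ Ioi w0 := fun j _ hw => hs.trans (h1 j hw)
  have hc : Continuous fun x => (1 - psi φ s x : ℂ) := continuous_const.sub
    (continuous_iff_continuousAt.2 fun x => (CkFn.ckAt (h.psi_ck hs) x).ofReal.continuousAt)
  have i1 : ∀ j, Integrable ((Yp φ j '' fd (I j)).indicator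
      fun x => (1 - psi φ s x : ℂ) * g x) μ := fun j =>
    (integrable_indicator_iff (h.measurableSet_image j (hm j) (hI j))).2
      ((hg.mono_set fun x hx => Or.inr (mem_iUnion.2 ⟨j, hx⟩)).bdd_mul (c := 2)
        hc.aestronglyMeasurable (.of_forall fun x => (norm_sub_le _ _).trans (by
          linarith [h.norm_psi_le (s := s) x, norm_one (α := ℂ)])))
  have i2 := integrable_finsetSum Finset.univ fun j _ => i1 j
  have i3 := ((integrable_indicator_iff (h.measurableSet_part hs hm h1)).2 hg).sub' i2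
  simp only [h.indicator_part hs h1 h2 g, add_sub_cancel_right] at i3
  rw [← MeasureTheory.integral_indicator (h.measurableSet_part hs hm h1),
    funext (h.indicator_part hs h1 h2 g), integral_add i3 i2, integral_finsetSum _ fun j _ => i1 j]
  congr 1
  refine Finset.sum_congr rfl fun j _ => ?_
  rw [h.integral_indicator hA j (hm j) (hI j) fun p hp => hΩ (Or.inr (mem_iUnion.2 ⟨j, p, hp, rfl⟩))]
  refine setIntegral_congr_fun (measurableSet_fd (hm j)) fun p hp => ?_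
  simp only [h.psi_Yp j (hI j hp.1)]
  push_cast
  ring

lemma IsEnds.part_subset (h : IsEnds φ w0) (hs : w0 < s) (h1 : ∀ j, I j ⊆ Ioi s) :
    part φ s I ⊆ {x | ∀ j, x ≠ (φ j).symm 0} := by
  rintro x (hx | hx) j
  · exact h.ne_of_mem hx j
  · obtain ⟨j', p, hp, rfl⟩ := mem_iUnion.1 hx
    exact h.Yp_ne j' j (hs.trans (h1 _ hp.1))

lemma IsEnds.psi_nonneg (h : IsEnds φ w0) (hs : w0 < s) (x : M) : 0 ≤ psi φ s x := by
  by_cases hx : x ∈ coreK φ (s + 1)
  · by_cases hK : x ∈ coreK φ s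
    · rw [IsEnds.psi_one hK]; exact zero_le_one
    · obtain ⟨j, p, hp, rfl⟩ := exists_Yp_of_notMem (h.ne_of_mem hx) hK
      rw [h.psi_Yp j (hs.trans hp.1)]
      exact sub_nonneg.2 (cut_le_one _ _)
  · rw [h.psi_zero hx]

lemma Imm.eventually {x : M} (h : Imm X x) : ∀ᶠ y in 𝓝 x, Imm X y := by
  have he := chart_mem_atlas E2 x
  have hx := mem_chart_source E2 x
  have h1 := (h.ck _ he hx).eventually (by simp)
  have h2 := ((continuousOn_gramF (d1 := u1) (d2 := u2)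
    (U := {y | ContDiffAt ℝ 2 (cX (chartAt E2 x) X) y}) fun y hy =>
    (mem_ofPred_eq ▸ hy :).of_le one_le_two).continuousAt h1).eventually
      (isOpen_slitPlane.mem_nhds (h.slit _ he hx))
  filter_upwards [((chartAt E2 x).continuousAt hx).eventually (h1.and h2),
    (chartAt E2 x).open_source.mem_nhds hx] with y hy hy'
  exact imm_of_chart he hy' hy.1 hy.2

lemma continuousAt_LagM {x : M} (hF : Imm F x) (hX : Imm X x) : ContinuousAt (LagM F X) x :=
  (continuousOn_LagM (Ω := interior {y | Imm F y ∧ Imm X y}) isOpen_interior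
    (fun _ hy => (interior_subset hy).1) fun _ hy => (interior_subset hy).2).continuousAt
    (interior_mem_nhds.2 (hF.eventually.and hX.eventually))

lemma re_LagM_nonneg (hΩ : IsOpen Ω) {x : M} (hx : x ∈ Ω) (hF : Imm F x)
    (hr : ∀ x ∈ Ω, ∀ a, (F x a).im = 0) (hX : (X x ⬝ᵥ X x).im = 0) : 0 ≤ (LagM F X x).re := by
  have e : ∀ Y : M → C3, cX (chartAt E2 x) Y (chartAt E2 x x) = Y x := fun Y => by
    rw [cX, (chartAt E2 x).left_inv (mem_chart_source E2 x)]
  rw [LagM, den, div_re, hF.im_lag hΩ hx hr, mul_zero, zero_div, add_zero]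
  exact div_nonneg (mul_nonneg (re_Lag_nonneg (by rwa [e]) _ _)
    (re_Lag_nonneg (by rw [e]; exact im_dot (hr x hx) (hr x hx)) _ _)) (normSq_nonneg _)

lemma IsEnds.lagF_real (h : IsEnds φ w0) (j : ε) {p : ℝ × ℝ} (hp : w0 < p.1) (hΩ : IsOpen Ω)
    (hx : Yp φ j p ∈ Ω) (hF : Imm F (Yp φ j p)) (hr : ∀ x ∈ Ω, ∀ a, (F x a).im = 0) :
    (LagF (1, 0) (0, 1) (fun q => F (Yp φ j q)) p).im = 0 ∧
      0 ≤ (LagF (1, 0) (0, 1) (fun q => F (Yp φ j q)) p).re := by
  have ev := (((h.continuousOn_Yp j).continuousAt ((isOpen_lt continuous_const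
    continuous_fst).mem_nhds hp)).eventually (hΩ.mem_nhds hx)).mono fun y hy => hr _ hy
  have hd := (h.contDiffAt_Yp j hp hF.ck).differentiableAt two_ne_zero
  exact ⟨im_Lag (hr _ hx) (im_pd hd ev _) (im_pd hd ev _) ((gramF_comp_slit
    ((hF.ck.at_target (h.mem j) (h.pol_mem j hp)).differentiableAt two_ne_zero)
    (differentiable_pol p) (jac_pol_ne p)).2 (hF.slit_target (h.mem j) (h.pol_mem j hp))),
    re_Lag_nonneg (im_dot (hr _ hx) (hr _ hx)) _ _⟩

end split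

lemma re_integral_le {Y : Type*} [MeasurableSpace Y] {ν : Measure Y} {a b : Y → ℂ}
    (hb : Integrable b ν) (h : ∀ᵐ y ∂ν, 0 ≤ (b y).re ∧ (a y).re ≤ (b y).re) :
    (∫ y, a y ∂ν).re ≤ (∫ y, b y ∂ν).re := by
  have e : ∀ {f : Y → ℂ}, Integrable f ν → (∫ y, f y ∂ν).re = ∫ y, (f y).re ∂ν := fun hf =>
    (reCLM.integral_comp_comm hf).symm
  by_cases ha : Integrable a ν
  · rw [e ha, e hb]
    exact integral_mono_ae ha.re hb.re (h.mono fun _ h => h.2)
  · rw [integral_undef ha, e hb]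
    exact integral_nonneg_of_ae (h.mono fun _ h => h.1)

lemma lintegral_le_of_min {Y : Type*} [MeasurableSpace Y] {ν : Measure Y} [IsFiniteMeasure ν]
    {f : Y → ℝ} {A : ℝ} (hf : AEMeasurable f ν) (h0 : ∀ᵐ y ∂ν, 0 ≤ f y)
    (hA : ∀ n : ℕ, Integrable (fun y => min (f y) n) ν → ∫ y, min (f y) n ∂ν ≤ A) :
    0 ≤ A ∧ ∫⁻ y, ENNReal.ofReal (f y) ∂ν ≤ ENNReal.ofReal A := by
  have hp : ∀ n : ℕ, ∀ᵐ y ∂ν, 0 ≤ min (f y) n := fun n =>
    h0.mono fun y hy => le_min hy n.cast_nonneg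
  have hi : ∀ n : ℕ, Integrable (fun y => min (f y) n) ν := fun n =>
    (integrable_const (n : ℝ)).mono' (hf.min aemeasurable_const).aestronglyMeasurable
      ((hp n).mono fun y hy => (Real.norm_of_nonneg hy).trans_le (min_le_right _ _))
  refine ⟨(integral_nonneg_of_ae (hp 0)).trans (hA 0 (hi 0)), le_of_tendsto'
    (lintegral_tendsto_of_tendsto_of_monotone (f := fun n y => ENNReal.ofReal (min (f y) (n : ℕ)))
      (fun n => (hf.min aemeasurable_const).ennreal_ofReal)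
      (.of_forall fun y a b hab => ENNReal.ofReal_le_ofReal (min_le_min_left _ (Nat.cast_le.2 hab)))
      (.of_forall fun y => tendsto_const_nhds.congr' ?_)) fun n => ?_⟩
  · filter_upwards [tendsto_natCast_atTop_atTop.eventually_ge_atTop (f y)] with n hn
    rw [min_eq_left hn]
  · rw [← ofReal_integral_eq_lintegral_ofReal (hi n) (hp n)]
    exact ENNReal.ofReal_le_ofReal (hA n (hi n))

lemma integrableOn_le_maj {s K : ℝ} {I : Set ℝ} (hI : MeasurableSet I) (hs : I ⊆ Ioi s)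
    {f : ℝ × ℝ → ℂ} (hf : ContinuousOn f (I ×ˢ univ))
    (hb : ∀ p : ℝ × ℝ, p.1 ∈ I → ‖f p‖ ≤ K * maj p.1) : IntegrableOn f (fd I) :=
  (((integrableOn_maj s).mono_set (prod_mono hs le_rfl)).const_mul K).mono'
    ((hf.mono (prod_mono le_rfl (subset_univ _))).aestronglyMeasurable (measurableSet_fd hI))
    ((ae_restrict_mem (measurableSet_fd hI)).mono fun p hp => hb p hp.1)

namespace Geo
variable {ι κ : Type*} [Fintype ι] [Fintype κ] {G : Geo M ι κ} {W : ι → ℝ} {C : Cfg M ι κ}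
  {g : M → ℂ}

lemma int_rg_inl (i : ι) : interior (G.rg W (.inl i)) = Ioo G.s (W i) := interior_Icc
lemma int_rg_inr (k : κ) : interior (G.rg W (.inr k)) = Ioi G.s := interior_Ici

lemma int_rg_sub (j : ι ⊕ κ) : interior (G.rg W j) ⊆ Ioi G.s := by
  cases j with
  | inl i => rw [int_rg_inl]; exact Ioo_subset_Ioi_self
  | inr k => rw [int_rg_inr]

lemma mem_int_rg {j : ι ⊕ κ} {w : ℝ} (h : G.s < w) (h' : ∀ i, j = .inl i → w < W i) :
    w ∈ interior (G.rg W j) := by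
  cases j with
  | inl i => rw [int_rg_inl]; exact ⟨h, h' i rfl⟩
  | inr k => rwa [int_rg_inr]

lemma act_eq (W : ι → ℝ) (C : Cfg M ι κ) : G.act W C =
    (∫ x, (psi G.φ G.s x : ℂ) * LagM G.F C.X x ∂G.μ) +
      (∑ j, ∫ p in fd (interior (G.rg W j)), (cut G.s p.1 : ℂ) * G.ell C j p) +
      ∑ i, Bd (W i) (C.cap i (W i)) := by
  simp only [act, Fintype.sum_sum_type, int_rg_inl, int_rg_inr, Finset.sum_add_distrib,
    setIntegral_congr_set (fd_Ioo_ae _ _)]
  ring

lemma Sol.contOn_ell (h : G.Sol W C g) (j : ι ⊕ κ) :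
    ContinuousOn (fun p : ℝ × ℝ => (cut G.s p.1 : ℂ) * G.ell C j p)
      (interior (G.rg W j) ×ˢ univ) := by
  simp only [h.ell_eq]
  exact ((h.jet1 j).cLag (h.slitR j)).mono (prod_mono interior_subset le_rfl)

lemma exists_maj_bound (G : Geo M ι κ) : ∃ K, ∀ W C g, G.Sol W C g → ∀ j (p : ℝ × ℝ),
    p.1 ∈ interior (G.rg W j) → ‖(cut G.s p.1 : ℂ) * G.ell C j p‖ ≤ K * maj p.1 := by
  obtain ⟨K, hK, H⟩ := G.exists_ell_bound
  exact ⟨K, fun W C g h j p hp => (norm_cut_mul _ _ _).trans ((H W C g h j p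
    (interior_subset hp)).trans (mul_le_mul_of_nonneg_left (exp_neg_le_maj
      (zero_le_one.trans (one_le_of_mem (interior_subset hp)))) hK))⟩

/-- the surface on an end -/
lemma Sol.on_end (h : G.Sol W C g) {j : ι ⊕ κ}
    (hZ : ∀ p : ℝ × ℝ, p.1 ∈ interior (G.rg W j) → C.X (Yp G.φ j p) = C.R j *ᵥ G.Z C j p)
    {p : ℝ × ℝ} (hp : p.1 ∈ interior (G.rg W j)) : Imm C.X (Yp G.φ j p) ∧
      LagF (1, 0) (0, 1) (fun q => C.X (Yp G.φ j q)) p = G.ell C j p ∧
      (C.X (Yp G.φ j p) ⬝ᵥ C.X (Yp G.φ j p)).im = 0 := by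
  obtain ⟨_, _, _, k, -⟩ := h.jet2 j
  have ev := (P218EF.ev_int hp).mono hZ
  have hd := (P218EF.contDiffAt_jet2 k hp).congr_of_eventuallyEq ev
  obtain ⟨e1, e2⟩ := k.j0.eq_pd hp (hd.differentiableAt two_ne_zero) ev
  refine ⟨G.ends.imm j (G.lt.trans (int_rg_sub j hp)) hd ?_, ?_, ?_⟩
  · rw [gramF, e1, e2]
    exact h.slitR j p ⟨interior_subset hp, trivial⟩
  · rw [LagF, e1, e2, hZ p hp, h.ell_eq]
  · rw [hZ p hp, dot_rot (h.orth j), Z, Frame.X_dot _ _
      (zero_le_one.trans (one_le_of_mem (interior_subset hp))) (h.ne (interior_subset hp))]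
    simp

/-- the area is bounded by the action -/
theorem Sol.area (h : G.Sol W C g) {Ω : Set M} (hA : IsArea {x | ∀ j, x ≠ (G.φ j).symm 0} G.F G.μ)
    (hF : ∀ x a, (G.F x a).im = 0) (hX : ∀ x ∈ coreK G.φ (G.s + 1), ∀ a, (C.X x a).im = 0)
    (hZ : ∀ j (p : ℝ × ℝ), p.1 ∈ interior (G.rg W j) → C.X (Yp G.φ j p) = C.R j *ᵥ G.Z C j p)
    (hΩ : ∀ x ∈ Ω, (∀ j, x ≠ (G.φ j).symm 0) ∧
      ∀ i (p : ℝ × ℝ), W i ≤ p.1 → x ≠ Yp G.φ (.inl i) p) :
    0 ≤ (G.act W C).re + 48 * ∑ i, Real.exp (-W i) ∧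
      ∫⁻ y in Ω, ENNReal.ofReal (LagM G.F C.X y).re ∂G.μ ≤
        ENNReal.ofReal ((G.act W C).re + 48 * ∑ i, Real.exp (-W i)) := by
  have := hA.fin
  have hK : coreK G.φ (G.s + 1) ⊆ coreO G.φ (G.s + 2) := coreK_subset_coreO (by linarith)
  have hK' : coreK G.φ G.s ⊆ coreK G.φ (G.s + 1) :=
    (coreK_subset_coreO (by linarith)).trans coreO_subset_coreK
  have hm : ∀ j, MeasurableSet (interior (G.rg W j)) := fun j => isOpen_interior.measurableSet
  have hP := G.ends.part_subset G.lt (int_rg_sub (W := W))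
  have hmP := G.ends.measurableSet_part G.lt hm int_rg_sub
  have h0 : ∀ x ∈ part G.φ G.s fun j => interior (G.rg W j),
      Imm C.X x ∧ (C.X x ⬝ᵥ C.X x).im = 0 := by
    rintro x (hx | hx)
    · exact ⟨h.imm x (hK (hK' hx)), im_dot (hX x (hK' hx)) (hX x (hK' hx))⟩
    · obtain ⟨j, p, hp, rfl⟩ := mem_iUnion.1 hx
      exact ⟨(h.on_end (hZ j) hp.1).1, (h.on_end (hZ j) hp.1).2.2⟩
  have h1 : ∀ x ∈ part G.φ G.s fun j => interior (G.rg W j), 0 ≤ (LagM G.F C.X x).re :=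
    fun x hx => re_LagM_nonneg hA.opn (hP hx) (hA.imm x (hP hx)) (fun x _ => hF x) (h0 x hx).2
  obtain ⟨K, hb⟩ := G.exists_maj_bound
  refine (lintegral_le_of_min (ν := G.μ.restrict (part G.φ G.s fun j => interior (G.rg W j)))
    (f := fun x => (LagM G.F C.X x).re)
    ((ContinuousOn.aemeasurable (fun x hx => (continuous_re.continuousAt.comp
      (continuousAt_LagM (hA.imm x (hP hx)) (h0 x hx).1)).continuousWithinAt) hmP))
    ((ae_restrict_mem hmP).mono h1) fun n hn => ?_).imp_right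
    fun k => (lintegral_mono_set fun x hx => ?_).trans k
  · have e := G.ends.integral_part G.lt hA hm int_rg_sub (fun j w hw => mem_int_rg hw.1
      fun i _ => by linarith [hw.2, h.le i]) hP
      (g := fun x => ((min (LagM G.F C.X x).re n : ℝ) : ℂ)) hn.ofReal
    rw [integral_complex_ofReal] at e
    rw [← ofReal_re (∫ _ in _, _ ∂_), e, act_eq, add_re, add_re, add_re, re_sum, re_sum, re_sum,
      add_assoc, Finset.mul_sum, ← Finset.sum_add_distrib]
    refine (add_le_add (re_integral_le (integrable_psi G.ends G.lt G.area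
      (continuousOn_LagM G.area.opn G.area.imm h.imm)) (.of_forall fun x => ?_))
      (Finset.sum_le_sum fun j _ => re_integral_le
        (integrableOn_le_maj (hm j) (int_rg_sub j) (h.contOn_ell j) (hb W C g h j))
        ((ae_restrict_mem (measurableSet_fd (hm j))).mono fun p hp => ?_))).trans
      (le_add_of_nonneg_right (Finset.sum_nonneg fun i _ => ?_))
    · by_cases hx : x ∈ coreK G.φ (G.s + 1)
      · simp only [re_ofReal_mul, ofReal_re]
        exact ⟨mul_nonneg (G.ends.psi_nonneg G.lt x) (re_LagM_nonneg G.area.opn (hK hx)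
          (G.area.imm x (hK hx)) (fun x _ => hF x) (im_dot (hX x hx) (hX x hx))),
          mul_le_mul_of_nonneg_left (min_le_left _ _) (G.ends.psi_nonneg G.lt x)⟩
      · rw [G.ends.psi_zero hx]; simp
    · have p0 := G.lt.trans (int_rg_sub j hp.1)
      have hY : Yp G.φ j p ∈ part G.φ G.s fun j => interior (G.rg W j) :=
        Or.inr (mem_iUnion.2 ⟨j, p, hp, rfl⟩)
      obtain ⟨k1, k2⟩ := G.ends.lagF_real j p0 hA.opn (hP hY) (hA.imm _ (hP hY)) fun x _ => hF x
      have k3 : LagM G.F C.X (Yp G.φ j p) * LagF (1, 0) (0, 1) (fun q => G.F (Yp G.φ j q)) p =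
          G.ell C j p := (LagM_param (G.ends.mem j) (G.ends.pol_mem j p0) (hA.imm _ (hP hY))
        ((h0 _ hY).1.ck.of_le one_le_two) (differentiable_pol p) (jac_pol_ne p)).trans
        (h.on_end (hZ j) hp.1).2.1
      simp only [re_ofReal_mul, ← k3]
      rw [mul_re, k1, mul_zero, sub_zero]
      exact ⟨mul_nonneg (cut_nonneg _ _) (mul_nonneg (h1 _ hY) k2), mul_le_mul_of_nonneg_left
        (mul_le_mul_of_nonneg_right (min_le_left _ _) k2) (cut_nonneg _ _)⟩
    · linarith [h.norm_Bd i, (abs_le.1 (abs_re_le_norm (Bd (W i) (C.cap i (W i))))).1]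
  · by_cases hc : x ∈ coreK G.φ G.s
    · exact Or.inl hc
    · obtain ⟨j, p, hp, rfl⟩ := exists_Yp_of_notMem (hΩ x hx).1 hc
      exact Or.inr (mem_iUnion.2 ⟨j, p, ⟨mem_int_rg hp.1 fun i e => lt_of_not_ge fun hi =>
        (hΩ _ hx).2 i p hi (by rw [e]), hp.2⟩, rfl⟩)

/-- the limit of the action when the surfaces converge to the reference surface -/
theorem tendsto_act {α : Type*} {l : Filter α} [l.IsCountablyGenerated] {W : α → ι → ℝ}
    {C : α → Cfg M ι κ} {g : α → M → ℂ} (hS : ∀ᶠ n in l, G.Sol (W n) (C n) (g n))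
    (hW : ∀ i, Tendsto (fun n => W n i) l atTop)
    (hA : IsArea {x | ∀ j, x ≠ (G.φ j).symm 0} G.F G.μ)
    (hae : ∀ᵐ x ∂G.μ, ∀ j, x ≠ (G.φ j).symm 0)
    (h1 : ∀ x ∈ coreK G.φ (G.s + 1), Tendsto (fun n => LagM G.F (C n).X x) l (𝓝 1))
    (h2 : ∀ j (p : ℝ × ℝ), G.s < p.1 → Tendsto (fun n => G.ell (C n) j p) l
      (𝓝 (LagF (1, 0) (0, 1) (fun q => G.F (Yp G.φ j q)) p))) :
    Tendsto (fun n => G.act (W n) (C n)) l (𝓝 (G.μ.real univ : ℝ)) := by
  have := hA.fin
  obtain ⟨K, hb⟩ := G.exists_maj_bound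
  have e := G.ends.integral_part G.lt hA (I := fun _ => Ioi G.s) (fun _ => measurableSet_Ioi)
    (fun _ => le_rfl) (fun _ => Ioc_subset_Ioi_self) (G.ends.part_subset G.lt fun _ => le_rfl)
    (g := fun _ => 1) (integrable_const _)
  rw [Measure.restrict_eq_self_of_ae_mem (hae.mono fun x hx => by
    by_cases hc : x ∈ coreK G.φ G.s
    · exact Or.inl hc
    · obtain ⟨j, p, hp, rfl⟩ := exists_Yp_of_notMem hx hc
      exact Or.inr (mem_iUnion.2 ⟨j, p, hp, rfl⟩)), integral_const, real_smul, mul_one] at e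
  simp only [act_eq]
  rw [e, ← add_zero ((∫ x, (psi G.φ G.s x : ℂ) * 1 ∂G.μ) + _),
    ← Finset.sum_const_zero (s := (Finset.univ : Finset ι)) (M := ℂ)]
  refine ((tendsto_integral_filter_of_dominated_convergence (fun _ => 2)
    (hS.mono fun n h => (integrable_psi G.ends G.lt G.area
      (continuousOn_LagM G.area.opn G.area.imm h.imm)).1)
    (hS.mono fun n h => .of_forall fun x => ?_) (integrable_const _)
    (.of_forall fun x => ?_)).add (tendsto_finsetSum _ fun j _ => ?_)).add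
    (tendsto_finsetSum _ fun i _ => squeeze_zero_norm' (hS.mono fun n h => h.norm_Bd i) ?_)
  · by_cases hx : x ∈ coreK G.φ (G.s + 1)
    · rw [norm_mul]
      exact (mul_le_of_le_one_left (norm_nonneg _) (G.ends.norm_psi_le x)).trans (h.lag x hx)
    · rw [G.ends.psi_zero hx]; simp
  · by_cases hx : x ∈ coreK G.φ (G.s + 1)
    · exact (h1 x hx).const_mul _
    · simp only [G.ends.psi_zero hx, ofReal_zero, zero_mul, tendsto_const_nhds]
  · have hm : ∀ n, MeasurableSet (fd (interior (G.rg (W n) j))) := fun n =>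
      measurableSet_fd isOpen_interior.measurableSet
    have hs : ∀ n, fd (interior (G.rg (W n) j)) ⊆ fd (Ioi G.s) := fun n =>
      prod_mono (int_rg_sub j) le_rfl
    refine (tendsto_integral_filter_of_dominated_convergence (fun p => |K| * maj p.1)
      (F := fun n => (fd (interior (G.rg (W n) j))).indicator
        fun p => (cut G.s p.1 : ℂ) * G.ell (C n) j p)
      (hS.mono fun n h => (((integrable_indicator_iff (hm n)).2 (integrableOn_le_maj
        isOpen_interior.measurableSet (int_rg_sub j) (h.contOn_ell j)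
        (hb _ _ _ h j))).integrableOn).1) (hS.mono fun n h => .of_forall fun p => ?_)
      ((integrableOn_maj G.s).const_mul _)
      ((ae_restrict_mem (measurableSet_fd measurableSet_Ioi)).mono fun p hp => ?_)).congr fun n =>
      by rw [setIntegral_indicator (hm n), inter_eq_right.2 (hs n)]
    · by_cases hp : p ∈ fd (interior (G.rg (W n) j))
      · rw [indicator_of_mem hp]
        exact (hb _ _ _ h j p hp.1).trans (mul_le_mul_of_nonneg_right (le_abs_self K)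
          (maj_pos _).le)
      · rw [indicator_of_notMem hp, norm_zero]
        exact mul_nonneg (abs_nonneg K) (maj_pos _).le
    · rw [one_mul]
      refine ((h2 j p hp.1).const_mul _).congr' ?_
      filter_upwards [eventually_all.2 fun i => (hW i).eventually_gt_atTop p.1] with n hn
      rw [indicator_of_mem (show p ∈ fd _ from ⟨mem_int_rg hp.1 fun i _ => hn i, hp.2⟩)]
  · simpa using (Real.tendsto_exp_neg_atTop_nhds_zero.comp (hW i)).const_mul 48

end Geo

end Vale.Agent.P218VA
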