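import Vale.Agent.P218VA.Pull
import Vale.Agent.P218WD.BC

/-!
# The first variation of the action
-/

open scoped Matrix Topology Real ContDiff
open Complex Filter Set MeasureTheory Metric Asymptotics
open Vale.Agent.P272.K.LIN
open Vale.Agent.P218XI (Frame cylF rt rt_sq rt_ne co si d1)

noncomputable section

set_option linter.unusedSectionVars false

namespace Vale.Agent.P218VA

lemma sn2_eq (A : ℂ) : sn2 A = P218WD.s2 A := by rw [sn2, P218WD.s2]; ring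
lemma sn_eq (A : ℂ) : sn A = P218WD.sb A := by rw [sn, sn2_eq, P218WD.sb]
lemma Bd_eq (W A : ℂ) : Bd W A = P218WD.Bd W A := by rw [Bd, sn_eq, P218WD.Bd]
lemma BdA_eq (W A : ℂ) : BdA W A = P218WD.BdA W A := by rw [BdA, sn_eq, P218WD.BdA]; ring
lemma BdW_eq (W A : ℂ) : BdW W A = P218WD.BdW W A := by rw [BdW, sn_eq, P218WD.BdW]

lemma fd_Ioo_ae (a b : ℝ) : fd (Ioo a b) =ᵐ[volume] fd (Ioc a b) := by
  unfold fd
  rw [Measure.volume_eq_prod]
  exact Measure.set_prod_ae_eq Ioo_ae_eq_Ioc EventuallyEq.rfl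

lemma abs_sqrt_sub_le {a b : ℝ} (ha : 1 ≤ a) (hb : 1 ≤ b) : ‖rt a - rt b‖ ≤ |a - b| := by
  have h1 := Real.one_le_sqrt.2 ha
  have h2 := Real.one_le_sqrt.2 hb
  have e : a - b = (√a - √b) * (√a + √b) := by
    nlinarith [Real.sq_sqrt (zero_le_one.trans ha), Real.sq_sqrt (zero_le_one.trans hb)]
  rw [rt, rt, ← ofReal_sub, norm_real, Real.norm_eq_abs, e, abs_mul]
  exact le_mul_of_one_le_right (abs_nonneg _) ((by linarith : 1 ≤ √a + √b).trans (le_abs_self _))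

lemma norm_rt_ge {a : ℝ} (ha : 1 ≤ a) : 1 / 2 ≤ ‖rt a‖ := by
  rw [rt, norm_real, Real.norm_of_nonneg (Real.sqrt_nonneg a)]
  linarith [Real.one_le_sqrt.2 ha]

lemma norm_rt_le {a : ℝ} (ha : 1 ≤ a) : ‖rt a‖ ≤ a := by
  rw [rt, norm_real, Real.norm_of_nonneg (Real.sqrt_nonneg a), Real.sqrt_le_left (by linarith)]
  nlinarith

section norm
variable (F : Frame) {w : ℝ} (θ : ℝ) (t z : ℂ)

lemma X_norm : F.X w θ t = rt w • (F.R θ t *ᵥ ![2, 0, 0]) := by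
  rw [Frame.X, ← Matrix.mulVec_smul]
  simp [mul_comm]

lemma a_norm (hw : 0 < w) :
    F.a w θ t z = (rt w)⁻¹ • (F.R θ t *ᵥ ![1, 2 * d1 t (w * z), 0]) := by
  have := rt_ne hw
  rw [Frame.a, ← Matrix.mulVec_smul, ← rt_sq hw.le]
  congr 1
  ext i
  fin_cases i <;> simp [d1]
  field_simp

lemma b_norm : F.b w θ t z = rt w • (F.R θ t *ᵥ ![0, 2 * d1 t z, 2 * F.G θ t]) := by
  rw [Frame.b, ← Matrix.mulVec_smul]
  congr 1
  ext i
  fin_cases i <;> simp <;> ring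

end norm

variable {M ι κ : Type*} [TopologicalSpace M] [ChartedSpace E2 M] [RSm E2 M] [T2Space M]
  [CompactSpace M] [MeasurableSpace M] [BorelSpace M] [Fintype ι] [Fintype κ]

namespace Geo
variable {G : Geo M ι κ} {W : ι → ℝ} {C : Cfg M ι κ} {g : M → ℂ}

lemma one_le_of_mem {j : ι ⊕ κ} {w : ℝ} (h : w ∈ G.rg W j) : 1 ≤ w := by
  cases j
  · exact G.one_le.trans h.1
  · exact G.one_le.trans h

lemma Sol.sub_rg (h : G.Sol W C g) (j : ι ⊕ κ) : Icc G.s (G.s + 2) ⊆ G.rg W j := by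
  cases j with
  | inl i => exact Icc_subset_Icc_right (h.le i)
  | inr k => exact Icc_subset_Ici_self

lemma Sol.ne (h : G.Sol W C g) {j : ι ⊕ κ} {p : ℝ × ℝ} (hp : p.1 ∈ G.rg W j) :
    1 + C.t j p ^ 2 ≠ 0 := lam_ne (h.small j p hp).1

lemma Sol.top_mem (h : G.Sol W C g) (i : ι) : W i ∈ Icc G.s (W i) :=
  right_mem_Icc.2 (by linarith [h.le i])

lemma Sol.slit' (h : G.Sol W C g) {j : ι ⊕ κ} {p : ℝ × ℝ} (hp : p.1 ∈ G.rg W j) :
    G.grm C j p ∈ slitPlane := by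
  cases j with
  | inl i => exact h.slit i p hp
  | inr k =>
    obtain ⟨c, hc, H⟩ := h.cone k
    exact Or.inl (hc.trans_le (H p hp))

lemma Sol.slitR (h : G.Sol W C g) (j : ι ⊕ κ) : ∀ p ∈ G.rg W j ×ˢ (univ : Set ℝ),
    gram (C.R j *ᵥ G.Z1 C j p) (C.R j *ᵥ G.Z2 C j p) ∈ slitPlane := fun p hp => by
  rw [gram_rot (h.orth j)]
  exact h.slit' hp.1

lemma Sol.jet2 (h : G.Sol W C g) (j : ι ⊕ κ) : ∃ Z11 Z12 Z22,
    Jet2 (G.rg W j) (fun p => C.R j *ᵥ G.Z C j p) (fun p => C.R j *ᵥ G.Z1 C j p)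
      (fun p => C.R j *ᵥ G.Z2 C j p) Z11 Z12 Z22 ∧ ∀ p : ℝ × ℝ, p.1 ∈ interior (G.rg W j) →
      PP (C.R j *ᵥ G.Z C j p) (C.R j *ᵥ G.Z1 C j p) (C.R j *ᵥ G.Z2 C j p) (Z11 p) (Z12 p)
        (Z22 p) = 0 := by
  obtain ⟨tww, twθ, tθθ, hJ, hP⟩ := h.jet j
  have k := ((G.fr j).rot _ (h.orth j)).jet2 (fun w hw => one_pos.trans_le (one_le_of_mem hw)) hJ
    fun p hp => h.ne hp.1
  simp only [Frame.rot_X, Frame.rot_a, Frame.rot_b, Frame.rot_aa, Frame.rot_ab, Frame.rot_bb] at k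
  exact ⟨_, _, _, k, fun p hp => by rw [PP_rot (h.orth j), hP p hp, mul_zero]⟩

lemma Sol.jet1 (h : G.Sol W C g) (j : ι ⊕ κ) :
    Jet1 (G.rg W j) (fun p => C.R j *ᵥ G.Z C j p) (fun p => C.R j *ᵥ G.Z1 C j p)
      fun p => C.R j *ᵥ G.Z2 C j p := by
  obtain ⟨_, _, _, k, -⟩ := h.jet2 j
  exact k.j0

lemma Sol.jt (h : G.Sol W C g) (j : ι ⊕ κ) : Jet1 (G.rg W j) (C.t j) (C.tw j) (C.tθ j) := by
  obtain ⟨_, _, _, k, -⟩ := h.jet j
  exact k.j0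

lemma Sol.ell_eq (h : G.Sol W C g) (j : ι ⊕ κ) (p : ℝ × ℝ) : G.ell C j p =
    Lag (C.R j *ᵥ G.Z C j p) (C.R j *ᵥ G.Z1 C j p) (C.R j *ᵥ G.Z2 C j p) :=
  (Lag_rot (h.orth j) _ _ _).symm

lemma Sol.cap_slit (h : G.Sol W C g) (i : ι) : sn2 (C.cap i (W i)) ∈ slitPlane := by
  refine Or.inl (lt_of_not_ge fun h0 => ?_)
  nlinarith [h.cap i, sq_nonneg (W i)]

lemma Z_top (C : Cfg M ι κ) (i : ι) (p : ℝ × ℝ) :
    G.Z C (.inl i) p = (2 * rt p.1) • om (C.t (.inl i) p) p.2 := by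
  rw [Z, fr, Sum.elim_inl, P218XI.cylF_X, xiC_cyl, rt]

lemma Z2_top (C : Cfg M ι κ) (i : ι) {p : ℝ × ℝ} (h : 1 + C.t (.inl i) p ^ 2 ≠ 0) :
    G.Z2 C (.inl i) p = (2 * rt p.1) • omd (C.t (.inl i) p) (C.tθ (.inl i) p) p.2 := by
  have k := P218WD.rot_b_omd (R := 1) (by simp) p.2 p.1 h (C.tθ (.inl i) p)
  rw [Frame.rot_b, Matrix.one_mulVec, Matrix.one_mulVec] at k
  exact k

variable {α : Type*} {l : Filter α} {δ : α → ℝ} {W' : α → ι → ℝ} {C' : α → Cfg M ι κ}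
  {g' : α → M → ℂ}

lemma cl_rot {Y : Type*} (S : Set Y) (hδ : Tendsto δ l (𝓝 0))
    (hc : ∀ᶠ n in l, G.Close W (W' n) C (C' n) (δ n)) (j : ι ⊕ κ) (a b : Fin 3) :
    Cl (l ×ˢ 𝓟 S) (fun x => δ x.1) (fun x => (C' x.1).R j a b) fun _ => C.R j a b :=
  Cl.of_le (hδ.comp tendsto_fst) ((hc.mono fun _ h => h.rot j a b).prod_inl _)
    (Eventually.of_forall fun _ => le_rfl)

theorem cone_variation (hδ : Tendsto δ l (𝓝 0)) (h : G.Sol W C g)
    (h' : ∀ᶠ n in l, G.Sol (W' n) (C' n) (g' n))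
    (hc : ∀ᶠ n in l, G.Close W (W' n) C (C' n) (δ n)) (k : κ) :
    (fun n => (∫ p in fd (Ioi G.s), (cut G.s p.1 : ℂ) * G.ell (C' n) (.inr k) p) -
      (∫ p in fd (Ioi G.s), (cut G.s p.1 : ℂ) * G.ell C (.inr k) p) +
      ∫ p in fd (Ioc G.s (G.s + 1)), ((deriv (cut G.s) p.1 : ℝ) : ℂ) *
        mom1 (C.R (.inr k) *ᵥ G.Z C (.inr k) p) (C.R (.inr k) *ᵥ G.Z1 C (.inr k) p)
          (C.R (.inr k) *ᵥ G.Z2 C (.inr k) p)
          ((C' n).R (.inr k) *ᵥ G.Z (C' n) (.inr k) p - C.R (.inr k) *ᵥ G.Z C (.inr k) p))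
      =o[l] δ := by
  set j : ι ⊕ κ := .inr k with hj
  set S : Set (ℝ × ℝ) := {p | G.s ≤ p.1}
  set L := l ×ˢ 𝓟 S
  have hL : Tendsto (fun x : α × ℝ × ℝ => δ x.1) L (𝓝 0) := hδ.comp tendsto_fst
  have ev : ∀ {P : α × ℝ × ℝ → Prop}, (∀ᶠ n in l, ∀ p : ℝ × ℝ, G.s ≤ p.1 → P (n, p)) →
      ∀ᶠ x in L, P x := fun h => eventually_prod_principal_iff.2 h
  have nw : ∀ (p : ℝ × ℝ) (z : ℂ), G.s ≤ p.1 → ‖(p.1 : ℂ) * z‖ = p.1 * ‖z‖ := fun p z hp => by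
    rw [norm_mul, norm_real, Real.norm_of_nonneg (by linarith [G.one_le])]
  have c0 : ClT L (fun x => δ x.1) (fun x => (C' x.1).t j x.2) fun x => C.t j x.2 :=
    ⟨Cl.of_le hL (ev (hc.mono fun n hn p hp => (hn.cone k p hp).1))
      (ev (.of_forall fun n p hp => (h.small j p hp).1)),
      ev (.of_forall fun n p hp => (h.small j p hp).1),
      ev (h'.mono fun n hn p hp => (hn.small j p hp).1)⟩
  have c1 : Cl L (fun x => δ x.1) (fun x => (x.2.1 : ℂ) * (C' x.1).tw j x.2)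
      fun x => (x.2.1 : ℂ) * C.tw j x.2 :=
    Cl.of_le hL (ev (hc.mono fun n hn p hp => by
      rw [← mul_sub, nw p _ hp]; exact (hn.cone k p hp).2.1))
      (ev (.of_forall fun n p hp => by rw [nw p _ hp]; exact (h.small j p hp).2.1))
  have c2 : Cl L (fun x => δ x.1) (fun x => (C' x.1).tθ j x.2) fun x => C.tθ j x.2 :=
    Cl.of_le hL (ev (hc.mono fun n hn p hp => (hn.cone k p hp).2.2))
      (ev (.of_forall fun n p hp => (h.small j p hp).2.2))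
  have k0 := Cl.mulVec (cl_rot S hδ hc j) (c0.R (G.fr j) (fun x => x.2.2) (Cl.const ![2, 0, 0]))
  have k1 := Cl.mulVec (cl_rot S hδ hc j) (c0.R (G.fr j) (fun x => x.2.2)
    (Cl.vec (Cl.const 1) ((Cl.const 2).mul (c0.d1 c1)) (Cl.const 0)))
  have k2 := Cl.mulVec (cl_rot S hδ hc j) (c0.R (G.fr j) (fun x => x.2.2)
    (Cl.vec (Cl.const 0) ((Cl.const 2).mul (c0.d1 c2))
      ((Cl.const 2).mul (c0.G (G.fr j) fun x => x.2.2))))
  rcases eq_or_neBot l with rfl | hl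
  · simp
  obtain ⟨K, hK⟩ := exists_bound3 k0.sub k1.sub k2.sub
  obtain ⟨B, hB⟩ := exists_bound3 (δ := fun _ => 1) k0.bd k1.bd k2.bd
  obtain ⟨_, hB⟩ := hB.exists
  obtain ⟨c, hc0, hcone⟩ := h.cone k
  obtain ⟨Z11, Z12, Z22, hJ, hP⟩ := h.jet2 j
  have nf : ∀ {W C g}, G.Sol W C g → ∀ p : ℝ × ℝ, G.s ≤ p.1 →
      C.R j *ᵥ G.Z C j p = rt p.1 • (C.R j *ᵥ ((G.fr j).R p.2 (C.t j p) *ᵥ ![2, 0, 0])) ∧
      C.R j *ᵥ G.Z1 C j p = (rt p.1)⁻¹ • (C.R j *ᵥ ((G.fr j).R p.2 (C.t j p) *ᵥ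
        ![1, 2 * d1 (C.t j p) (p.1 * C.tw j p), 0])) ∧
      C.R j *ᵥ G.Z2 C j p = rt p.1 • (C.R j *ᵥ ((G.fr j).R p.2 (C.t j p) *ᵥ
        ![0, 2 * d1 (C.t j p) (C.tθ j p), 2 * (G.fr j).G p.2 (C.t j p)])) ∧
      (C.R j *ᵥ ((G.fr j).R p.2 (C.t j p) *ᵥ ![2, 0, 0])) ⬝ᵥ
        (C.R j *ᵥ ((G.fr j).R p.2 (C.t j p) *ᵥ ![2, 0, 0])) = 4 ∧
      gram (C.R j *ᵥ ((G.fr j).R p.2 (C.t j p) *ᵥ ![1, 2 * d1 (C.t j p) (p.1 * C.tw j p), 0]))
        (C.R j *ᵥ ((G.fr j).R p.2 (C.t j p) *ᵥ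
          ![0, 2 * d1 (C.t j p) (C.tθ j p), 2 * (G.fr j).G p.2 (C.t j p)])) = G.grm C j p :=
    fun {W C g} h p hp => by
      have hw : 0 < p.1 := by linarith [G.one_le]
      refine ⟨by rw [Z, X_norm, Matrix.mulVec_smul], by rw [Z1, a_norm _ _ _ _ hw,
        Matrix.mulVec_smul], by rw [Z2, b_norm, Matrix.mulVec_smul], ?_, ?_⟩
      · rw [dot_rot (h.orth j), dot_rot ((G.fr j).R_orth _ (h.ne (j := j) hp)), dot3]
        simp only [Matrix.cons_val_zero, Matrix.cons_val_one, Matrix.cons_val]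
        norm_num
      · rw [gram_rot (h.orth j), grm, Z1, Z2, a_norm _ _ _ _ hw, b_norm, gram_scale hw]
  have H := cone_expansion (l := l) (δ := fun n => K * ‖δ n‖)
    (by simpa using hδ.norm.const_mul K) G.one_le (B := B * ‖(1 : ℝ)‖) hc0 hJ
    (fun p hp => hP p (by simpa [rg, hj] using hp))
    (fun p hp => by
      obtain ⟨e0, e1, e2, e3, e4⟩ := nf h p hp
      exact ⟨e0, e1, e2, e3, (hB p hp).2.1, (hB p hp).2.2, e4 ▸ hcone p hp⟩)
    (Z' := fun n p => (C' n).R j *ᵥ G.Z (C' n) j p)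
    (by
      filter_upwards [h', hK] with n hn kn
      refine ⟨hn.jet1 j, fun p hp => ?_⟩
      obtain ⟨e0, e1, e2, e3, e4⟩ := nf hn p hp
      exact ⟨e0, e1, e2, e3, e4 ▸ hn.slit' (j := j) hp, kn p hp⟩)
  refine (H.trans_isBigO ((isBigO_refl δ l).norm_left.const_mul_left K)).congr' ?_
    EventuallyEq.rfl
  filter_upwards [h'] with n hn
  simp only [hn.ell_eq, h.ell_eq]

theorem cyl_variation (hδ : Tendsto δ l (𝓝 0)) (h : G.Sol W C g)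
    (h' : ∀ᶠ n in l, G.Sol (W' n) (C' n) (g' n))
    (hc : ∀ᶠ n in l, G.Close W (W' n) C (C' n) (δ n)) (i : ι) :
    (fun n => ((∫ p in fd (Ioc G.s (W' n i)), (cut G.s p.1 : ℂ) * G.ell (C' n) (.inl i) p) +
      Bd (W' n i) ((C' n).cap i (W' n i))) -
      ((∫ p in fd (Ioc G.s (W i)), (cut G.s p.1 : ℂ) * G.ell C (.inl i) p) +
        Bd (W i) (C.cap i (W i))) - ((W' n i : ℂ) - W i) * G.Res W C i +
      ∫ p in fd (Ioc G.s (G.s + 1)), ((deriv (cut G.s) p.1 : ℝ) : ℂ) *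
        mom1 (C.R (.inl i) *ᵥ G.Z C (.inl i) p) (C.R (.inl i) *ᵥ G.Z1 C (.inl i) p)
          (C.R (.inl i) *ᵥ G.Z2 C (.inl i) p)
          ((C' n).R (.inl i) *ᵥ G.Z (C' n) (.inl i) p - C.R (.inl i) *ᵥ G.Z C (.inl i) p))
      =o[l] δ := by
  set j : ι ⊕ κ := .inl i with hj
  have ex : ∀ᶠ n in l, ∃ q : (ℝ → ℝ) × (ℝ → ℝ), IsPull G.s (W i) (W' n i) q.1 q.2 (δ n) ∧
      ∀ w ∈ Icc G.s (W i), ∀ θ, ‖(C' n).t j (q.1 w, θ) - C.t j (w, θ)‖ ≤ δ n ∧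
        ‖(C' n).tw j (q.1 w, θ) - C.tw j (w, θ)‖ ≤ δ n ∧
        ‖(C' n).tθ j (q.1 w, θ) - C.tθ j (w, θ)‖ ≤ δ n := hc.mono fun n hn => by
    obtain ⟨ψ, ψ', H⟩ := hn.cyl i
    exact ⟨(ψ, ψ'), H⟩
  obtain ⟨q, hq⟩ := Filter.skolem.1 ex
  have h1 : ∀ᶠ n in l, δ n < 1 := hδ.eventually_lt_const one_pos
  have hs := G.one_le
  have hW := h.le i
  have hW0 : 0 < W i := by linarith
  set S : Set (ℝ × ℝ) := Icc G.s (W i) ×ˢ univ
  set L := l ×ˢ 𝓟 S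
  have hL : Tendsto (fun x : α × ℝ × ℝ => δ x.1) L (𝓝 0) := hδ.comp tendsto_fst
  have ev : ∀ {P : α × ℝ × ℝ → Prop}, (∀ᶠ n in l, ∀ p : ℝ × ℝ, p.1 ∈ Icc G.s (W i) → P (n, p)) →
      ∀ᶠ x in L, P x := fun h =>
    eventually_prod_principal_iff.2 (h.mono fun n hn p hp => hn p hp.1)
  have c0 : ClT L (fun x => δ x.1) (fun x => (C' x.1).t j ((q x.1).1 x.2.1, x.2.2))
      fun x => C.t j x.2 :=
    ⟨Cl.of_le hL (ev (hq.mono fun n hn p hp => (hn.2 _ hp p.2).1))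
      (ev (.of_forall fun n p hp => (h.small j p hp).1)),
      ev (.of_forall fun n p hp => (h.small j p hp).1),
      ev (by
        filter_upwards [h', hq, h1] with n hn kn dn p hp
        exact (hn.small j (_, p.2) (kn.1.mem dn hp)).1)⟩
  have c1 : Cl L (fun x => δ x.1) (fun x => (C' x.1).tw j ((q x.1).1 x.2.1, x.2.2))
      fun x => C.tw j x.2 :=
    Cl.of_le hL (ev (hq.mono fun n hn p hp => (hn.2 _ hp p.2).2.1)) (B := 1)
      (ev (.of_forall fun n p hp =>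
        (le_mul_of_one_le_left (norm_nonneg _) (hs.trans hp.1)).trans (h.small j p hp).2.1))
  have c2 : Cl L (fun x => δ x.1) (fun x => (C' x.1).tθ j ((q x.1).1 x.2.1, x.2.2))
      fun x => C.tθ j x.2 :=
    Cl.of_le hL (ev (hq.mono fun n hn p hp => (hn.2 _ hp p.2).2.2))
      (ev (.of_forall fun n p hp => (h.small j p hp).2.2))
  have m1 : ∀ᶠ n in l, ∀ p : ℝ × ℝ, p.1 ∈ Icc G.s (W i) → 1 ≤ (q n).1 p.1 := by
    filter_upwards [hq, h1] with n kn dn p hp using hs.trans (kn.1.mem dn hp).1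
  have c3 : Cl L (fun x => δ x.1) (fun x => rt ((q x.1).1 x.2.1)) fun x => rt x.2.1 :=
    Cl.of_le hL (ev (by
      filter_upwards [hq, m1] with n kn mn p hp
      exact (abs_sqrt_sub_le (mn p hp) (hs.trans hp.1)).trans (kn.1.c0 _ hp))) (B := W i)
      (ev (.of_forall fun n p hp => (norm_rt_le (hs.trans hp.1)).trans hp.2))
  have c4 := c3.inv (ev (.of_forall fun n p hp => norm_rt_ge (hs.trans hp.1)))
    (ev (m1.mono fun n mn p hp => norm_rt_ge (mn p hp)))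
  have c5 : Cl L (fun x => δ x.1) (fun x => ((q x.1).2 x.2.1 : ℂ)) fun _ => 1 :=
    Cl.of_le hL (ev (hq.mono fun n hn p hp => by exact_mod_cast hn.1.c1 _ hp))
      (.of_forall fun _ => le_rfl)
  have c6 := (Cl.const 2).mul c3
  have k0 := Cl.mulVec (cl_rot S hδ hc j) (c0.R (G.fr j) (fun x => x.2.2)
    (Cl.vec c6 (Cl.const 0) (Cl.const 0)))
  have k1 := c5.smul (Cl.mulVec (cl_rot S hδ hc j) (c0.R (G.fr j) (fun x => x.2.2)
    (Cl.vec ((Cl.const 1).mul c4) (c6.mul (c0.d1 c1)) (Cl.const 0))))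
  have k2 := Cl.mulVec (cl_rot S hδ hc j) (c0.R (G.fr j) (fun x => x.2.2)
    (Cl.vec (Cl.const 0) (c6.mul (c0.d1 c2)) (c6.mul (c0.G (G.fr j) fun x => x.2.2))))
  simp only [one_smul, ← div_eq_mul_inv] at k1
  obtain ⟨K, hK⟩ := exists_bound3 k0.sub k1.sub k2.sub
  obtain ⟨Z11, Z12, Z22, hJ, hP⟩ := h.jet2 j
  have oK : (fun n => K * ‖δ n‖) =O[l] δ := (isBigO_refl δ l).norm_left.const_mul_left K
  have tK : Tendsto (fun n => K * ‖δ n‖) l (𝓝 0) := oK.trans_tendsto hδ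
  have H1 := (strip_expansion (s := G.s) tK hJ.j0 (h.slitR j)
    (Z' := fun n p => (C' n).R j *ᵥ G.Z (C' n) j ((q n).1 p.1, p.2))
    (Z1' := fun n p => ((q n).2 p.1 : ℂ) • ((C' n).R j *ᵥ G.Z1 (C' n) j ((q n).1 p.1, p.2)))
    (Z2' := fun n p => (C' n).R j *ᵥ G.Z2 (C' n) j ((q n).1 p.1, p.2)) (by
      filter_upwards [h', hq, h1, hK] with n hn kn dn bn
      exact ⟨kn.1.jet1 dn (hn.jet1 j), fun p hp => ⟨kn.1.slit dn hp.1
        (hn.slitR j (_, p.2) ⟨kn.1.mem dn hp.1, mem_univ _⟩), bn p hp⟩⟩)).trans_isBigO oK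
  have oW : (fun n => (W' n i : ℂ) - W i) =O[l] δ := IsBigO.of_bound' (hq.mono fun n hn => by
    have := hn.1.c0 _ (h.top_mem i)
    rw [hn.1.top] at this
    exact_mod_cast this.trans (le_abs_self _))
  have oρ : (fun n => 2 * rt (W' n i) - 2 * rt (W i)) =O[l] δ := by
    refine (IsBigO.const_mul_left (IsBigO.trans (IsBigO.of_bound' (g := fun n => (W' n i : ℂ) - W i)
      (f := fun n => rt (W' n i) - rt (W i)) (h'.mono fun n hn => ?_)) oW) 2).congr_left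
      fun n => by ring
    exact_mod_cast abs_sqrt_sub_le (by linarith [hn.le i]) (by linarith)
  have big : δ =O[l] fun n => (|K| + 1) * ‖δ n‖ := IsBigO.of_bound' (.of_forall fun n => by
    rw [Real.norm_of_nonneg (r := _ * _) (by positivity)]
    exact le_mul_of_one_le_left (norm_nonneg _) (by linarith [abs_nonneg K]))
  have oK' : (fun n => (|K| + 1) * ‖δ n‖) =O[l] δ := (isBigO_refl δ l).norm_left.const_mul_left _
  have hρ : 2 * rt (W i) ≠ 0 := mul_ne_zero two_ne_zero (rt_ne hW0)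
  have hne : ∀ θ, 1 + C.t j (W i, θ) ^ 2 ≠ 0 := fun θ => h.ne (j := j) (h.top_mem i)
  have hV : ∀ᶠ n in l, ∀ θ, ‖(C' n).R j *ᵥ ((2 * rt (W' n i)) • om ((C' n).t j (W' n i, θ)) θ) -
      C.R j *ᵥ ((2 * rt (W i)) • om (C.t j (W i, θ)) θ)‖ ≤ (|K| + 1) * ‖δ n‖ := by
    filter_upwards [hq, hK] with n kn bn θ
    have := (bn (W i, θ) ⟨h.top_mem i, mem_univ _⟩).1
    rw [kn.1.top] at this
    rw [← Z_top (G := G) (C' n) i (W' n i, θ), ← Z_top (G := G) C i (W i, θ)]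
    exact this.trans (by gcongr; linarith [le_abs_self K])
  have hRR : ∀ a b, (fun n => (C' n).R j a b - C.R j a b) =O[l] fun n => (|K| + 1) * ‖δ n‖ :=
    fun a b => (IsBigO.of_bound' (hc.mono fun n hn => (hn.rot j a b).trans (le_abs_self _))).trans
      big
  have hR' : ∀ᶠ n in l, ((C' n).R j)ᵀ * (C' n).R j = 1 := h'.mono fun n hn => hn.orth j
  have hne' : ∀ᶠ n in l, ∀ θ, 1 + (C' n).t j (W' n i, θ) ^ 2 ≠ 0 :=
    h'.mono fun n hn θ => hn.ne (j := j) (hn.top_mem i)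
  have hc' : ∀ᶠ n in l, Continuous fun θ => (C' n).t j (W' n i, θ) :=
    h'.mono fun n hn => (hn.jt j).cθ (hn.top_mem i)
  have hd := det_ne_rot (h.orth j)
  have H2 := ((bdry_expansion (oK'.trans_tendsto hδ) hρ (oρ.trans big) (h.orth j) hR' hRR
    ((h.jt j).dθ _ (h.top_mem i)) (continuous_slice (h.jt j).c2 (h.top_mem i))
    (by simpa using (h.jt j).per _ (h.top_mem i) 0) hne hne' hc'
    (continuous_slice hJ.j0.c1 (h.top_mem i))
    (fun θ => by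
      rw [← Z2_top (G := G) C i (p := (W i, θ)) (hne θ)]
      exact h.slitR j _ ⟨h.top_mem i, mem_univ _⟩)
    (P := -BdA (W i) (C.cap i (W i)) / ((C.R j).det * (2 * rt (W i)) ^ 3)) (fun θ => by
      rw [← Z2_top (G := G) C i (p := (W i, θ)) (hne θ), ← Z_top (G := G) C i (W i, θ), con,
        wt_rot (h.orth j), ar_rot (h.orth j), dot_rot (h.orth j), triple_mulVec, ← h.contact i θ,
        eq_div_iff (mul_ne_zero hd (pow_ne_zero _ hρ)), Z, Z1, Z2,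
        Frame.X_triple _ _ _ _ hW0 (hne θ), Frame.X_dot _ _ hW0.le (hne θ),
        Frame.wt_X _ _ hW0.le (hne θ)]
      simp only [fr, hj, Sum.elim_inl, P218XI.cylF_sg, P218XI.cylF_G, grm, Z1, Z2, ar]
      have e1 := det_sq_rot (h.orth (.inl i))
      have e2 := rt_sq hW0.le
      have e3 : (W i : ℂ) ≠ 0 := ofReal_ne_zero.2 hW0.ne'
      rw [← div_div, div_eq_mul_inv _ (Complex.sqrt _), div_eq_mul_inv _ (Complex.sqrt _)]
      generalize (Complex.sqrt _)⁻¹ = u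
      field_simp
      rw [e1, show rt (W i) ^ 4 = (W i : ℂ) ^ 2 by rw [← e2]; ring]
      ring) hV).trans (oK'.mul oK')).trans_isLittleO
    (by simpa using (isBigO_refl δ l).mul_isLittleO ((isLittleO_one_iff ℝ).2 hδ))
  have H3 := P218WD.Bd_expansion (W := W i) (a := C.cap i (W i)) (W' := fun n => W' n i)
    (a' := fun n => (C' n).cap i (W' n i)) (ofReal_ne_zero.2 hW0.ne') (sn2_eq _ ▸ h.cap_slit i)
    hδ oW ((isBigO_area_sub (oK'.trans_tendsto hδ) hρ (oρ.trans big) (h.orth j) hR' hRR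
      ((h.jt j).cθ (h.top_mem i)) hne hne' hc' hV).trans oK')
  refine ((H1.add H2).add H3).congr' ?_ EventuallyEq.rfl
  filter_upwards [h', hq, h1] with n hn kn dn
  have e1 : ∫ p in fd (Ioc G.s (W i)), (cut G.s p.1 : ℂ) * EL (C.R j *ᵥ G.Z C j p)
      (C.R j *ᵥ G.Z1 C j p) (C.R j *ᵥ G.Z2 C j p) (Z11 p) (Z12 p) (Z22 p)
      ((C' n).R j *ᵥ G.Z (C' n) j ((q n).1 p.1, p.2) - C.R j *ᵥ G.Z C j p) = 0 := by
    rw [← setIntegral_congr_set (fd_Ioo_ae _ _)]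
    refine setIntegral_eq_zero_of_forall_eq_zero fun p hp => ?_
    rw [EL, hP p (by simpa [rg, hj] using hp.1)]
    simp
  have e2 : G.Res W C i = 2 * (∫ θ in (0 : ℝ)..2 * π,
      rad (C.R j *ᵥ ((2 * rt (W i)) • om (C.t j (W i, θ)) θ)) (C.R j *ᵥ G.Z1 C j (W i, θ))
        (C.R j *ᵥ ((2 * rt (W i)) • omd (C.t j (W i, θ)) (C.tθ j (W i, θ)) θ))) +
      BdW (W i) (C.cap i (W i)) := by
    rw [Res, ← intervalIntegral.integral_const_mul]
    congr 2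
    funext θ
    rw [← Z2_top (G := G) C i (p := (W i, θ)) (hne θ), ← Z_top (G := G) C i (W i, θ), rad,
      wt_rot (h.orth j), ar_rot (h.orth j), dot_rot (h.orth j), dot_rot (h.orth j),
      dot_rot (h.orth j), Z, Z1, Z2, Frame.X_dot _ _ hW0.le (hne θ),
      Frame.wt_X _ _ hW0.le (hne θ), P218WD.b_dot _ _ hW0.le (hne θ),
      P218WD.a_dot _ _ hW0 (hne θ)]
    simp only [fr, hj, Sum.elim_inl, P218XI.cylF_G, grm, Z1, Z2, ar]
    have e3 : (W i : ℂ) ≠ 0 := ofReal_ne_zero.2 hW0.ne'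
    rw [div_eq_mul_inv _ (Complex.sqrt _), div_eq_mul_inv _ (Complex.sqrt _)]
    generalize (Complex.sqrt _)⁻¹ = u
    field_simp
    ring
  have e3 : ∫ p in fd (Ioc G.s (G.s + 1)), ((deriv (cut G.s) p.1 : ℝ) : ℂ) *
      mom1 (C.R j *ᵥ G.Z C j p) (C.R j *ᵥ G.Z1 C j p) (C.R j *ᵥ G.Z2 C j p)
        ((C' n).R j *ᵥ G.Z (C' n) j ((q n).1 p.1, p.2) - C.R j *ᵥ G.Z C j p) =
      ∫ p in fd (Ioc G.s (G.s + 1)), ((deriv (cut G.s) p.1 : ℝ) : ℂ) *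
      mom1 (C.R j *ᵥ G.Z C j p) (C.R j *ᵥ G.Z1 C j p) (C.R j *ᵥ G.Z2 C j p)
        ((C' n).R j *ᵥ G.Z (C' n) j p - C.R j *ᵥ G.Z C j p) :=
    setIntegral_congr_fun (measurableSet_fd measurableSet_Ioc) fun p hp => by
      simp only [kn.1.low p.1 (by linarith [hp.1.2])]
  have e4 := end_variation (by linarith) hJ ((kn.1.jet1 dn (hn.jet1 j)).sub hJ.j0) (h.slitR j)
  have e5 := kn.1.integral_Lag dn (by linarith) (hn.jet1 j) (hn.slitR j)
  have e6 : ∀ θ, G.Z2 C j (W i, θ) = _ := fun θ => Z2_top (G := G) C i (p := (W i, θ)) (hne θ)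
  have e7 : ∀ (C : Cfg M ι κ) w θ, G.Z C j (w, θ) = _ := fun C w θ => Z_top (G := G) C i (w, θ)
  simp only [e1, e3, kn.1.top, e6, e7 _ (W i), e7 _ (W' n i)] at e4
  have e8 : ((2 * rt (W' n i)) ^ 2 - (2 * rt (W i)) ^ 2) / 2 = 2 * ((W' n i : ℂ) - W i) := by
    rw [mul_pow, mul_pow, rt_sq hW0.le, rt_sq (by linarith [hn.le i])]
    ring
  simp only [hn.ell_eq, h.ell_eq]
  rw [e4, e5, e2, e8, mul_assoc (_ / _), div_mul_cancel₀ _ (mul_ne_zero hd (pow_ne_zero _ hρ)),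
    Bd_eq, Bd_eq, BdA_eq, BdW_eq, Cfg.cap, Cfg.cap]
  ring

/-- The first variation formula. -/
theorem first_variation (hδ : Tendsto δ l (𝓝 0)) (h : G.Sol W C g)
    (h' : ∀ᶠ n in l, G.Sol (W' n) (C' n) (g' n))
    (hc : ∀ᶠ n in l, G.Close W (W' n) C (C' n) (δ n)) :
    (fun n => G.act (W' n) (C' n) - G.act W C - (∫ x, g x * ((C' n).U x - C.U x) ∂G.μ) -
      ∑ i, ((W' n i : ℂ) - W i) * G.Res W C i) =o[l] δ := by
  have H1 := core_expansion hδ G.𝒞 G.ends G.lt G.area h.imm (X' := fun n => (C' n).X) (by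
    filter_upwards [h', hc] with n hn kn using ⟨hn.imm, kn.core⟩)
  have H2 := IsLittleO.sum fun i (_ : i ∈ Finset.univ) => cyl_variation hδ h h' hc i
  have H3 := IsLittleO.sum fun k (_ : k ∈ Finset.univ) => cone_variation hδ h h' hc k
  refine ((H1.add H2).add H3).congr' ?_ EventuallyEq.rfl
  filter_upwards [h'] with n hn
  have e1 := core_variation G.ends G.lt G.area h.imm (V := fun z => (C' n).X z - C.X z)
    (fun x hx => ((hn.imm x hx).ck.sub (h.imm x hx).ck).of_le one_le_two)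
    (fun j => (h.jet1 j).mono (h.sub_rg j))
    (fun j => ((hn.jet1 j).mono (hn.sub_rg j)).sub ((h.jet1 j).mono (h.sub_rg j))) h.glue
    fun j p h1 h2 => by rw [hn.glue j p h1 h2, h.glue j p h1 h2]
  have e2 : ∀ x, (psi G.φ G.s x : ℂ) * ELM G.F C.X x ((C' n).X x - C.X x) =
      g x * ((C' n).U x - C.U x) := fun x => by
    by_cases hx : x ∈ G.D
    · have : (C' n).X x - C.X x = ((C' n).U x - C.U x) • G.ν x := by
        rw [(hn.deep x hx).1, (h.deep x hx).1]; module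
      rw [this, ELM_smul, (h.deep x hx).2, IsEnds.psi_one (G.deep hx)]
      simp [mul_comm]
    · rw [h.src x hx, zero_mul]
      by_cases hx' : x ∈ coreK G.φ (G.s + 1)
      · rw [h.out x hx' hx, mul_zero]
      · rw [G.ends.psi_zero hx']; simp
  simp only [e2] at e1
  simp only [e1, act, Fintype.sum_sum_type, Finset.sum_apply, Finset.sum_add_distrib,
    Finset.sum_sub_distrib]
  ring

end Geo

end Vale.Agent.P218VA
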