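import Mathlib.LinearAlgebra.CrossProduct
import Mathlib.Analysis.Complex.SqrtDeriv
import Mathlib.Analysis.SpecialFunctions.ExpDeriv
import Mathlib.Analysis.Calculus.Deriv.Pi
import Mathlib.Analysis.Calculus.Deriv.Inv
import Mathlib.LinearAlgebra.Matrix.Adjugate

/-!
# The Gaussian area Lagrangian of complex surfaces in jets

`X` is the position, `a`, `b` the first and `aa`, `ab`, `bb` the second derivatives.
-/

open scoped Matrix
open Complex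

noncomputable section

namespace Vale.Agent.P218VA

/-- complex three-space -/
abbrev C3 := Fin 3 → ℂ

/-- the Gram determinant -/
def gram (a b : C3) : ℂ := (a ⬝ᵥ a) * (b ⬝ᵥ b) - (a ⬝ᵥ b) ^ 2

/-- the Gaussian weight -/
def wt (X : C3) : ℂ := cexp (-(X ⬝ᵥ X) / 4)

/-- the area element -/
def ar (a b : C3) : ℂ := Complex.sqrt (gram a b)

/-- the Gaussian area Lagrangian -/
def Lag (X a b : C3) : ℂ := wt X * ar a b

/-- the shrinker operator in polynomial form -/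
def PP (X a b aa ab bb : C3) : ℂ :=
  (b ⬝ᵥ b) * (aa ⬝ᵥ a ⨯₃ b) - 2 * (a ⬝ᵥ b) * (ab ⬝ᵥ a ⨯₃ b) + (a ⬝ᵥ a) * (bb ⬝ᵥ a ⨯₃ b) +
    gram a b * (X ⬝ᵥ a ⨯₃ b) / 2

/-- the first momentum vector without its scalar factor -/
def mm1 (a b : C3) : C3 := (b ⬝ᵥ b) • a - (a ⬝ᵥ b) • b

/-- the second momentum vector without its scalar factor -/
def mm2 (a b : C3) : C3 := (a ⬝ᵥ a) • b - (a ⬝ᵥ b) • a

/-- the first momentum paired with a vector -/
def mom1 (X a b V : C3) : ℂ := wt X / ar a b * (mm1 a b ⬝ᵥ V)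

/-- the second momentum paired with a vector -/
def mom2 (X a b V : C3) : ℂ := wt X / ar a b * (mm2 a b ⬝ᵥ V)

/-- the derivative of the Lagrangian in the direction of the jet `(V, V1, V2)` -/
def dLag (X a b V V1 V2 : C3) : ℂ :=
  -(X ⬝ᵥ V) / 2 * Lag X a b + mom1 X a b V1 + mom2 X a b V2

/-- the Euler-Lagrange density paired with a vector -/
def EL (X a b aa ab bb V : C3) : ℂ :=
  -(wt X * PP X a b aa ab bb / ar a b ^ 3 * (a ⨯₃ b ⬝ᵥ V))

lemma dot3 (a b : C3) : a ⬝ᵥ b = a 0 * b 0 + a 1 * b 1 + a 2 * b 2 := by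
  simp [dotProduct, Fin.sum_univ_three]

lemma cross0 (a b : C3) : (a ⨯₃ b) 0 = a 1 * b 2 - a 2 * b 1 := by simp [cross_apply]
lemma cross1 (a b : C3) : (a ⨯₃ b) 1 = a 2 * b 0 - a 0 * b 2 := by simp [cross_apply]
lemma cross2 (a b : C3) : (a ⨯₃ b) 2 = a 0 * b 1 - a 1 * b 0 := by simp [cross_apply]

lemma gram_eq (a b : C3) : gram a b = (a ⨯₃ b) ⬝ᵥ (a ⨯₃ b) := by
  simp only [gram, dot3, cross0, cross1, cross2]; ring

lemma wt_ne (X : C3) : wt X ≠ 0 := Complex.exp_ne_zero _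

lemma ar_sq (a b : C3) : ar a b ^ 2 = gram a b := by
  unfold ar Complex.sqrt
  exact Complex.cpow_ofNat_inv_pow _ 2

lemma ar_ne {a b : C3} (h : gram a b ≠ 0) : ar a b ≠ 0 := by
  intro h0
  apply h
  rw [← ar_sq, h0]; ring

lemma ar_ne' {a b : C3} (h : gram a b ∈ slitPlane) : ar a b ≠ 0 := ar_ne (slitPlane_ne_zero h)

lemma mom1_fst {X a b : C3} (h : gram a b ≠ 0) : mom1 X a b a = Lag X a b := by
  have h1 := ar_ne h
  have h2 := ar_sq a b
  have h3 : mm1 a b ⬝ᵥ a = gram a b := by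
    simp only [mm1, gram, dot3, Pi.sub_apply, Pi.smul_apply, smul_eq_mul]; ring
  unfold mom1 Lag
  rw [h3, ← h2]; field_simp

lemma mom1_snd (X a b : C3) : mom1 X a b b = 0 := by
  have h3 : mm1 a b ⬝ᵥ b = 0 := by
    simp only [mm1, dot3, Pi.sub_apply, Pi.smul_apply, smul_eq_mul]; ring
  unfold mom1
  rw [h3, mul_zero]

lemma mom2_snd {X a b : C3} (h : gram a b ≠ 0) : mom2 X a b b = Lag X a b := by
  have h1 := ar_ne h
  have h2 := ar_sq a b
  have h3 : mm2 a b ⬝ᵥ b = gram a b := by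
    simp only [mm2, gram, dot3, Pi.sub_apply, Pi.smul_apply, smul_eq_mul]; ring
  unfold mom2 Lag
  rw [h3, ← h2]; field_simp

lemma mom2_fst (X a b : C3) : mom2 X a b a = 0 := by
  have h3 : mm2 a b ⬝ᵥ a = 0 := by
    simp only [mm2, dot3, Pi.sub_apply, Pi.smul_apply, smul_eq_mul]; ring
  unfold mom2
  rw [h3, mul_zero]

lemma mom1_add (X a b V V' : C3) : mom1 X a b (V + V') = mom1 X a b V + mom1 X a b V' := by
  simp only [mom1, dotProduct_add]; ring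

lemma mom2_add (X a b V V' : C3) : mom2 X a b (V + V') = mom2 X a b V + mom2 X a b V' := by
  simp only [mom2, dotProduct_add]; ring

lemma mom1_smul (X a b V : C3) (c : ℂ) : mom1 X a b (c • V) = c * mom1 X a b V := by
  simp only [mom1, dotProduct_smul, smul_eq_mul]; ring

lemma mom2_smul (X a b V : C3) (c : ℂ) : mom2 X a b (c • V) = c * mom2 X a b V := by
  simp only [mom2, dotProduct_smul, smul_eq_mul]; ring

@[simp] lemma mom1_zero (X a b : C3) : mom1 X a b 0 = 0 := by simp [mom1]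
@[simp] lemma mom2_zero (X a b : C3) : mom2 X a b 0 = 0 := by simp [mom2]
@[simp] lemma dLag_zero (X a b : C3) : dLag X a b 0 0 0 = 0 := by simp [dLag]
@[simp] lemma EL_zero (X a b aa ab bb : C3) : EL X a b aa ab bb 0 = 0 := by simp [EL]

lemma EL_add (X a b aa ab bb V V' : C3) :
    EL X a b aa ab bb (V + V') = EL X a b aa ab bb V + EL X a b aa ab bb V' := by
  simp only [EL, dotProduct_add]; ring

lemma EL_smul (X a b aa ab bb V : C3) (c : ℂ) :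
    EL X a b aa ab bb (c • V) = c * EL X a b aa ab bb V := by
  simp only [EL, dotProduct_smul, smul_eq_mul]; ring

lemma EL_fst (X a b aa ab bb : C3) : EL X a b aa ab bb a = 0 := by
  have : a ⨯₃ b ⬝ᵥ a = 0 := by rw [dotProduct_comm]; exact dot_self_cross a b
  simp [EL, this]

lemma EL_snd (X a b aa ab bb : C3) : EL X a b aa ab bb b = 0 := by
  have : a ⨯₃ b ⬝ᵥ b = 0 := by rw [dotProduct_comm]; exact dot_cross_self a b
  simp [EL, this]

lemma EL_of_PP {X a b aa ab bb : C3} (h : PP X a b aa ab bb = 0) (V : C3) :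
    EL X a b aa ab bb V = 0 := by simp [EL, h]

lemma dLag_add (X a b V V1 V2 U U1 U2 : C3) :
    dLag X a b (V + U) (V1 + U1) (V2 + U2) = dLag X a b V V1 V2 + dLag X a b U U1 U2 := by
  simp only [dLag, mom1_add, mom2_add, dotProduct_add]; ring

lemma dLag_smul (X a b V V1 V2 : C3) (c : ℂ) :
    dLag X a b (c • V) (c • V1) (c • V2) = c * dLag X a b V V1 V2 := by
  simp only [dLag, mom1_smul, mom2_smul, dotProduct_smul, smul_eq_mul]; ring

/-- multiplying the vector field by a function -/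
lemma dLag_mul (X a b V V1 V2 : C3) (c c1 c2 : ℂ) :
    dLag X a b (c • V) (c • V1 + c1 • V) (c • V2 + c2 • V) =
      c * dLag X a b V V1 V2 + (c1 * mom1 X a b V + c2 * mom2 X a b V) := by
  simp only [dLag, mom1_add, mom2_add, mom1_smul, mom2_smul, dotProduct_smul, smul_eq_mul]; ring

/-! ### Derivatives along curves -/

section curve
variable {𝕜 : Type*} [NontriviallyNormedField 𝕜] [NormedAlgebra 𝕜 ℂ] {t : 𝕜}

lemma hasDerivAt_dot {a b : 𝕜 → C3} {a' b' : C3} (ha : HasDerivAt a a' t)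
    (hb : HasDerivAt b b' t) :
    HasDerivAt (fun s => a s ⬝ᵥ b s) (a' ⬝ᵥ b t + a t ⬝ᵥ b') t := by
  have h1 := hasDerivAt_pi.1 ha
  have h2 := hasDerivAt_pi.1 hb
  have := (((h1 0).mul (h2 0)).add ((h1 1).mul (h2 1))).add ((h1 2).mul (h2 2))
  simp only [dot3]
  refine HasDerivAt.congr_deriv this ?_
  ring

lemma hasDerivAt_cross {a b : 𝕜 → C3} {a' b' : C3} (ha : HasDerivAt a a' t)
    (hb : HasDerivAt b b' t) :
    HasDerivAt (fun s => a s ⨯₃ b s) (a' ⨯₃ b t + a t ⨯₃ b') t := by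
  have h1 := hasDerivAt_pi.1 ha
  have h2 := hasDerivAt_pi.1 hb
  refine hasDerivAt_pi.2 fun i => ?_
  fin_cases i
  · have := ((h1 1).mul (h2 2)).sub ((h1 2).mul (h2 1))
    simp only [Fin.zero_eta, Pi.add_apply, cross0]
    refine HasDerivAt.congr_deriv this ?_
    ring
  · have := ((h1 2).mul (h2 0)).sub ((h1 0).mul (h2 2))
    simp only [Fin.mk_one, Pi.add_apply, cross1]
    refine HasDerivAt.congr_deriv this ?_
    ring
  · have := ((h1 0).mul (h2 1)).sub ((h1 1).mul (h2 0))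
    simp only [Fin.reduceFinMk, Pi.add_apply, cross2]
    refine HasDerivAt.congr_deriv this ?_
    ring

lemma hasDerivAt_gram {a b : 𝕜 → C3} {a' b' : C3} (ha : HasDerivAt a a' t)
    (hb : HasDerivAt b b' t) :
    HasDerivAt (fun s => gram (a s) (b s))
      (2 * (mm1 (a t) (b t) ⬝ᵥ a' + mm2 (a t) (b t) ⬝ᵥ b')) t := by
  have := ((hasDerivAt_dot ha ha).mul (hasDerivAt_dot hb hb)).sub ((hasDerivAt_dot ha hb).pow 2)
  refine HasDerivAt.congr_deriv this ?_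
  simp only [mm1, mm2, dot3, Pi.sub_apply, Pi.smul_apply, smul_eq_mul]
  push_cast
  ring

lemma hasDerivAt_wt {X : 𝕜 → C3} {X' : C3} (hX : HasDerivAt X X' t) :
    HasDerivAt (fun s => wt (X s)) (-(X t ⬝ᵥ X') / 2 * wt (X t)) t := by
  have := (((hasDerivAt_dot hX hX).neg).div_const 4).cexp
  refine HasDerivAt.congr_deriv this ?_
  rw [dotProduct_comm X' (X t)]
  simp only [wt, Pi.neg_apply]
  ring

lemma hasDerivAt_sqrt' {z : ℂ} (hz : z ∈ slitPlane) :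
    HasDerivAt Complex.sqrt (1 / (2 * Complex.sqrt z)) z := by
  refine HasDerivAt.congr_deriv (Complex.hasDerivAt_sqrt hz) ?_
  have h0 := slitPlane_ne_zero hz
  unfold Complex.sqrt
  rw [show (-1 / 2 : ℂ) = -(2⁻¹) by norm_num, Complex.cpow_neg]
  field_simp

lemma hasDerivAt_ar {a b : 𝕜 → C3} {a' b' : C3} (ha : HasDerivAt a a' t)
    (hb : HasDerivAt b b' t) (h : gram (a t) (b t) ∈ slitPlane) :
    HasDerivAt (fun s => ar (a s) (b s))
      ((mm1 (a t) (b t) ⬝ᵥ a' + mm2 (a t) (b t) ⬝ᵥ b') / ar (a t) (b t)) t := by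
  have := (hasDerivAt_sqrt' h).comp t (hasDerivAt_gram ha hb)
  refine HasDerivAt.congr_deriv this ?_
  have h1 := ar_ne' h
  unfold ar at h1 ⊢
  field_simp

theorem hasDerivAt_Lag {X a b : 𝕜 → C3} {X' a' b' : C3} (hX : HasDerivAt X X' t)
    (ha : HasDerivAt a a' t) (hb : HasDerivAt b b' t) (h : gram (a t) (b t) ∈ slitPlane) :
    HasDerivAt (fun s => Lag (X s) (a s) (b s)) (dLag (X t) (a t) (b t) X' a' b') t := by
  have := (hasDerivAt_wt hX).mul (hasDerivAt_ar ha hb h)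
  refine HasDerivAt.congr_deriv this ?_
  simp only [dLag, Lag, mom1, mom2]
  ring

lemma hasDerivAt_mm1 {a b : 𝕜 → C3} {a' b' : C3} (ha : HasDerivAt a a' t)
    (hb : HasDerivAt b b' t) :
    HasDerivAt (fun s => mm1 (a s) (b s))
      ((b t ⬝ᵥ b t) • a' + (2 * (b t ⬝ᵥ b')) • a t -
        ((a t ⬝ᵥ b t) • b' + (a' ⬝ᵥ b t + a t ⬝ᵥ b') • b t)) t := by
  have := ((hasDerivAt_dot hb hb).smul ha).sub ((hasDerivAt_dot ha hb).smul hb)
  refine HasDerivAt.congr_deriv this ?_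
  rw [dotProduct_comm b' (b t), two_mul]

lemma hasDerivAt_mm2 {a b : 𝕜 → C3} {a' b' : C3} (ha : HasDerivAt a a' t)
    (hb : HasDerivAt b b' t) :
    HasDerivAt (fun s => mm2 (a s) (b s))
      ((a t ⬝ᵥ a t) • b' + (2 * (a t ⬝ᵥ a')) • b t -
        ((a t ⬝ᵥ b t) • a' + (a' ⬝ᵥ b t + a t ⬝ᵥ b') • a t)) t := by
  have := ((hasDerivAt_dot ha ha).smul hb).sub ((hasDerivAt_dot ha hb).smul ha)
  refine HasDerivAt.congr_deriv this ?_
  rw [dotProduct_comm a' (a t), two_mul]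

/-- the derivative of the first momentum -/
def dmom1 (X a b V X' a' b' V' : C3) : ℂ :=
  (-(X ⬝ᵥ X') / 2 * wt X / ar a b - wt X * (mm1 a b ⬝ᵥ a' + mm2 a b ⬝ᵥ b') / ar a b ^ 3) *
      (mm1 a b ⬝ᵥ V) +
    wt X / ar a b * (((b ⬝ᵥ b) • a' + (2 * (b ⬝ᵥ b')) • a -
        ((a ⬝ᵥ b) • b' + (a' ⬝ᵥ b + a ⬝ᵥ b') • b)) ⬝ᵥ V + mm1 a b ⬝ᵥ V')

/-- the derivative of the second momentum -/
def dmom2 (X a b V X' a' b' V' : C3) : ℂ :=
  (-(X ⬝ᵥ X') / 2 * wt X / ar a b - wt X * (mm1 a b ⬝ᵥ a' + mm2 a b ⬝ᵥ b') / ar a b ^ 3) *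
      (mm2 a b ⬝ᵥ V) +
    wt X / ar a b * (((a ⬝ᵥ a) • b' + (2 * (a ⬝ᵥ a')) • b -
        ((a ⬝ᵥ b) • a' + (a' ⬝ᵥ b + a ⬝ᵥ b') • a)) ⬝ᵥ V + mm2 a b ⬝ᵥ V')

lemma hasDerivAt_wt_div {X a b : 𝕜 → C3} {X' a' b' : C3} (hX : HasDerivAt X X' t)
    (ha : HasDerivAt a a' t) (hb : HasDerivAt b b' t) (h : gram (a t) (b t) ∈ slitPlane) :
    HasDerivAt (fun s => wt (X s) / ar (a s) (b s))
      (-(X t ⬝ᵥ X') / 2 * wt (X t) / ar (a t) (b t) -
        wt (X t) * (mm1 (a t) (b t) ⬝ᵥ a' + mm2 (a t) (b t) ⬝ᵥ b') / ar (a t) (b t) ^ 3) t := by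
  have h1 := ar_ne' h
  have := (hasDerivAt_wt hX).div (hasDerivAt_ar ha hb h) h1
  refine HasDerivAt.congr_deriv this ?_
  field_simp

theorem hasDerivAt_mom1 {X a b V : 𝕜 → C3} {X' a' b' V' : C3} (hX : HasDerivAt X X' t)
    (ha : HasDerivAt a a' t) (hb : HasDerivAt b b' t) (hV : HasDerivAt V V' t)
    (h : gram (a t) (b t) ∈ slitPlane) :
    HasDerivAt (fun s => mom1 (X s) (a s) (b s) (V s))
      (dmom1 (X t) (a t) (b t) (V t) X' a' b' V') t :=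
  (hasDerivAt_wt_div hX ha hb h).mul (hasDerivAt_dot (hasDerivAt_mm1 ha hb) hV)

theorem hasDerivAt_mom2 {X a b V : 𝕜 → C3} {X' a' b' V' : C3} (hX : HasDerivAt X X' t)
    (ha : HasDerivAt a a' t) (hb : HasDerivAt b b' t) (hV : HasDerivAt V V' t)
    (h : gram (a t) (b t) ∈ slitPlane) :
    HasDerivAt (fun s => mom2 (X s) (a s) (b s) (V s))
      (dmom2 (X t) (a t) (b t) (V t) X' a' b' V') t :=
  (hasDerivAt_wt_div hX ha hb h).mul (hasDerivAt_dot (hasDerivAt_mm2 ha hb) hV)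

end curve

/-- the polynomial identity behind the first variation formula -/
lemma key_poly (X a b aa ab bb V : C3) :
    gram a b * (-(X ⬝ᵥ a) / 2 * (mm1 a b ⬝ᵥ V) + -(X ⬝ᵥ b) / 2 * (mm2 a b ⬝ᵥ V) +
      ((b ⬝ᵥ b) • aa + (2 * (b ⬝ᵥ ab)) • a -
        ((a ⬝ᵥ b) • ab + (aa ⬝ᵥ b + a ⬝ᵥ ab) • b)) ⬝ᵥ V +
      ((a ⬝ᵥ a) • bb + (2 * (a ⬝ᵥ ab)) • b -
        ((a ⬝ᵥ b) • ab + (ab ⬝ᵥ b + a ⬝ᵥ bb) • a)) ⬝ᵥ V + gram a b * (X ⬝ᵥ V) / 2) -
      (mm1 a b ⬝ᵥ aa + mm2 a b ⬝ᵥ ab) * (mm1 a b ⬝ᵥ V) -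
      (mm1 a b ⬝ᵥ ab + mm2 a b ⬝ᵥ bb) * (mm2 a b ⬝ᵥ V) =
      PP X a b aa ab bb * (a ⨯₃ b ⬝ᵥ V) := by
  simp only [PP, gram, mm1, mm2, dot3, cross0, cross1, cross2, Pi.sub_apply, Pi.add_apply,
    Pi.smul_apply, smul_eq_mul]
  ring

/-- The first variation formula in jets. -/
theorem dLag_eq {X a b : C3} (aa ab bb V V1 V2 : C3) (h : gram a b ≠ 0) :
    dLag X a b V V1 V2 =
      EL X a b aa ab bb V + dmom1 X a b V a aa ab V1 + dmom2 X a b V b ab bb V2 := by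
  have h1 := ar_ne h
  have h2 := ar_sq a b
  have h3 := key_poly X a b aa ab bb V
  rw [← h2] at h3
  unfold dLag EL dmom1 dmom2 mom1 mom2 Lag
  generalize ((b ⬝ᵥ b) • aa + (2 * (b ⬝ᵥ ab)) • a -
        ((a ⬝ᵥ b) • ab + (aa ⬝ᵥ b + a ⬝ᵥ ab) • b)) ⬝ᵥ V = u1 at h3 ⊢
  generalize ((a ⬝ᵥ a) • bb + (2 * (a ⬝ᵥ ab)) • b -
        ((a ⬝ᵥ b) • ab + (ab ⬝ᵥ b + a ⬝ᵥ bb) • a)) ⬝ᵥ V = u2 at h3 ⊢
  field_simp
  linear_combination (-2 : ℂ) * wt X * h3

end Vale.Agent.P218VA
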