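import Vale.Agent.P218VA.Cfg

/-!
# First order expansions of the three parts of the action
-/

open scoped Matrix Topology Real ContDiff
open Complex Filter Set MeasureTheory Metric Asymptotics
open Vale.Agent.P272.K.LIN
open Vale.Agent.P218XI (rt rt_sq rt_ne)

noncomputable section

set_option linter.unusedSectionVars false

namespace Vale.Agent.P218VA

lemma norm_dot_le (a b : C3) : ‖a ⬝ᵥ b‖ ≤ 3 * (‖a‖ * ‖b‖) := by
  have h : ∀ i, ‖a i * b i‖ ≤ ‖a‖ * ‖b‖ := fun i => by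
    rw [norm_mul]
    exact mul_le_mul (norm_le_pi_norm a i) (norm_le_pi_norm b i) (norm_nonneg _) (norm_nonneg _)
  rw [dot3]
  linarith [h 0, h 1, h 2, norm_add₃_le (a := a 0 * b 0) (b := a 1 * b 1) (c := a 2 * b 2)]

lemma norm_ar_le (a b : C3) : ‖ar a b‖ ≤ 5 * (‖a‖ * ‖b‖) := by
  refine le_of_sq_le_sq ?_ (by positivity)
  rw [← norm_pow, ar_sq, gram]
  refine (norm_sub_le _ _).trans ?_
  rw [norm_mul, norm_pow]
  have h1 := mul_le_mul (norm_dot_le a a) (norm_dot_le b b) (norm_nonneg _) (by positivity)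
  have h2 := pow_le_pow_left₀ (norm_nonneg _) (norm_dot_le a b) 2
  nlinarith [sq_nonneg (‖a‖ * ‖b‖)]

/-- the majorant on the ends -/
def maj (w : ℝ) : ℝ := Real.exp (-(1 / 2) * w)

lemma maj_pos (w : ℝ) : 0 < maj w := Real.exp_pos _

lemma mul_exp_le (w : ℝ) : w * Real.exp (-w) ≤ 2 * maj w := by
  have h1 := Real.add_one_le_exp (w / 2)
  have h2 : maj w = Real.exp (w / 2) * Real.exp (-w) := by
    rw [maj, ← Real.exp_add]; congr 1; ring
  rw [h2]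
  nlinarith [Real.exp_pos (-w)]

lemma tendsto_maj : Tendsto maj atTop (𝓝 0) :=
  Real.tendsto_exp_atBot.comp (tendsto_id.const_mul_atTop_of_neg (by norm_num))

lemma integrableOn_maj (s : ℝ) : IntegrableOn (fun p : ℝ × ℝ => maj p.1) (fd (Ioi s)) := by
  have h := (exp_neg_integrableOn_Ioi s (b := 1 / 2) one_half_pos).mul_prod
    (integrableOn_const (s := Ioc (0 : ℝ) (2 * π)) (C := (1 : ℝ)) (μ := volume) measure_Ioc_lt_top.ne)
  rw [Measure.prod_restrict] at h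
  simpa [maj, fd, IntegrableOn, Measure.volume_eq_prod] using h

lemma integrableOn_of_maj {s C : ℝ} {f : ℝ × ℝ → ℂ} (hf : ContinuousOn f (Ici s ×ˢ univ))
    (hb : ∀ p : ℝ × ℝ, s ≤ p.1 → ‖f p‖ ≤ C * maj p.1) : IntegrableOn f (fd (Ioi s)) := by
  have hm := measurableSet_fd (measurableSet_Ioi (a := s))
  refine ((integrableOn_maj s).const_mul C).mono'
    ((hf.mono (fd_subset Ioi_subset_Ici_self)).aestronglyMeasurable hm) ?_
  filter_upwards [ae_restrict_mem hm] with p hp using hb p (le_of_lt hp.1)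

/-- the integral of the majorant -/
def majI (s : ℝ) : ℝ := ∫ p in fd (Ioi s), maj p.1

lemma majI_nonneg (s : ℝ) : 0 ≤ majI s := integral_nonneg fun p => (maj_pos p.1).le

lemma norm_integral_le_maj {s C : ℝ} {I : Set ℝ} (hI : MeasurableSet I) (hs : I ⊆ Ioi s)
    (hC : 0 ≤ C) {f : ℝ × ℝ → ℂ} (hb : ∀ p : ℝ × ℝ, p.1 ∈ I → ‖f p‖ ≤ C * maj p.1) :
    ‖∫ p in fd I, f p‖ ≤ C * majI s := by
  have hsub : fd I ⊆ fd (Ioi s) := prod_mono hs le_rfl
  refine (norm_integral_le_of_norm_le (((integrableOn_maj s).mono_set hsub).const_mul C) ?_).trans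
    ?_
  · filter_upwards [ae_restrict_mem (measurableSet_fd hI)] with p hp using hb p hp.1
  · rw [integral_const_mul]
    exact mul_le_mul_of_nonneg_left (setIntegral_mono_set (integrableOn_maj s)
      (Eventually.of_forall fun p => (maj_pos p.1).le) hsub.eventuallyLE) hC

section scale
variable {w : ℝ} {y y' a a' b b' : C3}

lemma wt_scale (hw : 0 < w) (hy : y ⬝ᵥ y = 4) : wt (rt w • y) = cexp (-w) := by
  rw [wt, smul_dotProduct, dotProduct_smul, hy, ← rt_sq hw.le]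
  congr 1
  simp only [smul_eq_mul]
  ring

lemma gram_scale (hw : 0 < w) (a b : C3) : gram ((rt w)⁻¹ • a) (rt w • b) = gram a b := by
  have := rt_ne hw
  simp only [gram, smul_dotProduct, dotProduct_smul, smul_eq_mul]
  field_simp

lemma ar_scale (hw : 0 < w) (a b : C3) : ar ((rt w)⁻¹ • a) (rt w • b) = ar a b := by
  rw [ar, gram_scale hw, ar]

lemma Lag_scale (hw : 0 < w) (hy : y ⬝ᵥ y = 4) (a b : C3) :
    Lag (rt w • y) ((rt w)⁻¹ • a) (rt w • b) = cexp (-w) * Lag 0 a b := by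
  rw [Lag, wt_scale hw hy, ar_scale hw, Lag]
  simp [wt]

lemma mom1_scale (hw : 0 < w) (hy : y ⬝ᵥ y = 4) (a b v : C3) :
    mom1 (rt w • y) ((rt w)⁻¹ • a) (rt w • b) (rt w • v) = w * cexp (-w) * mom1 0 a b v := by
  have := rt_ne hw
  rw [mom1, wt_scale hw hy, ar_scale hw, mom1, ← rt_sq hw.le]
  simp only [mm1, wt, sub_dotProduct, smul_dotProduct, dotProduct_smul, smul_eq_mul,
    dotProduct_zero, neg_zero, zero_div, Complex.exp_zero]
  field_simp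

lemma dLag_scale (hw : 0 < w) (hy : y ⬝ᵥ y = 4) (hy' : y' ⬝ᵥ y' = 4) (a b u v : C3) :
    dLag (rt w • y) ((rt w)⁻¹ • a) (rt w • b) (rt w • (y' - y)) ((rt w)⁻¹ • u) (rt w • v) =
      cexp (-w) * (w * ((y' - y) ⬝ᵥ (y' - y)) / 4 * ar a b + dLag 0 a b 0 u v) := by
  have := rt_ne hw
  have e : y ⬝ᵥ (y' - y) = -((y' - y) ⬝ᵥ (y' - y)) / 2 := by
    simp only [sub_dotProduct, dotProduct_sub, hy, hy', dotProduct_comm y' y]
    ring
  rw [dLag, dLag, Lag, mom1, mom2, mom1, mom2, wt_scale hw hy, ar_scale hw, smul_dotProduct,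
    dotProduct_smul, e]
  set d := (y' - y) ⬝ᵥ (y' - y)
  set E := cexp (-w)
  rw [← rt_sq hw.le]
  simp only [mm1, mm2, wt, sub_dotProduct, smul_dotProduct, dotProduct_smul, smul_eq_mul,
    dotProduct_zero, neg_zero, zero_div, Complex.exp_zero, div_eq_mul_inv _ (ar a b)]
  generalize (ar a b)⁻¹ = i
  field_simp
  ring

lemma norm_cexp_neg (w : ℝ) : ‖cexp (-w)‖ = Real.exp (-w) := by
  rw [← ofReal_neg, norm_exp_ofReal]

end scale

lemma isCompact_jets (B c : ℝ) :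
    IsCompact {j : C3 × C3 | ‖j.1‖ ≤ B ∧ ‖j.2‖ ≤ B ∧ c ≤ (gram j.1 j.2).re} := by
  have h1 : Continuous fun j : C3 × C3 => gram j.1 j.2 :=
    continuousOn_univ.1 (continuousOn_gram continuousOn_fst continuousOn_snd)
  refine ((isCompact_closedBall (0 : C3) B).prod
    (isCompact_closedBall (0 : C3) B)).of_isClosed_subset
    ((isClosed_le continuous_fst.norm continuous_const).and ((isClosed_le continuous_snd.norm
      continuous_const).and (isClosed_le continuous_const (continuous_re.comp h1))))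
    fun j hj => ⟨by simpa using hj.1, by simpa using hj.2.1⟩

lemma cone_taylor (B : ℝ) {c ε : ℝ} (hc : 0 < c) (hε : 0 < ε) : ∃ δ0 > 0, ∀ w : ℝ, 1 ≤ w →
    ∀ y y' a a' b b' : C3, ∀ δ ≤ δ0, y ⬝ᵥ y = 4 → y' ⬝ᵥ y' = 4 → ‖a‖ ≤ B → ‖b‖ ≤ B →
      c ≤ (gram a b).re → ‖y' - y‖ ≤ δ → ‖a' - a‖ ≤ δ → ‖b' - b‖ ≤ δ →
      ‖Lag (rt w • y') ((rt w)⁻¹ • a') (rt w • b') - Lag (rt w • y) ((rt w)⁻¹ • a) (rt w • b) -
        dLag (rt w • y) ((rt w)⁻¹ • a) (rt w • b) (rt w • y' - rt w • y)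
          ((rt w)⁻¹ • a' - (rt w)⁻¹ • a) (rt w • b' - rt w • b)‖ ≤ ε * δ * maj w := by
  obtain ⟨δ1, h1, H⟩ := Lag_taylor (isCompact_jets B c) (X := fun _ => 0) continuousOn_const
    continuousOn_fst continuousOn_snd (fun j hj => Or.inl (hc.trans_le hj.2.2))
    (ε := ε / 4) (by positivity)
  refine ⟨min δ1 (ε / (16 * (B ^ 2 + 1))), by positivity,
    fun w hw y y' a a' b b' δ hδ hy hy' ha hb hg d0 d1 d2 => ?_⟩
  have hw0 : 0 < w := by linarith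
  have hδ0 : 0 ≤ δ := (norm_nonneg _).trans d0
  have k := H (a, b) ⟨ha, hb, hg⟩ 0 a' b' δ (hδ.trans (min_le_left _ _)) (by simpa) d1 d2
  rw [← smul_sub, ← smul_sub, ← smul_sub, Lag_scale hw0 hy', Lag_scale hw0 hy,
    dLag_scale hw0 hy hy', ← mul_sub, ← mul_sub, norm_mul, norm_cexp_neg, add_comm, ← sub_sub]
  simp only [sub_self] at k
  have k1 : ‖(y' - y) ⬝ᵥ (y' - y)‖ ≤ 3 * (δ * δ) :=
    (norm_dot_le _ _).trans (by gcongr)
  have k2 : ‖ar a b‖ ≤ 5 * (B * B) := (norm_ar_le a b).trans (by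
    have := (norm_nonneg a).trans ha
    gcongr)
  have k3 : δ * (16 * (B ^ 2 + 1)) ≤ ε :=
    (le_div_iff₀ (by positivity)).1 (hδ.trans (min_le_right _ _))
  have k4 : ‖(w : ℂ) * ((y' - y) ⬝ᵥ (y' - y)) / 4 * ar a b‖ ≤ w * (ε / 4 * δ) := by
    rw [norm_mul, norm_div, norm_mul, norm_real, Real.norm_of_nonneg hw0.le, Complex.norm_ofNat]
    calc _ ≤ w * (3 * (δ * δ)) / 4 * (5 * (B * B)) := by gcongr
      _ = w * (δ * (15 * B ^ 2) / 4 * δ) := by ring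
      _ ≤ _ := by gcongr; nlinarith [sq_nonneg B]
  have k5 := (norm_sub_le _ _).trans (add_le_add k k4)
  have k6 : ε / 4 * δ ≤ w * (ε / 4 * δ) := le_mul_of_one_le_left (by positivity) hw
  calc _ ≤ Real.exp (-w) * (w * (ε / 2 * δ)) := by gcongr; linarith
    _ = ε / 2 * δ * (w * Real.exp (-w)) := by ring
    _ ≤ ε / 2 * δ * (2 * maj w) := mul_le_mul_of_nonneg_left (mul_exp_le w) (by positivity)
    _ = _ := by ring

lemma norm_Lag_scale {w B : ℝ} (hw : 1 ≤ w) {y a b : C3} (hy : y ⬝ᵥ y = 4) (ha : ‖a‖ ≤ B)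
    (hb : ‖b‖ ≤ B) : ‖Lag (rt w • y) ((rt w)⁻¹ • a) (rt w • b)‖ ≤ 10 * B ^ 2 * maj w := by
  have hw0 : 0 < w := by linarith
  have k2 : ‖ar a b‖ ≤ 5 * (B * B) := (norm_ar_le a b).trans (by
    have := (norm_nonneg a).trans ha
    gcongr)
  rw [Lag, wt_scale hw0 hy, ar_scale hw0, norm_mul, norm_cexp_neg]
  have k3 := le_mul_of_one_le_left (Real.exp_pos (-w)).le hw
  calc _ ≤ 2 * maj w * (5 * (B * B)) := by
        have := maj_pos w
        gcongr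
        exact k3.trans (mul_exp_le w)
    _ = _ := by ring

lemma exists_mom1_bound (B : ℝ) {c : ℝ} (hc : 0 < c) : ∃ C, ∀ a b v : C3, ‖a‖ ≤ B → ‖b‖ ≤ B →
    c ≤ (gram a b).re → ‖v‖ ≤ 1 → ‖mom1 0 a b v‖ ≤ C := by
  obtain ⟨C, hC⟩ := ((isCompact_jets B c).prod
    (isCompact_closedBall (0 : C3) 1)).exists_bound_of_continuousOn
    (continuousOn_mom1 (X := fun _ => 0) continuousOn_const continuous_fst.fst.continuousOn
      continuous_fst.snd.continuousOn continuousOn_snd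
      fun j hj => Or.inl (hc.trans_le hj.1.2.2))
  exact ⟨C, fun a b v ha hb hg hv => hC ((a, b), v) ⟨⟨ha, hb, hg⟩, by simpa using hv⟩⟩

section expansion
variable {α : Type*} {l : Filter α} {δ : α → ℝ} {s : ℝ} {Z Z1 Z2 Z11 Z12 Z22 : ℝ × ℝ → C3}
  {Z' Z1' Z2' : α → ℝ × ℝ → C3}

lemma Jet1.cLag {I : Set ℝ} (h : Jet1 I Z Z1 Z2)
    (hg : ∀ p ∈ I ×ˢ (univ : Set ℝ), gram (Z1 p) (Z2 p) ∈ slitPlane) :
    ContinuousOn (fun p => (cut s p.1 : ℂ) * Lag (Z p) (Z1 p) (Z2 p)) (I ×ˢ univ) :=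
  (continuousOn_height (continuous_cut s) _).mul (continuousOn_Lag h.c0 h.c1 h.c2 hg)

lemma norm_cut_mul (s w : ℝ) (z : ℂ) : ‖(cut s w : ℂ) * z‖ ≤ ‖z‖ := by
  rw [norm_mul]
  exact mul_le_of_le_one_left (norm_nonneg _) (norm_cut_le s w)

theorem cone_expansion (hδ : Tendsto δ l (𝓝 0)) (hs : 1 ≤ s) {B c : ℝ} (hc : 0 < c)
    (hZ : Jet2 (Ici s) Z Z1 Z2 Z11 Z12 Z22)
    (hP : ∀ p : ℝ × ℝ, s < p.1 → PP (Z p) (Z1 p) (Z2 p) (Z11 p) (Z12 p) (Z22 p) = 0)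
    {y a b : ℝ × ℝ → C3} (e : ∀ p : ℝ × ℝ, s ≤ p.1 → Z p = rt p.1 • y p ∧
      Z1 p = (rt p.1)⁻¹ • a p ∧ Z2 p = rt p.1 • b p ∧ y p ⬝ᵥ y p = 4 ∧ ‖a p‖ ≤ B ∧ ‖b p‖ ≤ B ∧
      c ≤ (gram (a p) (b p)).re) {y' a' b' : α → ℝ × ℝ → C3}
    (e' : ∀ᶠ n in l, Jet1 (Ici s) (Z' n) (Z1' n) (Z2' n) ∧ ∀ p : ℝ × ℝ, s ≤ p.1 →
      Z' n p = rt p.1 • y' n p ∧ Z1' n p = (rt p.1)⁻¹ • a' n p ∧ Z2' n p = rt p.1 • b' n p ∧
      y' n p ⬝ᵥ y' n p = 4 ∧ gram (a' n p) (b' n p) ∈ slitPlane ∧ ‖y' n p - y p‖ ≤ δ n ∧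
      ‖a' n p - a p‖ ≤ δ n ∧ ‖b' n p - b p‖ ≤ δ n) :
    (fun n => (∫ p in fd (Ioi s), (cut s p.1 : ℂ) * Lag (Z' n p) (Z1' n p) (Z2' n p)) -
      (∫ p in fd (Ioi s), (cut s p.1 : ℂ) * Lag (Z p) (Z1 p) (Z2 p)) +
      ∫ p in fd (Ioc s (s + 1)), ((deriv (cut s) p.1 : ℝ) : ℂ) *
        mom1 (Z p) (Z1 p) (Z2 p) (Z' n p - Z p)) =o[l] δ := by
  have hg : ∀ p ∈ Ici s ×ˢ (univ : Set ℝ), gram (Z1 p) (Z2 p) ∈ slitPlane := fun p hp => by
    obtain ⟨-, e1, e2, -, -, -, e6⟩ := e p hp.1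
    rw [e1, e2, gram_scale (one_pos.trans_le (hs.trans hp.1))]
    exact Or.inl (hc.trans_le e6)
  have b0 : ∀ p : ℝ × ℝ, s ≤ p.1 → ‖Lag (Z p) (Z1 p) (Z2 p)‖ ≤ 10 * B ^ 2 * maj p.1 :=
    fun p hp => by
      obtain ⟨e0, e1, e2, e3, e4, e5, -⟩ := e p hp
      rw [e0, e1, e2]
      exact norm_Lag_scale (hs.trans hp) e3 e4 e5
  have i0 := integrableOn_of_maj (hZ.j0.cLag (s := s) hg)
    fun p hp => (norm_cut_mul _ _ _).trans (b0 p hp)
  obtain ⟨C, hC⟩ := exists_mom1_bound B hc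
  refine IsLittleO.of_bound fun ε hε => ?_
  have hI := majI_nonneg s
  obtain ⟨δ0, h0, H⟩ := cone_taylor B hc (ε := ε / (majI s + 1)) (by positivity)
  filter_upwards [e', hδ.eventually_le_const (lt_min h0 one_pos)] with n ⟨hJ, en⟩ hn
  obtain ⟨n0, n1⟩ := le_min_iff.1 hn
  have hU := hJ.sub hZ.j0
  have hg' : ∀ p ∈ Ici s ×ˢ (univ : Set ℝ), gram (Z1' n p) (Z2' n p) ∈ slitPlane := fun p hp => by
    obtain ⟨-, e1, e2, -, e4, -⟩ := en p hp.1
    rwa [e1, e2, gram_scale (one_pos.trans_le (hs.trans hp.1))]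
  have b1 : ∀ p : ℝ × ℝ, s ≤ p.1 →
      ‖Lag (Z' n p) (Z1' n p) (Z2' n p)‖ ≤ 10 * (B + 1) ^ 2 * maj p.1 := fun p hp => by
    obtain ⟨e0, e1, e2, e3, -, -, e6, e7⟩ := en p hp
    obtain ⟨-, -, -, -, e4, e5, -⟩ := e p hp
    rw [e0, e1, e2]
    exact norm_Lag_scale (hs.trans hp) e3 (by linarith [norm_le_insert' (a' n p) (a p)])
      (by linarith [norm_le_insert' (b' n p) (b p)])
  have b2 : ∀ p : ℝ × ℝ, s ≤ p.1 → ‖Lag (Z' n p) (Z1' n p) (Z2' n p) - Lag (Z p) (Z1 p) (Z2 p) -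
      dLag (Z p) (Z1 p) (Z2 p) (Z' n p - Z p) (Z1' n p - Z1 p) (Z2' n p - Z2 p)‖ ≤
      ε / (majI s + 1) * ‖δ n‖ * maj p.1 := fun p hp => by
    obtain ⟨e0, e1, e2, e3, -, e5, e6, e7⟩ := en p hp
    obtain ⟨f0, f1, f2, f3, f4, f5, f6⟩ := e p hp
    rw [e0, e1, e2, f0, f1, f2]
    refine (H _ (hs.trans hp) _ _ _ _ _ _ _ n0 f3 e3 f4 f5 f6 e5 e6 e7).trans ?_
    have := maj_pos p.1
    gcongr
    exact le_abs_self _
  have i1 := integrableOn_of_maj (hJ.cLag (s := s) hg')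
    fun p hp => (norm_cut_mul _ _ _).trans (b1 p hp)
  have i2 : IntegrableOn (fun p => (cut s p.1 : ℂ) * dLag (Z p) (Z1 p) (Z2 p) (Z' n p - Z p)
      (Z1' n p - Z1 p) (Z2' n p - Z2 p)) (fd (Ioi s)) := by
    refine integrableOn_of_maj (C := 10 * (B + 1) ^ 2 + 10 * B ^ 2 + ε / (majI s + 1) * ‖δ n‖)
      ((continuousOn_height (continuous_cut s) _).mul
        (continuousOn_dLag hZ.j0.c0 hZ.j0.c1 hZ.j0.c2 hU.c0 hU.c1 hU.c2 hg))
      fun p hp => (norm_cut_mul _ _ _).trans ?_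
    have k := norm_sub_le (Lag (Z' n p) (Z1' n p) (Z2' n p) - Lag (Z p) (Z1 p) (Z2 p))
      (Lag (Z' n p) (Z1' n p) (Z2' n p) - Lag (Z p) (Z1 p) (Z2 p) -
        dLag (Z p) (Z1 p) (Z2 p) (Z' n p - Z p) (Z1' n p - Z1 p) (Z2' n p - Z2 p))
    rw [sub_sub_cancel] at k
    linarith [norm_sub_le (Lag (Z' n p) (Z1' n p) (Z2' n p)) (Lag (Z p) (Z1 p) (Z2 p)), b0 p hp,
      b1 p hp, b2 p hp]
  have fl : Tendsto (fun β => ∫ θ in (0 : ℝ)..2 * π, mom1 (Z (β, θ)) (Z1 (β, θ)) (Z2 (β, θ))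
      (Z' n (β, θ) - Z (β, θ))) atTop (𝓝 0) := by
    refine squeeze_zero_norm' ?_ (by
      simpa using (tendsto_maj.const_mul (2 * max C 0)).mul_const |2 * π - 0|)
    filter_upwards [eventually_ge_atTop s] with β hβ
    refine (intervalIntegral.norm_integral_le_of_norm_le_const (C := 2 * max C 0 * maj β)
      fun θ _ => ?_).trans (by simp)
    obtain ⟨e0, -, -, -, -, e5, -⟩ := en (β, θ) hβ
    obtain ⟨f0, f1, f2, f3, f4, f5, f6⟩ := e (β, θ) hβ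
    have hβ0 : 0 < β := by linarith
    rw [e0, f0, f1, f2, ← smul_sub, mom1_scale hβ0 f3, norm_mul, norm_mul, norm_cexp_neg,
      norm_real, Real.norm_of_nonneg hβ0.le]
    calc _ ≤ 2 * maj β * max C 0 := mul_le_mul (mul_exp_le β)
          ((hC _ _ _ f4 f5 f6 (e5.trans n1)).trans (le_max_left _ _)) (norm_nonneg _)
          (by linarith [maj_pos β])
      _ = _ := by ring
  rw [← neg_neg (∫ p in fd (Ioc s (s + 1)), _), ← end_variation_inf hZ hU hg hP i2 fl,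
    ← sub_eq_add_neg, ← integral_sub i1 i0, ← integral_sub (i1.fun_sub i0) i2]
  refine (norm_integral_le_maj measurableSet_Ioi le_rfl
    (C := ε / (majI s + 1) * ‖δ n‖) (by positivity) fun p hp => ?_).trans ?_
  · rw [← mul_sub, ← mul_sub]
    exact (norm_cut_mul _ _ _).trans (b2 p (le_of_lt hp))
  · rw [mul_right_comm]
    gcongr
    rw [div_mul_eq_mul_div, div_le_iff₀ (by positivity)]
    nlinarith

theorem strip_expansion (hδ : Tendsto δ l (𝓝 0)) {W : ℝ} (hZ : Jet1 (Icc s W) Z Z1 Z2)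
    (hg : ∀ p ∈ Icc s W ×ˢ univ, gram (Z1 p) (Z2 p) ∈ slitPlane)
    (e' : ∀ᶠ n in l, Jet1 (Icc s W) (Z' n) (Z1' n) (Z2' n) ∧ ∀ p ∈ Icc s W ×ˢ univ,
      gram (Z1' n p) (Z2' n p) ∈ slitPlane ∧ ‖Z' n p - Z p‖ ≤ δ n ∧ ‖Z1' n p - Z1 p‖ ≤ δ n ∧
      ‖Z2' n p - Z2 p‖ ≤ δ n) :
    (fun n => (∫ p in fd (Ioc s W), (cut s p.1 : ℂ) * Lag (Z' n p) (Z1' n p) (Z2' n p)) -
      (∫ p in fd (Ioc s W), (cut s p.1 : ℂ) * Lag (Z p) (Z1 p) (Z2 p)) -
      ∫ p in fd (Ioc s W), (cut s p.1 : ℂ) * dLag (Z p) (Z1 p) (Z2 p) (Z' n p - Z p)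
        (Z1' n p - Z1 p) (Z2' n p - Z2 p)) =o[l] δ := by
  have hs : Icc s W ×ˢ Icc 0 (2 * π) ⊆ Icc s W ×ˢ univ := prod_mono le_rfl (subset_univ _)
  have hs' : fd (Ioc s W) ⊆ Icc s W ×ˢ Icc 0 (2 * π) :=
    prod_mono Ioc_subset_Icc_self Ioc_subset_Icc_self
  have hv : volume (fd (Ioc s W)) < ⊤ :=
    (measure_mono hs').trans_lt (isCompact_fd_closure s W).measure_lt_top
  refine IsLittleO.of_bound fun ε hε => ?_
  have hI : 0 ≤ volume.real (fd (Ioc s W)) := measureReal_nonneg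
  obtain ⟨δ0, h0, H⟩ := Lag_taylor (isCompact_fd_closure s W) (hZ.c0.mono hs) (hZ.c1.mono hs)
    (hZ.c2.mono hs) (fun p hp => hg p (hs hp)) (ε := ε / (volume.real (fd (Ioc s W)) + 1))
    (by positivity)
  filter_upwards [e', hδ.eventually_le_const h0] with n ⟨hJ, en⟩ hn
  have hU := hJ.sub hZ
  have i0 := integrableOn_fd (hZ.cLag (s := s) hg)
  have i1 := integrableOn_fd (hJ.cLag (s := s) fun p hp => (en p hp).1)
  have i2 := integrableOn_fd ((continuousOn_height (continuous_cut s) _).fun_mul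
    (continuousOn_dLag hZ.c0 hZ.c1 hZ.c2 hU.c0 hU.c1 hU.c2 hg))
  rw [← integral_sub i1 i0, ← integral_sub (i1.fun_sub i0) i2]
  refine (norm_setIntegral_le_of_norm_le_const hv
    (C := ε / (volume.real (fd (Ioc s W)) + 1) * ‖δ n‖) fun p hp => ?_).trans ?_
  · obtain ⟨-, e1, e2, e3⟩ := en p (hs (hs' hp))
    rw [← mul_sub, ← mul_sub]
    refine (norm_cut_mul _ _ _).trans ((H p (hs' hp) _ _ _ _ hn e1 e2 e3).trans ?_)
    gcongr
    exact le_abs_self _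
  · rw [mul_right_comm]
    gcongr
    rw [div_mul_eq_mul_div, div_le_iff₀ (by positivity)]
    nlinarith

variable {M : Type*} [TopologicalSpace M] [ChartedSpace E2 M] [RSm E2 M] [T2Space M]
  [CompactSpace M] [MeasurableSpace M] [BorelSpace M] {ε : Type*} [Fintype ε]
  {φ : ε → OpenPartialHomeomorph M E2} {w0 : ℝ} {F X : M → C3} {μ : Measure M}

lemma integrable_psi (h : IsEnds φ w0) (hs : w0 < s) (hA : IsArea (coreO φ (s + 2)) F μ)
    {g : M → ℂ} (hg : ContinuousOn g (coreO φ (s + 2))) :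
    Integrable (fun x => (psi φ s x : ℂ) * g x) μ :=
  hA.integrable isCompact_coreK (coreK_subset_coreO (r := s + 1) (by linarith))
    (ContinuousOn.mul
      (fun x _ => (CkFn.ckAt (h.psi_ck hs) x).ofReal.continuousAt.continuousWithinAt) hg)
    fun x hx => by rw [h.psi_zero hx]; simp

theorem core_expansion (hδ : Tendsto δ l (𝓝 0)) (𝒞 : Cov E2 M) (h : IsEnds φ w0) (hs : w0 < s)
    (hA : IsArea (coreO φ (s + 2)) F μ) (hX : ∀ x ∈ coreO φ (s + 2), Imm X x) {X' : α → M → C3}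
    (e' : ∀ᶠ n in l, (∀ x ∈ coreO φ (s + 2), Imm (X' n) x) ∧
      JetClose 𝒞 (coreK φ (s + 1)) (X' n) X (δ n)) :
    (fun n => (∫ x, (psi φ s x : ℂ) * LagM F (X' n) x ∂μ) -
      (∫ x, (psi φ s x : ℂ) * LagM F X x ∂μ) -
      ∫ x, (psi φ s x : ℂ) * dLagM F X (fun z => X' n z - X z) x ∂μ) =o[l] δ := by
  have hK : coreK φ (s + 1) ⊆ coreO φ (s + 2) := coreK_subset_coreO (by linarith)
  have := hA.fin
  refine IsLittleO.of_bound fun η hη => ?_
  have hI : 0 ≤ μ.real univ := measureReal_nonneg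
  obtain ⟨δ0, h0, H⟩ := core_taylor 𝒞 isCompact_coreK (fun x hx => hA.imm x (hK hx))
    (fun x hx => hX x (hK hx)) (ε := η / (μ.real univ + 1)) (by positivity)
  filter_upwards [e', hδ.eventually_le_const h0] with n ⟨hn, hJ⟩ n0
  have i0 := integrable_psi h hs hA (continuousOn_LagM hA.opn hA.imm hX)
  have i1 := integrable_psi h hs hA (continuousOn_LagM hA.opn hA.imm hn)
  have i2 := integrable_psi h hs hA (continuousOn_dLagM hA.opn hA.imm hX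
    (V := fun z => X' n z - X z) fun x hx => ((hn x hx).ck.sub (hX x hx).ck).of_le one_le_two)
  rw [← integral_sub i1 i0, ← integral_sub (i1.sub' i0) i2]
  refine (norm_integral_le_of_norm_le_const (C := η / (μ.real univ + 1) * ‖δ n‖)
    (Eventually.of_forall fun x => ?_)).trans ?_
  · rw [← mul_sub, ← mul_sub, norm_mul]
    by_cases hx : x ∈ coreK φ (s + 1)
    · refine (mul_le_of_le_one_left (norm_nonneg _) (h.norm_psi_le x)).trans
        ((H _ _ n0 (fun x hx => (hn x (hK hx)).ck.of_le one_le_two) hJ x hx).trans ?_)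
      gcongr
      exact le_abs_self _
    · rw [h.psi_zero hx]
      simp only [ofReal_zero, norm_zero, zero_mul]
      positivity
  · rw [mul_right_comm]
    gcongr
    rw [div_mul_eq_mul_div, div_le_iff₀ (by positivity)]
    nlinarith

end expansion

end Vale.Agent.P218VA
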