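import Vale.Agent.P218VA.Pol

/-!
# The first variation of the core and of the ends
-/

open scoped Matrix Topology Real ContDiff
open Complex Filter Set MeasureTheory Metric
open Vale.Agent.P272.K.LIN
open Vale.Agent.P218GA (pol)

noncomputable section

set_option linter.unusedSectionVars false

namespace Vale.Agent.P218VA

lemma fd_Icc_ae (a b : ℝ) : fd (Icc a b) =ᵐ[volume] fd (Ioc a b) := by
  unfold fd
  rw [Measure.volume_eq_prod]
  exact Measure.set_prod_ae_eq Ioc_ae_eq_Icc.symm EventuallyEq.rfl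

lemma isCompact_fd_closure (a b : ℝ) : IsCompact (Icc a b ×ˢ Icc 0 (2 * π)) :=
  isCompact_Icc.prod isCompact_Icc

variable {M : Type*} [TopologicalSpace M] [ChartedSpace E2 M] [RSm E2 M] [T2Space M]
  [CompactSpace M] [MeasurableSpace M] [BorelSpace M] {ε : Type*} [Fintype ε]
  {φ : ε → OpenPartialHomeomorph M E2} {w0 s : ℝ} {F X V : M → C3} {μ : Measure M}

lemma IsEnds.continuousOn_Yp (h : IsEnds φ w0) (j : ε) : ContinuousOn (Yp φ j) {p | w0 < p.1} :=
  (φ j).continuousOn_symm.comp (contDiff_pol (n := 0)).continuous.continuousOn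
    fun _ hp => h.pol_mem j hp

lemma IsEnds.Yp_injOn (h : IsEnds φ w0) (j : ε) {I : Set ℝ} (hI : I ⊆ Ioi w0) :
    InjOn (Yp φ j) (fd I) := fun _ hp _ hq e =>
  pol_injOn I hp hq ((φ j).symm.injOn (h.pol_mem j (hI hp.1)) (h.pol_mem j (hI hq.1)) e)

lemma IsEnds.measurableSet_image (h : IsEnds φ w0) (j : ε) {I : Set ℝ} (hm : MeasurableSet I)
    (hI : I ⊆ Ioi w0) : MeasurableSet (Yp φ j '' fd I) := by
  have h1 : Yp φ j '' fd I = (φ j).source ∩ φ j ⁻¹' (pol '' fd I) := by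
    ext x
    constructor
    · rintro ⟨p, hp, rfl⟩
      exact ⟨h.Yp_mem j (hI hp.1), p, hp, (h.φ_Yp j (hI hp.1)).symm⟩
    · rintro ⟨hx, p, hp, e⟩
      exact ⟨p, hp, by rw [Yp, e, (φ j).left_inv hx]⟩
  have h2 : MeasurableSet (pol '' fd I) := (measurableSet_fd hm).image_of_continuousOn_injOn
    (contDiff_pol (n := 0)).continuous.continuousOn (pol_injOn I)
  rw [h1, ← Subtype.image_preimage_coe]
  refine (φ j).open_source.measurableSet.subtype_image ?_
  exact (φ j).continuousOn.domRestrict.measurable h2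

lemma IsEnds.contDiffAt_Yp {G : Type*} [NormedAddCommGroup G] [NormedSpace ℝ G]
    {k : WithTop ℕ∞} {X : M → G} (h : IsEnds φ w0) (j : ε) {p : ℝ × ℝ} (hp : w0 < p.1)
    (hX : CkAt k X (Yp φ j p)) : ContDiffAt ℝ k (fun q => X (Yp φ j q)) p :=
  (hX.at_target (h.mem j) (h.pol_mem j hp)).comp p contDiff_pol.contDiffAt

/-- integration over a part of an end in polar coordinates -/
lemma IsEnds.integral_indicator (h : IsEnds φ w0) {Ω : Set M} (hA : IsArea Ω F μ) (j : ε)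
    {I : Set ℝ} (hm : MeasurableSet I) (hI : I ⊆ Ioi w0) (hΩ : ∀ p ∈ fd I, Yp φ j p ∈ Ω)
    (g : M → ℂ) : ∫ x, (Yp φ j '' fd I).indicator g x ∂μ =
      ∫ p in fd I, g (Yp φ j p) * LagF (1, 0) (0, 1) (fun q => F (Yp φ j q)) p := by
  rw [hA.param (h.mem j) (measurableSet_fd hm) (fun p _ => differentiable_pol p) (pol_injOn I)
    (fun p _ => jac_pol_ne p) (fun p hp => h.pol_mem j (hI hp.1)) hΩ
    (g := (Yp φ j '' fd I).indicator g) fun x hx => indicator_of_notMem hx _]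
  refine setIntegral_congr_fun (measurableSet_fd hm) fun p hp => ?_
  have : (φ j).symm (pol p) ∈ Yp φ j '' fd I := ⟨p, hp, rfl⟩
  rw [indicator_of_mem this]
  rfl

lemma dLagM_const_smul {x : M} (hV : CkAt 1 V x) (c : ℂ) :
    dLagM F X (fun z => c • V z) x = c * dLagM F X V x := by
  have h1 := (hV _ (chart_mem_atlas E2 x) (mem_chart_source E2 x)).differentiableAt one_ne_zero
  have h2 : ∀ v, pd (cX (chartAt E2 x) fun z => c • V z) v (chartAt E2 x x) =
      c • pd (cX (chartAt E2 x) V) v (chartAt E2 x x) := fun v => by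
    have := pd_csmul (differentiableAt_const c) h1 v
    rw [show pd (fun _ : E2 => c) v (chartAt E2 x x) = 0 by simp [pd], zero_smul, add_zero] at this
    exact this
  unfold dLagM dLagF
  rw [h2, h2, ← mul_div_assoc, ← dLag_smul]
  rfl

/-- The first variation of the core part of the action. -/
theorem core_variation (h : IsEnds φ w0) (hs : w0 < s) (hA : IsArea (coreO φ (s + 2)) F μ)
    (hX : ∀ x ∈ coreO φ (s + 2), Imm X x) (hV : ∀ x ∈ coreO φ (s + 2), CkAt 1 V x)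
    {Z Z1 Z2 U U1 U2 : ε → ℝ × ℝ → C3}
    (hZ : ∀ j, Jet1 (Icc s (s + 2)) (Z j) (Z1 j) (Z2 j))
    (hU : ∀ j, Jet1 (Icc s (s + 2)) (U j) (U1 j) (U2 j))
    (cZ : ∀ j p, s < p.1 → p.1 < s + 2 → X (Yp φ j p) = Z j p)
    (cU : ∀ j p, s < p.1 → p.1 < s + 2 → V (Yp φ j p) = U j p) :
    ∫ x, (psi φ s x : ℂ) * dLagM F X V x ∂μ = ∫ x, (psi φ s x : ℂ) * ELM F X x (V x) ∂μ +
      ∑ j, ∫ p in fd (Ioc s (s + 1)),
        ((deriv (cut s) p.1 : ℝ) : ℂ) * mom1 (Z j p) (Z1 j p) (Z2 j p) (U j p) := by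
  have hK : IsCompact (coreK φ (s + 1)) := isCompact_coreK
  have hKΩ : coreK φ (s + 1) ⊆ coreO φ (s + 2) := coreK_subset_coreO (by linarith)
  have hψ : ∀ x, CkAt 1 (fun z => (psi φ s z : ℂ)) x := fun x =>
    ((CkFn.ckAt (h.psi_ck hs) x).of_le one_le_inf).ofReal
  set W : M → C3 := fun z => (psi φ s z : ℂ) • V z with hW
  have hWc : ∀ x ∈ coreO φ (s + 2), CkAt 1 W x := fun x hx => (hψ x).csmul (hV x hx)
  have hW0 : ∀ x, x ∉ coreK φ (s + 1) → W x = 0 := fun x hx => by simp [hW, h.psi_zero hx]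
  have hev : ∀ x, x ∉ coreK φ (s + 1) → ∀ᶠ z in 𝓝 x, W z = 0 := fun x hx => by
    filter_upwards [hK.isClosed.isOpen_compl.mem_nhds hx] with z hz using hW0 z hz
  have key := hA.variation hX hWc hK hKΩ hW0
  have i1 : Integrable (dLagM F X W) μ := hA.integrable hK hKΩ
    (continuousOn_dLagM hA.opn hA.imm hX hWc) fun x hx => dLagM_of_zero (hev x hx)
  have i2 : Integrable (fun x => (psi φ s x : ℂ) * dLagM F X V x) μ := hA.integrable hK hKΩ
    (ContinuousOn.mul (fun x _ => (hψ x).continuousAt.continuousWithinAt)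
      (continuousOn_dLagM hA.opn hA.imm hX hV)) fun x hx => by simp [h.psi_zero hx]
  set Fl : M → ℂ := fun x => (psi φ s x : ℂ) * dLagM F X V x - dLagM F X W x with hFl
  have i3 : Integrable Fl μ := i2.sub i1
  have hI : Icc s (s + 1) ⊆ Ioi w0 := fun w hw => hs.trans_le hw.1
  have e0 : ∀ x, (∀ j, x ∉ Yp φ j '' fd (Icc s (s + 1))) → Fl x = 0 := fun x hx => by
    by_cases hx' : x ∈ coreK φ (s + 1)
    · have e : W =ᶠ[𝓝 x] fun z => (psi φ s x : ℂ) • V z := by
        filter_upwards [h.psi_eventually hs hx] with z hz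
        simp only [hW, hz]
      simp only [hFl]
      rw [dLagM_congr EventuallyEq.rfl e, dLagM_const_smul (hV x (hKΩ hx')), sub_self]
    · simp [hFl, h.psi_zero hx', dLagM_of_zero (hev x hx')]
  have e1 : ∀ x, Fl x = ∑ j, (Yp φ j '' fd (Icc s (s + 1))).indicator Fl x := fun x => by
    by_cases hx : ∃ j, x ∈ Yp φ j '' fd (Icc s (s + 1))
    · obtain ⟨j, hj⟩ := hx
      rw [Finset.sum_eq_single j (fun j' _ hj' => indicator_of_notMem (fun hx' => hj' ?_) _)
        (by simp), indicator_of_mem hj]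
      obtain ⟨p, hp, rfl⟩ := hj
      obtain ⟨q, hq, e⟩ := hx'
      exact h.disj _ _ _ (e ▸ h.Yp_mem j' (hI hq.1)) (h.Yp_mem j (hI hp.1))
    · rw [not_exists] at hx
      rw [e0 x hx, Finset.sum_eq_zero fun j _ => indicator_of_notMem (hx j) _]
  have e2 : ∫ x, Fl x ∂μ = ∑ j, ∫ p in fd (Ioc s (s + 1)),
      ((deriv (cut s) p.1 : ℝ) : ℂ) * mom1 (Z j p) (Z1 j p) (Z2 j p) (U j p) := by
    rw [integral_congr_ae (Eventually.of_forall e1), integral_finsetSum _
      fun j _ => i3.indicator (h.measurableSet_image j measurableSet_Icc hI)]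
    refine Finset.sum_congr rfl fun j _ => ?_
    rw [h.integral_indicator hA j measurableSet_Icc hI
      (fun p hp => h.Yp_mem_coreO j (hI hp.1) (by linarith [hp.1.2])),
      setIntegral_congr_set (fd_Icc_ae s (s + 1))]
    refine setIntegral_congr_fun (measurableSet_fd measurableSet_Ioc) fun p hp => ?_
    have p1 : s < p.1 := hp.1.1
    have p2 : p.1 < s + 2 := by linarith [hp.1.2]
    have p0 : w0 < p.1 := hs.trans p1
    have hY := h.Yp_mem_coreO j p0 p2
    have hnb : ∀ᶠ q in 𝓝 p, s < q.1 ∧ q.1 < s + 2 :=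
      continuous_fst.continuousAt.eventually (Ioo_mem_nhds p1 p2)
    have hin : p.1 ∈ interior (Icc s (s + 2)) := by rw [interior_Icc]; exact ⟨p1, p2⟩
    have hX1 : CkAt 1 X (Yp φ j p) := (hX _ hY).ck.of_le (by norm_num)
    have dX := (h.contDiffAt_Yp j p0 hX1).differentiableAt one_ne_zero
    have dV := (h.contDiffAt_Yp j p0 (hV _ hY)).differentiableAt one_ne_zero
    have dW := (h.contDiffAt_Yp j p0 (hWc _ hY)).differentiableAt one_ne_zero
    have jX := (hZ j).eq_pd hin dX (hnb.mono fun q hq => cZ j q hq.1 hq.2)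
    have jV := (hU j).eq_pd hin dV (hnb.mono fun q hq => cU j q hq.1 hq.2)
    have jW := ((hU j).smul_height (c := fun w => 1 - (cut s w : ℂ))
      (c' := fun w => -((deriv (cut s) w : ℝ) : ℂ))
      (fun w => (hasDerivAt_cut s w).const_sub 1) (continuous_dcut s).neg).eq_pd hin dW
      (hnb.mono fun q hq => by
        simp only [hW]
        rw [h.psi_Yp j (hs.trans hq.1), cU j q hq.1 hq.2]
        push_cast
        rfl)
    have k1 := dLagM_param (d1 := (1, 0)) (d2 := (0, 1)) (h.mem j) (h.pol_mem j p0)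
      (hA.imm _ hY) hX1 (hV _ hY) (differentiable_pol p) (jac_pol_ne p)
    have k2 := dLagM_param (d1 := (1, 0)) (d2 := (0, 1)) (h.mem j) (h.pol_mem j p0)
      (hA.imm _ hY) hX1 (hWc _ hY) (differentiable_pol p) (jac_pol_ne p)
    change dLagM F X V (Yp φ j p) * LagF (1, 0) (0, 1) (fun q => F (Yp φ j q)) p =
      dLagF (1, 0) (0, 1) (fun q => X (Yp φ j q)) (fun q => V (Yp φ j q)) p at k1
    change dLagM F X W (Yp φ j p) * LagF (1, 0) (0, 1) (fun q => F (Yp φ j q)) p =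
      dLagF (1, 0) (0, 1) (fun q => X (Yp φ j q)) (fun q => W (Yp φ j q)) p at k2
    simp only [hFl]
    rw [sub_mul, mul_assoc, k1, k2]
    unfold dLagF
    rw [jX.1, jX.2, jV.1, jV.2, jW.1, jW.2]
    simp only [hW]
    rw [h.psi_Yp j p0, cU j p p1 p2, cZ j p p1 p2]
    push_cast
    rw [dLag_mul]
    ring
  have e3 : ∫ x, Fl x ∂μ = ∫ x, (psi φ s x : ℂ) * dLagM F X V x ∂μ - ∫ x, dLagM F X W x ∂μ :=
    integral_sub i2 i1
  rw [← e2, e3, key]
  simp only [hW, ELM_smul]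
  ring

section strip
variable {Z Z1 Z2 Z11 Z12 Z22 U U1 U2 : ℝ × ℝ → C3} {s : ℝ}

lemma continuousOn_height {c : ℝ → ℂ} (hc : Continuous c) (t : Set (ℝ × ℝ)) :
    ContinuousOn (fun p : ℝ × ℝ => c p.1) t := (hc.comp continuous_fst).continuousOn

/-- The first variation of the part of the action on a bounded end. -/
theorem end_variation {W : ℝ} (hW : s + 1 ≤ W) (hZ : Jet2 (Icc s W) Z Z1 Z2 Z11 Z12 Z22)
    (hU : Jet1 (Icc s W) U U1 U2) (hg : ∀ p ∈ Icc s W ×ˢ univ, gram (Z1 p) (Z2 p) ∈ slitPlane) :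
    ∫ p in fd (Ioc s W), (cut s p.1 : ℂ) * dLag (Z p) (Z1 p) (Z2 p) (U p) (U1 p) (U2 p) =
      (∫ p in fd (Ioc s W),
        (cut s p.1 : ℂ) * EL (Z p) (Z1 p) (Z2 p) (Z11 p) (Z12 p) (Z22 p) (U p)) +
      (∫ θ in (0 : ℝ)..2 * π, mom1 (Z (W, θ)) (Z1 (W, θ)) (Z2 (W, θ)) (U (W, θ))) -
      ∫ p in fd (Ioc s (s + 1)),
        ((deriv (cut s) p.1 : ℝ) : ℂ) * mom1 (Z p) (Z1 p) (Z2 p) (U p) := by
  have key := strip_variation (by linarith) hZ
    (hU.smul_height (hasDerivAt_cut s) (continuous_dcut s)) hg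
  simp only [dLag_mul, EL_smul, mom1_smul, cut_zero le_rfl, cut_one hW, zero_mul, add_zero,
    ofReal_zero, ofReal_one, one_mul, intervalIntegral.integral_zero, sub_zero] at key
  have c1 := (continuousOn_height (continuous_dcut s) _).fun_mul
    (continuousOn_mom1 hZ.j0.c0 hZ.j0.c1 hZ.j0.c2 hU.c0 hg)
  have i1 := integrableOn_fd c1
  have i2 := integrableOn_fd ((continuousOn_height (continuous_cut s) _).fun_mul
    (continuousOn_dLag hZ.j0.c0 hZ.j0.c1 hZ.j0.c2 hU.c0 hU.c1 hU.c2 hg))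
  rw [← key, integral_add i2 i1, setIntegral_eq_of_subset_of_forall_sdiff_eq_zero
    (f := fun p : ℝ × ℝ => ((deriv (cut s) p.1 : ℝ) : ℂ) * mom1 (Z p) (Z1 p) (Z2 p) (U p))
    (measurableSet_fd measurableSet_Ioc) (s := fd (Ioc s (s + 1)))
    (prod_mono (Ioc_subset_Ioc_right hW) le_rfl), add_sub_cancel_right]
  rintro p ⟨hp, hp'⟩
  have : s + 1 < p.1 := by
    by_contra h
    exact hp' ⟨⟨hp.1.1, not_lt.1 h⟩, hp.2⟩
  simp [dcut_zero this]

/-- The first variation of the part of the action on an unbounded end which solves the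
equation. -/
theorem end_variation_inf (hZ : Jet2 (Ici s) Z Z1 Z2 Z11 Z12 Z22) (hU : Jet1 (Ici s) U U1 U2)
    (hg : ∀ p ∈ Ici s ×ˢ univ, gram (Z1 p) (Z2 p) ∈ slitPlane)
    (hP : ∀ p : ℝ × ℝ, s < p.1 → PP (Z p) (Z1 p) (Z2 p) (Z11 p) (Z12 p) (Z22 p) = 0)
    (i1 : IntegrableOn (fun p => (cut s p.1 : ℂ) * dLag (Z p) (Z1 p) (Z2 p) (U p) (U1 p) (U2 p))
      (fd (Ioi s)))
    (h0 : Tendsto (fun β => ∫ θ in (0 : ℝ)..2 * π,
      mom1 (Z (β, θ)) (Z1 (β, θ)) (Z2 (β, θ)) (U (β, θ))) atTop (𝓝 0)) :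
    ∫ p in fd (Ioi s), (cut s p.1 : ℂ) * dLag (Z p) (Z1 p) (Z2 p) (U p) (U1 p) (U2 p) =
      -∫ p in fd (Ioc s (s + 1)),
        ((deriv (cut s) p.1 : ℝ) : ℂ) * mom1 (Z p) (Z1 p) (Z2 p) (U p) := by
  have h1 := h0.sub_const (∫ p in fd (Ioc s (s + 1)),
        ((deriv (cut s) p.1 : ℝ) : ℂ) * mom1 (Z p) (Z1 p) (Z2 p) (U p))
  rw [zero_sub] at h1
  refine tendsto_nhds_unique (tendsto_integral_fd i1) (h1.congr' ?_)
  filter_upwards [eventually_ge_atTop (s + 1)] with β hβ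
  rw [end_variation hβ (hZ.mono Icc_subset_Ici_self) (hU.mono Icc_subset_Ici_self)
    fun p hp => hg p (prod_mono Icc_subset_Ici_self le_rfl hp),
    setIntegral_eq_zero_of_forall_eq_zero (t := fd (Ioc s β)), zero_add]
  intro p hp
  rw [EL_of_PP (hP p hp.1.1), mul_zero]

end strip

end Vale.Agent.P218VA
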