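import Vale.Agent.P218AC.Defs
import Vale.Agent.P218VA.Pull
import Vale.Agent.P218WD.Ends

/-!
# The conical ends of the configurations
-/

open scoped Matrix Topology Real ContDiff
open Complex Filter Set Metric
open Vale.Agent.P272.K.LIN Vale.Agent.P218GA Vale.Agent.P218HB Vale.Agent.P218ST Vale.Agent.P218AC
open Vale.Agent.P218SQ (Pt Adm)
open Vale.Agent.P218XI (coneF)
open Vale.Agent.P218CO (cj cj_congr)
open Vale.Agent.P218WD (ConeOK)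

noncomputable section

set_option linter.unusedSectionVars false

namespace Vale.Agent.P218VA

lemma nj_le {f g : ℝ × ℝ → ℂ} {p : ℝ × ℝ} {ε : ℝ} (hp : 0 ≤ p.1)
    (h : ‖(nj p.1 (cj (1, 0) (0, 1) f p)).1 - (nj p.1 (cj (1, 0) (0, 1) g p)).1‖ ≤ ε) :
    ‖f p - g p‖ ≤ ε ∧ p.1 * ‖pd f (1, 0) p - pd g (1, 0) p‖ ≤ ε ∧
      ‖pd f (0, 1) p - pd g (0, 1) p‖ ≤ ε := by
  refine ⟨(norm_fst_le _).trans h, le_trans (le_of_eq ?_)
    ((norm_fst_le _).trans ((norm_snd_le _).trans h)),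
    (norm_snd_le _).trans ((norm_snd_le _).trans h)⟩
  simp [nj, cj, ← mul_sub, abs_of_nonneg hp]

variable {S : Set E3} {w : E3 → ℝ} {δ C₀ : ℝ} {ι κ M : Type} [Fintype ι] [Fintype κ]
  [TopologicalSpace M] [ChartedSpace E2 M] [T2Space M] [RSm E2 M] [CompactSpace M]
  [MeasurableSpace M] [BorelSpace M] {m : Model S w δ C₀ ι κ M} {τ : Type} [Fintype τ]
  (H : Hub m τ) (𝒞 : Cov E2 M)

lemma ev_coneOK (m : Model S w δ C₀ ι κ M) :
    ∀ᶠ s in atTop, ∀ k, ConeOK (coneF (m.L k)) (fun p => (m.t k p : ℂ)) (s + 1) :=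
  (tendsto_atTop_add_const_right _ 1 tendsto_id).eventually
    (eventually_all.2 (P218WD.exists_coneOK m))

/-- the fields `jet`, `small`, `cone` of `Geo.Sol` on the conical ends -/
theorem cone_sol' (h : ∀ k, ConeOK (coneF (m.L k)) (fun p => (m.t k p : ℂ)) (H.s + 1)) :
    ∀ᶠ c' in H.c.sm, ∀ W z, c'.Ok W z → ∀ k, JetAt (geo H 𝒞) W (cfg H W z) (.inr k) ∧
      SmallAt (geo H 𝒞) W (cfg H W z) (.inr k) ∧ ∃ c > 0, ∀ p : ℝ × ℝ, (geo H 𝒞).s ≤ p.1 →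
        c ≤ ((geo H 𝒞).grm (cfg H W z) (.inr k) p).re := by
  choose c hc ε hε hk using h
  filter_upwards [eventually_all.2 fun k => (H.t_hn k).hb.near (hε k), H.c.ev_le]
    with c' h1 h2 W z hz k
  have hz' := h2.ok hz
  have lt : ∀ {v : ℝ}, H.s + 1 ≤ v → H.s < v := fun hv => by linarith
  have k0 : ∀ p : ℝ × ℝ, H.s + 1 ≤ p.1 → (‖H.t W z k p‖ ≤ 1 / 2 ∧
      p.1 * ‖pd (H.t W z k) (1, 0) p‖ ≤ 1 ∧ ‖pd (H.t W z k) (0, 1) p‖ ≤ 1) ∧
      c k ≤ ((geo H 𝒞).grm (cfg H W z) (.inr k) p).re := fun p hp => by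
    have e := ((h1 k).1 W z hz p (lt hp)).le
    rw [cj_congr (f := H.tb 0 k) (g := fun p => (m.t k p : ℂ))
      ((continuous_fst.continuousAt.eventually (lt_mem_nhds (lt hp))).mono (H.t_zero k))] at e
    obtain ⟨a, b, d⟩ := nj_le (by linarith [w0_lt H, m.one_le]) ((norm_fst_le _).trans e)
    have := hk k p hp _ _ _ a b d
    simp only [add_sub_cancel] at this
    exact this
  refine ⟨⟨_, _, _, jet2_of_contDiff (J := Ioi H.s) isOpen_Ioi (fun _ => lt)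
    (fun p hp => (H.t_hn k).cd W z hz' p hp.1) (fun v _ θ => H.t_per W z k v θ), fun p hp => ?_⟩,
    fun p hp => (k0 p hp).1, c k, hc k, fun p hp => (k0 p hp).2⟩
  have hp' : H.s + 1 ≤ p.1 := interior_subset hp
  have p0 : 0 < p.1 := by linarith [w0_lt H, m.one_le]
  have cd := (H.t_hn k).cd W z hz' p (lt hp')
  have hl := lam_ne (k0 p hp').1.1
  obtain ⟨e1, e2⟩ := (coneF (m.L k)).pd_X1 (cd.of_le one_le_two) p0 hl
  obtain ⟨e3, e4, e5⟩ := (coneF (m.L k)).pd_X2 cd p0 hl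
  have := H.cone_eq W z hz' k p (lt hp')
  rw [PPF, e1, e2, e3, e4, e5] at this
  exact this

theorem cone_sol (m : Model S w δ C₀ ι κ M) : ∃ s0 : ℝ, ∀ (τ : Type) [Fintype τ] (H : Hub m τ),
    s0 ≤ H.s → ∀ 𝒞 : Cov E2 M, ∀ᶠ c' in H.c.sm, ∀ W z, c'.Ok W z → ∀ k,
      JetAt (geo H 𝒞) W (cfg H W z) (.inr k) ∧ SmallAt (geo H 𝒞) W (cfg H W z) (.inr k) ∧
        ∃ c > 0, ∀ p : ℝ × ℝ, (geo H 𝒞).s ≤ p.1 → c ≤ ((geo H 𝒞).grm (cfg H W z) (.inr k) p).re :=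
  (eventually_atTop.1 (ev_coneOK m)).imp fun _ h _ _ H hs 𝒞 => cone_sol' H 𝒞 (h _ hs)

end Vale.Agent.P218VA
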