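import Vale.Agent.P218VA.Alg
import Mathlib.Analysis.SpecialFunctions.Pow.Real
import Mathlib.LinearAlgebra.Matrix.Determinant.Basic

/-!
# Invariance of the Lagrangian under changes of parameters and complex rotations
-/

open scoped Matrix
open Complex

noncomputable section

namespace Vale.Agent.P218VA

/-! ### Changes of parameters -/

lemma cross_change (a b : C3) (p q r s : ℂ) :
    (p • a + r • b) ⨯₃ (q • a + s • b) = (p * s - q * r) • (a ⨯₃ b) := by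
  funext i
  fin_cases i
  · simp only [Fin.zero_eta, cross0, Pi.add_apply, Pi.smul_apply, smul_eq_mul]; ring
  · simp only [Fin.mk_one, cross1, Pi.add_apply, Pi.smul_apply, smul_eq_mul]; ring
  · simp only [Fin.reduceFinMk, cross2, Pi.add_apply, Pi.smul_apply, smul_eq_mul]; ring

lemma gram_change (a b : C3) (p q r s : ℂ) :
    gram (p • a + r • b) (q • a + s • b) = (p * s - q * r) ^ 2 * gram a b := by
  simp only [gram, dot3, Pi.add_apply, Pi.smul_apply, smul_eq_mul]; ring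

lemma PP_change (X a b aa ab bb : C3) (p q r s α1 β1 α2 β2 α3 β3 : ℂ) :
    PP X (p • a + r • b) (q • a + s • b)
      ((p * p) • aa + (2 * p * r) • ab + (r * r) • bb + (α1 • a + β1 • b))
      ((p * q) • aa + (p * s + q * r) • ab + (r * s) • bb + (α2 • a + β2 • b))
      ((q * q) • aa + (2 * q * s) • ab + (s * s) • bb + (α3 • a + β3 • b)) =
      (p * s - q * r) ^ 3 * PP X a b aa ab bb := by
  have h1 : a ⬝ᵥ a ⨯₃ b = 0 := dot_self_cross a b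
  have h2 : b ⬝ᵥ a ⨯₃ b = 0 := dot_cross_self a b
  have h3 : b ⬝ᵥ a = a ⬝ᵥ b := dotProduct_comm _ _
  unfold PP
  rw [cross_change, gram_change]
  simp only [gram, add_dotProduct, dotProduct_add, smul_dotProduct, dotProduct_smul, smul_eq_mul,
    h1, h2, h3]
  ring

lemma sqrt_real_mul {d : ℝ} (hd : d ≠ 0) (z : ℂ) :
    Complex.sqrt ((d : ℂ) ^ 2 * z) = (|d| : ℝ) * Complex.sqrt z := by
  unfold Complex.sqrt
  by_cases hz : z = 0
  · simp [hz]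
  have hd2 : (0 : ℝ) < d ^ 2 := by positivity
  have hne : ((d : ℂ) ^ 2 * z) ≠ 0 := mul_ne_zero (pow_ne_zero _ (ofReal_ne_zero.2 hd)) hz
  rw [Complex.cpow_def_of_ne_zero hne, Complex.cpow_def_of_ne_zero hz, ← Complex.ofReal_pow,
    Complex.log_ofReal_mul hd2 hz, add_mul, Complex.exp_add]
  congr 1
  have h1 : Real.log (d ^ 2) = 2 * Real.log |d| := by
    rw [← sq_abs, Real.log_pow]; norm_num
  rw [h1]
  push_cast
  rw [show (2 : ℂ) * (Real.log |d| : ℝ) * 2⁻¹ = (Real.log |d| : ℝ) by ring, ← Complex.ofReal_exp,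
    Real.exp_log (abs_pos.2 hd)]

lemma slit_real_mul {d : ℝ} (hd : d ≠ 0) {z : ℂ} :
    (d : ℂ) ^ 2 * z ∈ slitPlane ↔ z ∈ slitPlane := by
  have hd2 : (0 : ℝ) < d ^ 2 := by positivity
  rw [← Complex.ofReal_pow, Complex.mem_slitPlane_iff, Complex.mem_slitPlane_iff,
    Complex.re_ofReal_mul, Complex.im_ofReal_mul]
  simp [hd2, hd, mul_pos_iff_of_pos_left]

section real
variable {p q r s : ℝ}

lemma gram_change_slit (h : p * s - q * r ≠ 0) {a b : C3} :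
    gram ((p : ℂ) • a + (r : ℂ) • b) ((q : ℂ) • a + (s : ℂ) • b) ∈ slitPlane ↔
      gram a b ∈ slitPlane := by
  rw [gram_change, ← slit_real_mul (z := gram a b) h]
  push_cast
  rfl

lemma ar_change (h : p * s - q * r ≠ 0) (a b : C3) :
    ar ((p : ℂ) • a + (r : ℂ) • b) ((q : ℂ) • a + (s : ℂ) • b) =
      (|p * s - q * r| : ℝ) * ar a b := by
  unfold ar
  rw [gram_change, ← sqrt_real_mul h]
  push_cast
  rfl

lemma Lag_change (h : p * s - q * r ≠ 0) (X a b : C3) :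
    Lag X ((p : ℂ) • a + (r : ℂ) • b) ((q : ℂ) • a + (s : ℂ) • b) =
      (|p * s - q * r| : ℝ) * Lag X a b := by
  unfold Lag
  rw [ar_change h]; ring

lemma abs_sq_c (d : ℝ) : ((|d| : ℝ) : ℂ) ^ 2 = (d : ℂ) ^ 2 := by
  rw [← Complex.ofReal_pow, sq_abs, Complex.ofReal_pow]

lemma dLag_change (h : p * s - q * r ≠ 0) (X a b V V1 V2 : C3) :
    dLag X ((p : ℂ) • a + (r : ℂ) • b) ((q : ℂ) • a + (s : ℂ) • b) V
      ((p : ℂ) • V1 + (r : ℂ) • V2) ((q : ℂ) • V1 + (s : ℂ) • V2) =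
      (|p * s - q * r| : ℝ) * dLag X a b V V1 V2 := by
  have h1 : mm1 ((p : ℂ) • a + (r : ℂ) • b) ((q : ℂ) • a + (s : ℂ) • b) ⬝ᵥ
        ((p : ℂ) • V1 + (r : ℂ) • V2) +
      mm2 ((p : ℂ) • a + (r : ℂ) • b) ((q : ℂ) • a + (s : ℂ) • b) ⬝ᵥ
        ((q : ℂ) • V1 + (s : ℂ) • V2) =
      ((p * s - q * r : ℝ) : ℂ) ^ 2 * (mm1 a b ⬝ᵥ V1 + mm2 a b ⬝ᵥ V2) := by
    simp only [mm1, mm2, dot3, Pi.add_apply, Pi.sub_apply, Pi.smul_apply, smul_eq_mul]
    push_cast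
    ring
  have h2 : ((|p * s - q * r| : ℝ) : ℂ) ≠ 0 := ofReal_ne_zero.2 (abs_ne_zero.2 h)
  unfold dLag mom1 mom2
  rw [Lag_change h, ar_change h, add_assoc, ← mul_add, h1, ← abs_sq_c]
  by_cases h3 : ar a b = 0
  · simp [h3, Lag]
  field_simp
  ring

lemma EL_change (h : p * s - q * r ≠ 0) (X a b aa ab bb V : C3) (α1 β1 α2 β2 α3 β3 : ℂ) :
    EL X ((p : ℂ) • a + (r : ℂ) • b) ((q : ℂ) • a + (s : ℂ) • b)
      (((p : ℂ) * p) • aa + (2 * (p : ℂ) * r) • ab + ((r : ℂ) * r) • bb + (α1 • a + β1 • b))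
      (((p : ℂ) * q) • aa + ((p : ℂ) * s + q * r) • ab + ((r : ℂ) * s) • bb + (α2 • a + β2 • b))
      (((q : ℂ) * q) • aa + (2 * (q : ℂ) * s) • ab + ((s : ℂ) * s) • bb + (α3 • a + β3 • b)) V =
      (|p * s - q * r| : ℝ) * EL X a b aa ab bb V := by
  have h2 : ((|p * s - q * r| : ℝ) : ℂ) ≠ 0 := ofReal_ne_zero.2 (abs_ne_zero.2 h)
  have h4 := abs_sq_c (p * s - q * r)
  unfold EL
  rw [PP_change, ar_change h, cross_change, smul_dotProduct, smul_eq_mul]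
  by_cases h3 : ar a b = 0
  · simp [h3]
  push_cast at h4
  field_simp
  linear_combination ((PP X a b aa ab bb * (a ⨯₃ b ⬝ᵥ V)) * wt X *
    (((|p * s - q * r| : ℝ) : ℂ) ^ 2 + ((p : ℂ) * s - q * r) ^ 2)) * h4

end real

/-! ### Complex rotations -/

section rot
variable {R : Matrix (Fin 3) (Fin 3) ℂ}

lemma dot_rot (hR : Rᵀ * R = 1) (a b : C3) : (R *ᵥ a) ⬝ᵥ (R *ᵥ b) = a ⬝ᵥ b := by
  rw [Matrix.dotProduct_mulVec, ← Matrix.mulVec_transpose, Matrix.mulVec_mulVec, hR,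
    Matrix.one_mulVec]

lemma triple_mulVec (R : Matrix (Fin 3) (Fin 3) ℂ) (u a b : C3) :
    (R *ᵥ u) ⬝ᵥ (R *ᵥ a) ⨯₃ (R *ᵥ b) = R.det * (u ⬝ᵥ a ⨯₃ b) := by
  simp only [dot3, cross0, cross1, cross2, Matrix.det_fin_three, Matrix.mulVec]
  ring

lemma det_sq_rot (hR : Rᵀ * R = 1) : R.det ^ 2 = 1 := by
  have := congrArg Matrix.det hR
  rwa [Matrix.det_mul, Matrix.det_transpose, Matrix.det_one, ← sq] at this

lemma det_ne_rot (hR : Rᵀ * R = 1) : R.det ≠ 0 := by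
  intro h
  have := det_sq_rot hR
  rw [h] at this
  norm_num at this

lemma gram_rot (hR : Rᵀ * R = 1) (a b : C3) : gram (R *ᵥ a) (R *ᵥ b) = gram a b := by
  simp only [gram, dot_rot hR]

lemma wt_rot (hR : Rᵀ * R = 1) (X : C3) : wt (R *ᵥ X) = wt X := by
  simp only [wt, dot_rot hR]

lemma ar_rot (hR : Rᵀ * R = 1) (a b : C3) : ar (R *ᵥ a) (R *ᵥ b) = ar a b := by
  simp only [ar, gram_rot hR]

lemma Lag_rot (hR : Rᵀ * R = 1) (X a b : C3) : Lag (R *ᵥ X) (R *ᵥ a) (R *ᵥ b) = Lag X a b := by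
  simp only [Lag, wt_rot hR, ar_rot hR]

lemma mom1_rot (hR : Rᵀ * R = 1) (X a b V : C3) :
    mom1 (R *ᵥ X) (R *ᵥ a) (R *ᵥ b) (R *ᵥ V) = mom1 X a b V := by
  simp only [mom1, mm1, wt_rot hR, ar_rot hR, sub_dotProduct, smul_dotProduct, dot_rot hR]

lemma mom2_rot (hR : Rᵀ * R = 1) (X a b V : C3) :
    mom2 (R *ᵥ X) (R *ᵥ a) (R *ᵥ b) (R *ᵥ V) = mom2 X a b V := by
  simp only [mom2, mm2, wt_rot hR, ar_rot hR, sub_dotProduct, smul_dotProduct, dot_rot hR]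

lemma dLag_rot (hR : Rᵀ * R = 1) (X a b V V1 V2 : C3) :
    dLag (R *ᵥ X) (R *ᵥ a) (R *ᵥ b) (R *ᵥ V) (R *ᵥ V1) (R *ᵥ V2) = dLag X a b V V1 V2 := by
  simp only [dLag, Lag_rot hR, mom1_rot hR, mom2_rot hR, dot_rot hR]

lemma PP_rot (hR : Rᵀ * R = 1) (X a b aa ab bb : C3) :
    PP (R *ᵥ X) (R *ᵥ a) (R *ᵥ b) (R *ᵥ aa) (R *ᵥ ab) (R *ᵥ bb) = R.det * PP X a b aa ab bb := by
  simp only [PP, dot_rot hR, gram_rot hR, triple_mulVec]
  ring

lemma EL_rot (hR : Rᵀ * R = 1) (X a b aa ab bb V : C3) :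
    EL (R *ᵥ X) (R *ᵥ a) (R *ᵥ b) (R *ᵥ aa) (R *ᵥ ab) (R *ᵥ bb) (R *ᵥ V) =
      EL X a b aa ab bb V := by
  unfold EL
  rw [PP_rot hR, wt_rot hR, ar_rot hR, dotProduct_comm, triple_mulVec,
    dotProduct_comm V]
  linear_combination (-(wt X * PP X a b aa ab bb / ar a b ^ 3 * (a ⨯₃ b ⬝ᵥ V))) * det_sq_rot hR

end rot

end Vale.Agent.P218VA
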