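import Vale.Agent.P218VA.Reg
import Vale.Agent.P218VA.Inv
import Mathlib.Analysis.Calculus.FDeriv.Symmetric
import Mathlib.Analysis.Calculus.LineDeriv.IntegrationByParts
import Mathlib.Analysis.InnerProductSpace.PiL2
import Mathlib.Analysis.InnerProductSpace.Calculus

/-!
# The first variation formula for parametrised complex surfaces
-/

open scoped Matrix Topology
open Complex Filter Set MeasureTheory

noncomputable section

namespace Vale.Agent.P218VA

section pd
variable {D : Type*} [NormedAddCommGroup D] [NormedSpace ℝ D] {F : Type*} [NormedAddCommGroup F]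
  [NormedSpace ℝ F]

/-- the directional derivative -/
def pd (X : D → F) (v : D) (x : D) : F := fderiv ℝ X x v

variable {X : D → F} {x : D}

lemma hasDerivAt_pd (hX : DifferentiableAt ℝ X x) (v : D) :
    HasDerivAt (fun t : ℝ => X (x + t • v)) (pd X v x) 0 :=
  hX.hasFDerivAt.hasLineDerivAt v

lemma contDiffAt_pd {n m : WithTop ℕ∞} (hX : ContDiffAt ℝ n X x) (h : m + 1 ≤ n) (v : D) :
    ContDiffAt ℝ m (pd X v) x :=
  (hX.fderiv_right h).clm_apply contDiffAt_const

lemma contDiffAt_pd2 (hX : ContDiffAt ℝ 2 X x) (v : D) : ContDiffAt ℝ 1 (pd X v) x :=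
  contDiffAt_pd hX (by norm_num) v

lemma differentiableAt_pd (hX : ContDiffAt ℝ 2 X x) (v : D) : DifferentiableAt ℝ (pd X v) x :=
  (contDiffAt_pd2 hX v).differentiableAt one_ne_zero

lemma continuousAt_pd (hX : ContDiffAt ℝ 1 X x) (v : D) : ContinuousAt (pd X v) x :=
  (contDiffAt_pd (m := 0) hX (by norm_num) v).continuousAt

lemma pd_pd_eq (hX : ContDiffAt ℝ 2 X x) (v w : D) :
    pd (pd X v) w x = fderiv ℝ (fderiv ℝ X) x w v := by
  have h1 : DifferentiableAt ℝ (fderiv ℝ X) x :=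
    (hX.fderiv_right (m := 1) (by norm_num)).differentiableAt one_ne_zero
  unfold pd
  rw [fderiv_clm_apply h1 (differentiableAt_const v)]
  simp

lemma pd_comm (hX : ContDiffAt ℝ 2 X x) (v w : D) : pd (pd X v) w x = pd (pd X w) v x := by
  rw [pd_pd_eq hX, pd_pd_eq hX]
  exact (hX.isSymmSndFDerivAt (by simp)) w v

lemma pd_congr {X' : D → F} (h : X =ᶠ[𝓝 x] X') (v : D) : pd X v x = pd X' v x := by
  unfold pd; rw [h.fderiv_eq]

lemma pd_congr' {X' : D → F} (h : X =ᶠ[𝓝 x] X') (v : D) : pd X v =ᶠ[𝓝 x] pd X' v :=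
  h.eventuallyEq_nhds.mono fun _ hy => pd_congr hy v

lemma pd_of_eventually_zero (h : ∀ᶠ y in 𝓝 x, X y = 0) (v : D) : pd X v x = 0 := by
  have : X =ᶠ[𝓝 x] fun _ => 0 := h
  rw [pd_congr this]; simp [pd]

lemma pd_add {X' : D → F} (hX : DifferentiableAt ℝ X x) (hX' : DifferentiableAt ℝ X' x) (v : D) :
    pd (fun y => X y + X' y) v x = pd X v x + pd X' v x := by
  unfold pd; rw [fderiv_fun_add hX hX']; rfl

lemma pd_eq_of_hasDerivAt (hX : DifferentiableAt ℝ X x) {v : D} {f' : F}
    (h : HasDerivAt (fun t : ℝ => X (x + t • v)) f' 0) : pd X v x = f' :=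
  (hasDerivAt_pd hX v).unique h

lemma pd_csmul {c : D → ℂ} {V : D → C3} (hc : DifferentiableAt ℝ c x)
    (hV : DifferentiableAt ℝ V x) (v : D) :
    pd (fun y => c y • V y) v x = c x • pd V v x + pd c v x • V x := by
  refine pd_eq_of_hasDerivAt (hc.smul hV) ?_
  have := (hasDerivAt_pd hc v).smul (hasDerivAt_pd hV v)
  simp only [zero_smul, add_zero] at this
  exact this

lemma pd_sum {ι : Type*} {s : Finset ι} {V : ι → D → F}
    (hV : ∀ i ∈ s, DifferentiableAt ℝ (V i) x) (v : D) :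
    pd (fun y => ∑ i ∈ s, V i y) v x = ∑ i ∈ s, pd (V i) v x := by
  unfold pd; rw [fderiv_fun_sum hV]; simp

end pd

section F
variable {D : Type*} [NormedAddCommGroup D] [NormedSpace ℝ D] (d1 d2 : D)

/-- the Gram determinant of a parametrised surface -/
def gramF (X : D → C3) (x : D) : ℂ := gram (pd X d1 x) (pd X d2 x)

/-- the Lagrangian of a parametrised surface -/
def LagF (X : D → C3) (x : D) : ℂ := Lag (X x) (pd X d1 x) (pd X d2 x)

/-- the derivative of the Lagrangian in the direction of a vector field -/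
def dLagF (X V : D → C3) (x : D) : ℂ :=
  dLag (X x) (pd X d1 x) (pd X d2 x) (V x) (pd V d1 x) (pd V d2 x)

/-- the shrinker operator of a parametrised surface -/
def PPF (X : D → C3) (x : D) : ℂ :=
  PP (X x) (pd X d1 x) (pd X d2 x) (pd (pd X d1) d1 x) (pd (pd X d1) d2 x) (pd (pd X d2) d2 x)

/-- the Euler-Lagrange density of a parametrised surface paired with a vector -/
def ELF (X : D → C3) (x : D) (V : C3) : ℂ :=
  EL (X x) (pd X d1 x) (pd X d2 x) (pd (pd X d1) d1 x) (pd (pd X d1) d2 x) (pd (pd X d2) d2 x) V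

variable {d1 d2} {X V : D → C3} {x : D}

lemma gramF_congr {X' : D → C3} (h : X =ᶠ[𝓝 x] X') : gramF d1 d2 X x = gramF d1 d2 X' x := by
  unfold gramF; rw [pd_congr h, pd_congr h]

lemma LagF_congr {X' : D → C3} (h : X =ᶠ[𝓝 x] X') : LagF d1 d2 X x = LagF d1 d2 X' x := by
  unfold LagF; rw [pd_congr h, pd_congr h, h.self_of_nhds]

lemma dLagF_congr {X' V' : D → C3} (h : X =ᶠ[𝓝 x] X') (h' : V =ᶠ[𝓝 x] V') :
    dLagF d1 d2 X V x = dLagF d1 d2 X' V' x := by
  unfold dLagF
  rw [pd_congr h, pd_congr h, h.self_of_nhds, pd_congr h', pd_congr h', h'.self_of_nhds]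

lemma PPF_congr {X' : D → C3} (h : X =ᶠ[𝓝 x] X') : PPF d1 d2 X x = PPF d1 d2 X' x := by
  unfold PPF
  rw [pd_congr h, pd_congr h, h.self_of_nhds, pd_congr (pd_congr' h d1) d1,
    pd_congr (pd_congr' h d1) d2, pd_congr (pd_congr' h d2) d2]

lemma ELF_congr {X' : D → C3} (h : X =ᶠ[𝓝 x] X') (W : C3) :
    ELF d1 d2 X x W = ELF d1 d2 X' x W := by
  unfold ELF
  rw [pd_congr h, pd_congr h, h.self_of_nhds, pd_congr (pd_congr' h d1) d1,
    pd_congr (pd_congr' h d1) d2, pd_congr (pd_congr' h d2) d2]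

lemma dLagF_of_zero (h : ∀ᶠ y in 𝓝 x, V y = 0) : dLagF d1 d2 X V x = 0 := by
  unfold dLagF
  rw [pd_of_eventually_zero h, pd_of_eventually_zero h, h.self_of_nhds, dLag_zero]

variable {U : Set D}

lemma continuousOn_pd {F : Type*} [NormedAddCommGroup F] [NormedSpace ℝ F] {X : D → F}
    (hX : ∀ y ∈ U, ContDiffAt ℝ 1 X y) (v : D) : ContinuousOn (pd X v) U :=
  fun y hy => (continuousAt_pd (hX y hy) v).continuousWithinAt

lemma continuousOn_gramF (hX : ∀ y ∈ U, ContDiffAt ℝ 1 X y) : ContinuousOn (gramF d1 d2 X) U :=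
  continuousOn_gram (continuousOn_pd hX d1) (continuousOn_pd hX d2)

lemma continuousOn_LagF (hX : ∀ y ∈ U, ContDiffAt ℝ 1 X y)
    (hg : ∀ y ∈ U, gramF d1 d2 X y ∈ slitPlane) : ContinuousOn (LagF d1 d2 X) U :=
  continuousOn_Lag (fun y hy => (hX y hy).continuousAt.continuousWithinAt) (continuousOn_pd hX d1)
    (continuousOn_pd hX d2) hg

lemma continuousOn_dLagF (hX : ∀ y ∈ U, ContDiffAt ℝ 1 X y) (hV : ∀ y ∈ U, ContDiffAt ℝ 1 V y)
    (hg : ∀ y ∈ U, gramF d1 d2 X y ∈ slitPlane) : ContinuousOn (dLagF d1 d2 X V) U :=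
  continuousOn_dLag (fun y hy => (hX y hy).continuousAt.continuousWithinAt) (continuousOn_pd hX d1)
    (continuousOn_pd hX d2) (fun y hy => (hV y hy).continuousAt.continuousWithinAt)
    (continuousOn_pd hV d1) (continuousOn_pd hV d2) hg

lemma continuousOn_ELF (hX : ∀ y ∈ U, ContDiffAt ℝ 2 X y) (hV : ContinuousOn V U)
    (hg : ∀ y ∈ U, gramF d1 d2 X y ∈ slitPlane) :
    ContinuousOn (fun y => ELF d1 d2 X y (V y)) U := by
  have h1 : ∀ y ∈ U, ContDiffAt ℝ 1 X y := fun y hy => (hX y hy).of_le (by norm_num)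
  exact continuousOn_EL (fun y hy => (hX y hy).continuousAt.continuousWithinAt)
    (continuousOn_pd h1 d1) (continuousOn_pd h1 d2)
    (continuousOn_pd (fun y hy => contDiffAt_pd2 (hX y hy) d1) d1)
    (continuousOn_pd (fun y hy => contDiffAt_pd2 (hX y hy) d1) d2)
    (continuousOn_pd (fun y hy => contDiffAt_pd2 (hX y hy) d2) d2) hV hg

lemma continuous_of_support {Y G : Type*} [TopologicalSpace Y] [T2Space Y] [TopologicalSpace G]
    [Zero G] {f : Y → G} {U K : Set Y} (hU : IsOpen U) (hK : IsCompact K) (hKU : K ⊆ U)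
    (hf : ContinuousOn f U) (h0 : ∀ y, y ∉ K → f y = 0) : Continuous f := by
  rw [continuous_iff_continuousAt]
  intro y
  by_cases hy : y ∈ U
  · exact hf.continuousAt (hU.mem_nhds hy)
  · have : f =ᶠ[𝓝 y] fun _ => 0 := by
      filter_upwards [hK.isClosed.isOpen_compl.mem_nhds fun h => hy (hKU h)] with z hz
      exact h0 z hz
    exact continuousAt_const.congr this.symm

lemma integrable_of_support {Y G : Type*} [TopologicalSpace Y] [T2Space Y] [MeasurableSpace Y]
    [OpensMeasurableSpace Y] [NormedAddCommGroup G] {μ : Measure Y} [IsFiniteMeasureOnCompacts μ]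
    {f : Y → G} {U K : Set Y} (hU : IsOpen U) (hK : IsCompact K) (hKU : K ⊆ U)
    (hf : ContinuousOn f U) (h0 : ∀ y, y ∉ K → f y = 0) : Integrable f μ :=
  (continuous_of_support hU hK hKU hf h0).integrable_of_hasCompactSupport
    (HasCompactSupport.intro hK h0)

variable [FiniteDimensional ℝ D] [MeasurableSpace D] [BorelSpace D] {μ : Measure D}
  [μ.IsAddHaarMeasure]

lemma integral_lineDeriv_zero {f f' : D → ℂ} {v : D} (hf : Integrable f μ) (hf' : Integrable f' μ)
    (h : ∀ x, HasLineDerivAt ℝ f (f' x) x v) : ∫ x, f' x ∂μ = 0 := by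
  have := integral_bilinear_hasLineDerivAt_right_eq_neg_left_of_integrable (μ := μ)
    (f := fun _ => (1 : ℂ)) (f' := fun _ => (0 : ℂ)) (g := f) (g' := f') (v := v)
    (B := ContinuousLinearMap.mul ℝ ℂ) (by simp) (by simpa using hf') (by simpa using hf)
    (fun x _ => hasDerivAt_const _ _) (fun x _ => h x)
  simpa using this

/-- The first variation formula for compactly supported vector fields. -/
theorem integral_dLagF {K : Set D} (hU : IsOpen U) (hK : IsCompact K) (hKU : K ⊆ U)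
    (hX : ∀ y ∈ U, ContDiffAt ℝ 2 X y) (hV : ∀ y ∈ U, ContDiffAt ℝ 1 V y)
    (hg : ∀ y ∈ U, gramF d1 d2 X y ∈ slitPlane) (h0 : ∀ y, y ∉ K → V y = 0) :
    ∫ y, dLagF d1 d2 X V y ∂μ = ∫ y, ELF d1 d2 X y (V y) ∂μ := by
  have h1 : ∀ y ∈ U, ContDiffAt ℝ 1 X y := fun y hy => (hX y hy).of_le (by norm_num)
  have hev : ∀ y, y ∉ K → ∀ᶠ z in 𝓝 y, V z = 0 := fun y hy => by
    filter_upwards [hK.isClosed.isOpen_compl.mem_nhds hy] with z hz using h0 z hz
  have cX : ContinuousOn X U := fun y hy => (hX y hy).continuousAt.continuousWithinAt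
  have cV : ContinuousOn V U := fun y hy => (hV y hy).continuousAt.continuousWithinAt
  have c1 := continuousOn_pd h1 d1
  have c2 := continuousOn_pd h1 d2
  have c11 := continuousOn_pd (fun y hy => contDiffAt_pd2 (hX y hy) d1) d1
  have c12 := continuousOn_pd (fun y hy => contDiffAt_pd2 (hX y hy) d1) d2
  have c22 := continuousOn_pd (fun y hy => contDiffAt_pd2 (hX y hy) d2) d2
  set m1 : D → ℂ := fun y => mom1 (X y) (pd X d1 y) (pd X d2 y) (V y) with hm1
  set m2 : D → ℂ := fun y => mom2 (X y) (pd X d1 y) (pd X d2 y) (V y) with hm2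
  set n1 : D → ℂ := fun y => dmom1 (X y) (pd X d1 y) (pd X d2 y) (V y) (pd X d1 y)
    (pd (pd X d1) d1 y) (pd (pd X d1) d2 y) (pd V d1 y) with hn1
  set n2 : D → ℂ := fun y => dmom2 (X y) (pd X d1 y) (pd X d2 y) (V y) (pd X d2 y)
    (pd (pd X d1) d2 y) (pd (pd X d2) d2 y) (pd V d2 y) with hn2
  have z1 : ∀ y, y ∉ K → n1 y = 0 := fun y hy => by
    simp [hn1, dmom1, h0 y hy, pd_of_eventually_zero (hev y hy)]
  have z2 : ∀ y, y ∉ K → n2 y = 0 := fun y hy => by
    simp [hn2, dmom2, h0 y hy, pd_of_eventually_zero (hev y hy)]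
  have i1 : Integrable n1 μ := integrable_of_support hU hK hKU
    (continuousOn_dmom1 cX c1 c2 cV c1 c11 c12 (continuousOn_pd hV d1) hg) z1
  have i2 : Integrable n2 μ := integrable_of_support hU hK hKU
    (continuousOn_dmom2 cX c1 c2 cV c2 c12 c22 (continuousOn_pd hV d2) hg) z2
  have j1 : Integrable m1 μ := integrable_of_support hU hK hKU
    (continuousOn_mom1 cX c1 c2 cV hg) fun y hy => by simp [hm1, h0 y hy]
  have j2 : Integrable m2 μ := integrable_of_support hU hK hKU
    (continuousOn_mom2 cX c1 c2 cV hg) fun y hy => by simp [hm2, h0 y hy]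
  have i3 : Integrable (fun y => ELF d1 d2 X y (V y)) μ := integrable_of_support hU hK hKU
    (continuousOn_ELF hX cV hg) fun y hy => by simp [ELF, h0 y hy]
  have k1 : ∀ y, HasLineDerivAt ℝ m1 (n1 y) y d1 := fun y => by
    by_cases hy : y ∈ U
    · have := hasDerivAt_mom1 (hasDerivAt_pd ((h1 y hy).differentiableAt one_ne_zero) d1)
        (hasDerivAt_pd (differentiableAt_pd (hX y hy) d1) d1)
        (hasDerivAt_pd (differentiableAt_pd (hX y hy) d2) d1)
        (hasDerivAt_pd ((hV y hy).differentiableAt one_ne_zero) d1) (by simpa [gramF] using hg y hy)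
      simp only [zero_smul, add_zero] at this
      rw [pd_comm (hX y hy) d2 d1] at this
      exact this
    · have hy' : y ∉ K := fun h => hy (hKU h)
      rw [z1 y hy']
      refine HasLineDerivAt.congr_of_eventuallyEq (f := fun _ => (0 : ℂ))
        (hasDerivAt_const _ _) ?_
      filter_upwards [hev y hy'] with z hz
      simp [hm1, hz]
  have k2 : ∀ y, HasLineDerivAt ℝ m2 (n2 y) y d2 := fun y => by
    by_cases hy : y ∈ U
    · have := hasDerivAt_mom2 (hasDerivAt_pd ((h1 y hy).differentiableAt one_ne_zero) d2)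
        (hasDerivAt_pd (differentiableAt_pd (hX y hy) d1) d2)
        (hasDerivAt_pd (differentiableAt_pd (hX y hy) d2) d2)
        (hasDerivAt_pd ((hV y hy).differentiableAt one_ne_zero) d2) (by simpa [gramF] using hg y hy)
      simp only [zero_smul, add_zero] at this
      exact this
    · have hy' : y ∉ K := fun h => hy (hKU h)
      rw [z2 y hy']
      refine HasLineDerivAt.congr_of_eventuallyEq (f := fun _ => (0 : ℂ))
        (hasDerivAt_const _ _) ?_
      filter_upwards [hev y hy'] with z hz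
      simp [hm2, hz]
  have e : ∀ y, dLagF d1 d2 X V y = ELF d1 d2 X y (V y) + n1 y + n2 y := fun y => by
    by_cases hy : y ∈ U
    · exact dLag_eq _ _ _ _ _ _ (slitPlane_ne_zero (hg y hy))
    · have hy' : y ∉ K := fun h => hy (hKU h)
      rw [z1 y hy', z2 y hy', dLagF_of_zero (hev y hy')]
      simp [ELF, h0 y hy']
  simp only [e]
  have i4 : Integrable (fun y => ELF d1 d2 X y (V y) + n1 y) μ := i3.add i1
  rw [integral_add i4 i2, integral_add i3 i1, integral_lineDeriv_zero j1 i1 k1,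
    integral_lineDeriv_zero j2 i2 k2]
  simp

end F

end Vale.Agent.P218VA
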