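import Vale.Agent.P218VA.Alg
import Mathlib.Analysis.Calculus.ContDiff.Operations
import Mathlib.Analysis.SpecialFunctions.Pow.Deriv
import Mathlib.Analysis.Complex.CauchyIntegral

/-!
# Continuity and smoothness of the jet functions
-/

open scoped Matrix
open Complex

noncomputable section

namespace Vale.Agent.P218VA

section cont
variable {Y : Type*} [TopologicalSpace Y] {s : Set Y} {X a b aa ab bb V V1 V2 X' a' b' V' : Y → C3}

lemma continuousOn_dot (ha : ContinuousOn a s) (hb : ContinuousOn b s) :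
    ContinuousOn (fun y => a y ⬝ᵥ b y) s := by
  have h1 := continuousOn_pi.1 ha
  have h2 := continuousOn_pi.1 hb
  simp only [dot3]
  exact (((h1 0).mul (h2 0)).add ((h1 1).mul (h2 1))).add ((h1 2).mul (h2 2))

lemma continuousOn_cross (ha : ContinuousOn a s) (hb : ContinuousOn b s) :
    ContinuousOn (fun y => a y ⨯₃ b y) s := by
  have h1 := continuousOn_pi.1 ha
  have h2 := continuousOn_pi.1 hb
  refine continuousOn_pi.2 fun i => ?_
  fin_cases i
  · simp only [Fin.zero_eta, cross0]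
    exact ((h1 1).mul (h2 2)).sub ((h1 2).mul (h2 1))
  · simp only [Fin.mk_one, cross1]
    exact ((h1 2).mul (h2 0)).sub ((h1 0).mul (h2 2))
  · simp only [Fin.reduceFinMk, cross2]
    exact ((h1 0).mul (h2 1)).sub ((h1 1).mul (h2 0))

lemma continuousOn_gram (ha : ContinuousOn a s) (hb : ContinuousOn b s) :
    ContinuousOn (fun y => gram (a y) (b y)) s :=
  ((continuousOn_dot ha ha).mul (continuousOn_dot hb hb)).sub ((continuousOn_dot ha hb).pow 2)

lemma continuousOn_wt (hX : ContinuousOn X s) : ContinuousOn (fun y => wt (X y)) s :=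
  ((continuousOn_dot hX hX).neg.div_const 4).cexp

lemma continuousOn_ar (ha : ContinuousOn a s) (hb : ContinuousOn b s)
    (h : ∀ y ∈ s, gram (a y) (b y) ∈ slitPlane) : ContinuousOn (fun y => ar (a y) (b y)) s :=
  Complex.continuousOn_sqrt.comp (continuousOn_gram ha hb) h

lemma continuousOn_Lag (hX : ContinuousOn X s) (ha : ContinuousOn a s) (hb : ContinuousOn b s)
    (h : ∀ y ∈ s, gram (a y) (b y) ∈ slitPlane) :
    ContinuousOn (fun y => Lag (X y) (a y) (b y)) s :=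
  (continuousOn_wt hX).mul (continuousOn_ar ha hb h)

lemma continuousOn_mm1 (ha : ContinuousOn a s) (hb : ContinuousOn b s) :
    ContinuousOn (fun y => mm1 (a y) (b y)) s :=
  ((continuousOn_dot hb hb).smul ha).sub ((continuousOn_dot ha hb).smul hb)

lemma continuousOn_mm2 (ha : ContinuousOn a s) (hb : ContinuousOn b s) :
    ContinuousOn (fun y => mm2 (a y) (b y)) s :=
  ((continuousOn_dot ha ha).smul hb).sub ((continuousOn_dot ha hb).smul ha)

lemma continuousOn_wt_div (hX : ContinuousOn X s) (ha : ContinuousOn a s) (hb : ContinuousOn b s)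
    (h : ∀ y ∈ s, gram (a y) (b y) ∈ slitPlane) :
    ContinuousOn (fun y => wt (X y) / ar (a y) (b y)) s :=
  (continuousOn_wt hX).div (continuousOn_ar ha hb h) fun y hy => ar_ne' (h y hy)

lemma continuousOn_mom1 (hX : ContinuousOn X s) (ha : ContinuousOn a s) (hb : ContinuousOn b s)
    (hV : ContinuousOn V s) (h : ∀ y ∈ s, gram (a y) (b y) ∈ slitPlane) :
    ContinuousOn (fun y => mom1 (X y) (a y) (b y) (V y)) s :=
  (continuousOn_wt_div hX ha hb h).mul (continuousOn_dot (continuousOn_mm1 ha hb) hV)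

lemma continuousOn_mom2 (hX : ContinuousOn X s) (ha : ContinuousOn a s) (hb : ContinuousOn b s)
    (hV : ContinuousOn V s) (h : ∀ y ∈ s, gram (a y) (b y) ∈ slitPlane) :
    ContinuousOn (fun y => mom2 (X y) (a y) (b y) (V y)) s :=
  (continuousOn_wt_div hX ha hb h).mul (continuousOn_dot (continuousOn_mm2 ha hb) hV)

lemma continuousOn_dLag (hX : ContinuousOn X s) (ha : ContinuousOn a s) (hb : ContinuousOn b s)
    (hV : ContinuousOn V s) (hV1 : ContinuousOn V1 s) (hV2 : ContinuousOn V2 s)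
    (h : ∀ y ∈ s, gram (a y) (b y) ∈ slitPlane) :
    ContinuousOn (fun y => dLag (X y) (a y) (b y) (V y) (V1 y) (V2 y)) s :=
  ((((continuousOn_dot hX hV).neg.div_const 2).mul (continuousOn_Lag hX ha hb h)).add
    (continuousOn_mom1 hX ha hb hV1 h)).add (continuousOn_mom2 hX ha hb hV2 h)

lemma continuousOn_PP (hX : ContinuousOn X s) (ha : ContinuousOn a s) (hb : ContinuousOn b s)
    (haa : ContinuousOn aa s) (hab : ContinuousOn ab s) (hbb : ContinuousOn bb s) :
    ContinuousOn (fun y => PP (X y) (a y) (b y) (aa y) (ab y) (bb y)) s := by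
  have hn := continuousOn_cross ha hb
  exact ((((continuousOn_dot hb hb).mul (continuousOn_dot haa hn)).sub
    ((continuousOn_const.mul (continuousOn_dot ha hb)).mul (continuousOn_dot hab hn))).add
    ((continuousOn_dot ha ha).mul (continuousOn_dot hbb hn))).add
    (((continuousOn_gram ha hb).mul (continuousOn_dot hX hn)).div_const 2)

lemma continuousOn_EL (hX : ContinuousOn X s) (ha : ContinuousOn a s) (hb : ContinuousOn b s)
    (haa : ContinuousOn aa s) (hab : ContinuousOn ab s) (hbb : ContinuousOn bb s)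
    (hV : ContinuousOn V s) (h : ∀ y ∈ s, gram (a y) (b y) ∈ slitPlane) :
    ContinuousOn (fun y => EL (X y) (a y) (b y) (aa y) (ab y) (bb y) (V y)) s :=
  ((((continuousOn_wt hX).mul (continuousOn_PP hX ha hb haa hab hbb)).div
    ((continuousOn_ar ha hb h).pow 3) fun y hy => pow_ne_zero 3 (ar_ne' (h y hy))).mul
    (continuousOn_dot (continuousOn_cross ha hb) hV)).neg

lemma continuousOn_dwt (hX : ContinuousOn X s) (ha : ContinuousOn a s) (hb : ContinuousOn b s)
    (hX' : ContinuousOn X' s) (ha' : ContinuousOn a' s) (hb' : ContinuousOn b' s)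
    (h : ∀ y ∈ s, gram (a y) (b y) ∈ slitPlane) :
    ContinuousOn (fun y => -(X y ⬝ᵥ X' y) / 2 * wt (X y) / ar (a y) (b y) -
      wt (X y) * (mm1 (a y) (b y) ⬝ᵥ a' y + mm2 (a y) (b y) ⬝ᵥ b' y) / ar (a y) (b y) ^ 3) s :=
  ((((continuousOn_dot hX hX').neg.div_const 2).mul (continuousOn_wt hX)).div
    (continuousOn_ar ha hb h) fun y hy => ar_ne' (h y hy)).sub
    (((continuousOn_wt hX).mul ((continuousOn_dot (continuousOn_mm1 ha hb) ha').add
      (continuousOn_dot (continuousOn_mm2 ha hb) hb'))).div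
      ((continuousOn_ar ha hb h).pow 3) fun y hy => pow_ne_zero 3 (ar_ne' (h y hy)))

lemma continuousOn_dmom1 (hX : ContinuousOn X s) (ha : ContinuousOn a s) (hb : ContinuousOn b s)
    (hV : ContinuousOn V s) (hX' : ContinuousOn X' s) (ha' : ContinuousOn a' s)
    (hb' : ContinuousOn b' s) (hV' : ContinuousOn V' s)
    (h : ∀ y ∈ s, gram (a y) (b y) ∈ slitPlane) :
    ContinuousOn (fun y => dmom1 (X y) (a y) (b y) (V y) (X' y) (a' y) (b' y) (V' y)) s :=
  ((continuousOn_dwt hX ha hb hX' ha' hb' h).mul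
    (continuousOn_dot (continuousOn_mm1 ha hb) hV)).add ((continuousOn_wt_div hX ha hb h).mul
    ((continuousOn_dot ((((continuousOn_dot hb hb).smul ha').add
      ((continuousOn_const.mul (continuousOn_dot hb hb')).smul ha)).sub
      (((continuousOn_dot ha hb).smul hb').add
        (((continuousOn_dot ha' hb).add (continuousOn_dot ha hb')).smul hb))) hV).add
      (continuousOn_dot (continuousOn_mm1 ha hb) hV')))

lemma continuousOn_dmom2 (hX : ContinuousOn X s) (ha : ContinuousOn a s) (hb : ContinuousOn b s)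
    (hV : ContinuousOn V s) (hX' : ContinuousOn X' s) (ha' : ContinuousOn a' s)
    (hb' : ContinuousOn b' s) (hV' : ContinuousOn V' s)
    (h : ∀ y ∈ s, gram (a y) (b y) ∈ slitPlane) :
    ContinuousOn (fun y => dmom2 (X y) (a y) (b y) (V y) (X' y) (a' y) (b' y) (V' y)) s :=
  ((continuousOn_dwt hX ha hb hX' ha' hb' h).mul
    (continuousOn_dot (continuousOn_mm2 ha hb) hV)).add ((continuousOn_wt_div hX ha hb h).mul
    ((continuousOn_dot ((((continuousOn_dot ha ha).smul hb').add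
      ((continuousOn_const.mul (continuousOn_dot ha ha')).smul hb)).sub
      (((continuousOn_dot ha hb).smul ha').add
        (((continuousOn_dot ha' hb).add (continuousOn_dot ha hb')).smul ha))) hV).add
      (continuousOn_dot (continuousOn_mm2 ha hb) hV')))

end cont

section smooth
variable {𝕜 : Type*} [NontriviallyNormedField 𝕜] [NormedAlgebra 𝕜 ℂ] {H : Type*}
  [NormedAddCommGroup H] [NormedSpace 𝕜 H] {n : WithTop ℕ∞} {x : H}
  {X a b aa ab bb V V1 V2 : H → C3}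

lemma contDiffAt_dot (ha : ContDiffAt 𝕜 n a x) (hb : ContDiffAt 𝕜 n b x) :
    ContDiffAt 𝕜 n (fun y => a y ⬝ᵥ b y) x := by
  have h1 := contDiffAt_pi.1 ha
  have h2 := contDiffAt_pi.1 hb
  simp only [dot3]
  exact (((h1 0).mul (h2 0)).add ((h1 1).mul (h2 1))).add ((h1 2).mul (h2 2))

lemma contDiffAt_cross (ha : ContDiffAt 𝕜 n a x) (hb : ContDiffAt 𝕜 n b x) :
    ContDiffAt 𝕜 n (fun y => a y ⨯₃ b y) x := by
  have h1 := contDiffAt_pi.1 ha
  have h2 := contDiffAt_pi.1 hb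
  refine contDiffAt_pi.2 fun i => ?_
  fin_cases i
  · simp only [Fin.zero_eta, cross0]
    exact ((h1 1).mul (h2 2)).sub ((h1 2).mul (h2 1))
  · simp only [Fin.mk_one, cross1]
    exact ((h1 2).mul (h2 0)).sub ((h1 0).mul (h2 2))
  · simp only [Fin.reduceFinMk, cross2]
    exact ((h1 0).mul (h2 1)).sub ((h1 1).mul (h2 0))

lemma contDiffAt_gram (ha : ContDiffAt 𝕜 n a x) (hb : ContDiffAt 𝕜 n b x) :
    ContDiffAt 𝕜 n (fun y => gram (a y) (b y)) x :=
  ((contDiffAt_dot ha ha).mul (contDiffAt_dot hb hb)).sub ((contDiffAt_dot ha hb).pow 2)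

lemma contDiffAt_wt (hX : ContDiffAt 𝕜 n X x) : ContDiffAt 𝕜 n (fun y => wt (X y)) x :=
  ((contDiffAt_dot hX hX).neg.div_const 4).cexp

lemma contDiffAt_sqrt' {z : ℂ} (hz : z ∈ slitPlane) : ContDiffAt 𝕜 n Complex.sqrt z :=
  ((Complex.differentiableOn_sqrt.analyticAt
    (isOpen_slitPlane.mem_nhds hz)).contDiffAt (n := n)).restrict_scalars 𝕜

lemma contDiffAt_ar (ha : ContDiffAt 𝕜 n a x) (hb : ContDiffAt 𝕜 n b x)
    (h : gram (a x) (b x) ∈ slitPlane) : ContDiffAt 𝕜 n (fun y => ar (a y) (b y)) x :=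
  (contDiffAt_sqrt' h).comp x (contDiffAt_gram ha hb)

lemma contDiffAt_Lag (hX : ContDiffAt 𝕜 n X x) (ha : ContDiffAt 𝕜 n a x)
    (hb : ContDiffAt 𝕜 n b x) (h : gram (a x) (b x) ∈ slitPlane) :
    ContDiffAt 𝕜 n (fun y => Lag (X y) (a y) (b y)) x :=
  (contDiffAt_wt hX).mul (contDiffAt_ar ha hb h)

lemma contDiffAt_csmul {c : H → ℂ} (hc : ContDiffAt 𝕜 n c x) (ha : ContDiffAt 𝕜 n a x) :
    ContDiffAt 𝕜 n (fun y => c y • a y) x :=
  contDiffAt_pi.2 fun i => hc.mul (contDiffAt_pi.1 ha i)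

lemma contDiffAt_cinv {c : H → ℂ} (hc : ContDiffAt 𝕜 n c x) (h : c x ≠ 0) :
    ContDiffAt 𝕜 n (fun y => (c y)⁻¹) x :=
  ((contDiffAt_inv ℂ h (n := n)).restrict_scalars 𝕜).comp x hc

lemma contDiffAt_cdiv {c d : H → ℂ} (hc : ContDiffAt 𝕜 n c x) (hd : ContDiffAt 𝕜 n d x)
    (h : d x ≠ 0) : ContDiffAt 𝕜 n (fun y => c y / d y) x := by
  simp only [div_eq_mul_inv]
  exact hc.mul (contDiffAt_cinv hd h)

lemma contDiffAt_mm1 (ha : ContDiffAt 𝕜 n a x) (hb : ContDiffAt 𝕜 n b x) :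
    ContDiffAt 𝕜 n (fun y => mm1 (a y) (b y)) x :=
  (contDiffAt_csmul (contDiffAt_dot hb hb) ha).sub (contDiffAt_csmul (contDiffAt_dot ha hb) hb)

lemma contDiffAt_mm2 (ha : ContDiffAt 𝕜 n a x) (hb : ContDiffAt 𝕜 n b x) :
    ContDiffAt 𝕜 n (fun y => mm2 (a y) (b y)) x :=
  (contDiffAt_csmul (contDiffAt_dot ha ha) hb).sub (contDiffAt_csmul (contDiffAt_dot ha hb) ha)

lemma contDiffAt_mom1 (hX : ContDiffAt 𝕜 n X x) (ha : ContDiffAt 𝕜 n a x)
    (hb : ContDiffAt 𝕜 n b x) (hV : ContDiffAt 𝕜 n V x) (h : gram (a x) (b x) ∈ slitPlane) :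
    ContDiffAt 𝕜 n (fun y => mom1 (X y) (a y) (b y) (V y)) x :=
  (contDiffAt_cdiv (contDiffAt_wt hX) (contDiffAt_ar ha hb h) (ar_ne' h)).mul
    (contDiffAt_dot (contDiffAt_mm1 ha hb) hV)

lemma contDiffAt_mom2 (hX : ContDiffAt 𝕜 n X x) (ha : ContDiffAt 𝕜 n a x)
    (hb : ContDiffAt 𝕜 n b x) (hV : ContDiffAt 𝕜 n V x) (h : gram (a x) (b x) ∈ slitPlane) :
    ContDiffAt 𝕜 n (fun y => mom2 (X y) (a y) (b y) (V y)) x :=
  (contDiffAt_cdiv (contDiffAt_wt hX) (contDiffAt_ar ha hb h) (ar_ne' h)).mul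
    (contDiffAt_dot (contDiffAt_mm2 ha hb) hV)

lemma contDiffAt_dLag (hX : ContDiffAt 𝕜 n X x) (ha : ContDiffAt 𝕜 n a x)
    (hb : ContDiffAt 𝕜 n b x) (hV : ContDiffAt 𝕜 n V x) (hV1 : ContDiffAt 𝕜 n V1 x)
    (hV2 : ContDiffAt 𝕜 n V2 x) (h : gram (a x) (b x) ∈ slitPlane) :
    ContDiffAt 𝕜 n (fun y => dLag (X y) (a y) (b y) (V y) (V1 y) (V2 y)) x :=
  ((((contDiffAt_dot hX hV).neg.div_const 2).mul (contDiffAt_Lag hX ha hb h)).add
    (contDiffAt_mom1 hX ha hb hV1 h)).add (contDiffAt_mom2 hX ha hb hV2 h)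

lemma contDiffAt_PP (hX : ContDiffAt 𝕜 n X x) (ha : ContDiffAt 𝕜 n a x)
    (hb : ContDiffAt 𝕜 n b x) (haa : ContDiffAt 𝕜 n aa x) (hab : ContDiffAt 𝕜 n ab x)
    (hbb : ContDiffAt 𝕜 n bb x) :
    ContDiffAt 𝕜 n (fun y => PP (X y) (a y) (b y) (aa y) (ab y) (bb y)) x := by
  have hn := contDiffAt_cross ha hb
  exact ((((contDiffAt_dot hb hb).mul (contDiffAt_dot haa hn)).sub
    ((contDiffAt_const.mul (contDiffAt_dot ha hb)).mul (contDiffAt_dot hab hn))).add
    ((contDiffAt_dot ha ha).mul (contDiffAt_dot hbb hn))).add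
    (((contDiffAt_gram ha hb).mul (contDiffAt_dot hX hn)).div_const 2)

lemma contDiffAt_EL (hX : ContDiffAt 𝕜 n X x) (ha : ContDiffAt 𝕜 n a x)
    (hb : ContDiffAt 𝕜 n b x) (haa : ContDiffAt 𝕜 n aa x) (hab : ContDiffAt 𝕜 n ab x)
    (hbb : ContDiffAt 𝕜 n bb x) (hV : ContDiffAt 𝕜 n V x) (h : gram (a x) (b x) ∈ slitPlane) :
    ContDiffAt 𝕜 n (fun y => EL (X y) (a y) (b y) (aa y) (ab y) (bb y) (V y)) x :=
  ((contDiffAt_cdiv ((contDiffAt_wt hX).mul (contDiffAt_PP hX ha hb haa hab hbb))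
    ((contDiffAt_ar ha hb h).pow 3) (pow_ne_zero 3 (ar_ne' h))).mul
    (contDiffAt_dot (contDiffAt_cross ha hb) hV)).neg

end smooth

end Vale.Agent.P218VA
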