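import Vale.Agent.P218VA.Int
import Mathlib.Analysis.Calculus.ContDiff.RCLike

/-!
# Uniform first order expansions of the Lagrangian
-/

open scoped Matrix Topology Real ContDiff
open Complex Filter Set MeasureTheory Metric Asymptotics
open Vale.Agent.P272.K.LIN

noncomputable section

set_option linter.unusedSectionVars false

namespace Vale.Agent.P218VA

lemma uniform_taylor {𝕜 : Type*} [RCLike 𝕜] {H G : Type*} [NormedAddCommGroup H]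
    [NormedSpace 𝕜 H] [NormedAddCommGroup G] [NormedSpace 𝕜 G] {f : H → G} {K : Set H}
    (hK : IsCompact K) (hf : ∀ x ∈ K, ContDiffAt 𝕜 1 f x) {ε : ℝ} (hε : 0 < ε) :
    ∃ δ > 0, ∀ x ∈ K, ∀ y, ‖y - x‖ ≤ δ → ‖f y - f x - fderiv 𝕜 f x (y - x)‖ ≤ ε * ‖y - x‖ := by
  have h : ∀ x : K, ∃ U : Set H, IsOpen U ∧ (x : H) ∈ U ∧ ∀ y ∈ U, ∀ z ∈ U,
      ‖f y - f z - fderiv 𝕜 f z (y - z)‖ ≤ ε * ‖y - z‖ := by
    rintro ⟨x, hx⟩
    have h1 := ((hf x hx).hasStrictFDerivAt one_ne_zero).isLittleO.def (half_pos hε)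
    have h2 : ∀ᶠ z in 𝓝 x, ‖fderiv 𝕜 f z - fderiv 𝕜 f x‖ ≤ ε / 2 := by
      have := ((hf x hx).fderiv_right (m := 0) (by norm_num)).continuousAt
      filter_upwards [Metric.tendsto_nhds.1 this _ (half_pos hε)] with z hz
      rw [dist_eq_norm] at hz
      exact hz.le
    rw [nhds_prod_eq] at h1
    obtain ⟨t, ht, h3⟩ := (eventually_prod_self_iff (r := fun y z =>
      ‖f y - f z - fderiv 𝕜 f x (y - z)‖ ≤ ε / 2 * ‖y - z‖)).1 h1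
    obtain ⟨U, hU, hUo, hxU⟩ := _root_.mem_nhds_iff.1 (inter_mem ht h2)
    refine ⟨U, hUo, hxU, fun y hy z hz => ?_⟩
    have h4 := h3 y (hU hy).1 z (hU hz).1
    have h5 : ‖(fderiv 𝕜 f z - fderiv 𝕜 f x) (y - z)‖ ≤ ε / 2 * ‖y - z‖ :=
      (ContinuousLinearMap.le_opNorm _ _).trans
        (mul_le_mul_of_nonneg_right (hU hz).2 (norm_nonneg _))
    calc ‖f y - f z - fderiv 𝕜 f z (y - z)‖
        = ‖(f y - f z - fderiv 𝕜 f x (y - z)) - (fderiv 𝕜 f z - fderiv 𝕜 f x) (y - z)‖ := by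
          rw [sub_apply]; congr 1; abel
      _ ≤ ε / 2 * ‖y - z‖ + ε / 2 * ‖y - z‖ := (norm_sub_le _ _).trans (add_le_add h4 h5)
      _ = ε * ‖y - z‖ := by ring
  choose U hUo hxU hU using h
  obtain ⟨δ, hδ, h⟩ := lebesgue_number_lemma_of_metric hK hUo
    fun x hx => mem_iUnion.2 ⟨⟨x, hx⟩, hxU _⟩
  refine ⟨δ / 2, half_pos hδ, fun x hx y hy => ?_⟩
  obtain ⟨i, hi⟩ := h x hx
  refine hU i y (hi ?_) x (hi (mem_ball_self hδ))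
  rw [mem_ball, dist_eq_norm]
  linarith

/-- the Lagrangian on the space of one-jets -/
def Lg (j : C3 × C3 × C3) : ℂ := Lag j.1 j.2.1 j.2.2

lemma contDiffAt_Lg {n : WithTop ℕ∞} {j : C3 × C3 × C3} (h : gram j.2.1 j.2.2 ∈ slitPlane) :
    ContDiffAt ℂ n Lg j :=
  contDiffAt_Lag contDiffAt_fst contDiffAt_snd.fst contDiffAt_snd.snd h

lemma fderiv_Lg {j : C3 × C3 × C3} (h : gram j.2.1 j.2.2 ∈ slitPlane) (v : C3 × C3 × C3) :
    fderiv ℂ Lg j v = dLag j.1 j.2.1 j.2.2 v.1 v.2.1 v.2.2 := by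
  have h1 : HasDerivAt (fun t : ℂ => Lg (j + t • v)) (fderiv ℂ Lg j v) 0 :=
    ((contDiffAt_Lg (n := 1) h).differentiableAt one_ne_zero).hasFDerivAt.hasLineDerivAt v
  have k : ∀ a b : C3, HasDerivAt (fun t : ℂ => a + t • b) b 0 := fun a b => by
    simpa using ((hasDerivAt_id (0 : ℂ)).smul_const b).const_add a
  have h2 := hasDerivAt_Lag (k j.1 v.1) (k j.2.1 v.2.1) (k j.2.2 v.2.2) (by simpa using h)
  simp only [zero_smul, add_zero] at h2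
  exact h1.unique h2

/-- uniform first order expansion of the Lagrangian along a compact family of jets -/
lemma Lag_taylor {Y : Type*} [TopologicalSpace Y] {K : Set Y} (hK : IsCompact K) {X a b : Y → C3}
    (hX : ContinuousOn X K) (ha : ContinuousOn a K) (hb : ContinuousOn b K)
    (hg : ∀ y ∈ K, gram (a y) (b y) ∈ slitPlane) {ε : ℝ} (hε : 0 < ε) :
    ∃ δ0 > 0, ∀ y ∈ K, ∀ X' a' b' : C3, ∀ δ ≤ δ0, ‖X' - X y‖ ≤ δ → ‖a' - a y‖ ≤ δ →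
      ‖b' - b y‖ ≤ δ → ‖Lag X' a' b' - Lag (X y) (a y) (b y) -
        dLag (X y) (a y) (b y) (X' - X y) (a' - a y) (b' - b y)‖ ≤ ε * δ := by
  have hc : IsCompact ((fun y => ((X y, a y, b y) : C3 × C3 × C3)) '' K) :=
    hK.image_of_continuousOn (hX.prodMk (ha.prodMk hb))
  have hd : ∀ j ∈ (fun y => ((X y, a y, b y) : C3 × C3 × C3)) '' K, ContDiffAt ℂ 1 Lg j := by
    rintro _ ⟨y, hy, rfl⟩
    exact contDiffAt_Lg (j := (X y, a y, b y)) (hg y hy)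
  obtain ⟨δ0, h0, h⟩ := uniform_taylor hc hd hε
  refine ⟨δ0, h0, fun y hy X' a' b' δ hδ h1 h2 h3 => ?_⟩
  have h4 : ‖((X', a', b') : C3 × C3 × C3) - (X y, a y, b y)‖ ≤ δ := by
    simp only [Prod.mk_sub_mk, Prod.norm_mk]
    exact max_le h1 (max_le h2 h3)
  have h5 := h (X y, a y, b y) ⟨y, hy, rfl⟩ (X', a', b') (h4.trans hδ)
  rw [fderiv_Lg (j := (X y, a y, b y)) (hg y hy)] at h5
  exact h5.trans (mul_le_mul_of_nonneg_left h4 hε.le)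

/-- uniform continuity of the Lagrangian along a compact family of jets -/
lemma Lag_cont {Y : Type*} [TopologicalSpace Y] {K : Set Y} (hK : IsCompact K) {X a b : Y → C3}
    (hX : ContinuousOn X K) (ha : ContinuousOn a K) (hb : ContinuousOn b K)
    (hg : ∀ y ∈ K, gram (a y) (b y) ∈ slitPlane) {ε : ℝ} (hε : 0 < ε) :
    ∃ δ > 0, ∀ y ∈ K, ∀ X' a' b' : C3, ‖X' - X y‖ ≤ δ → ‖a' - a y‖ ≤ δ →
      ‖b' - b y‖ ≤ δ → ‖Lag X' a' b' - Lag (X y) (a y) (b y)‖ ≤ ε := by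
  have hc : IsCompact ((fun y => ((X y, a y, b y) : C3 × C3 × C3)) '' K) :=
    hK.image_of_continuousOn (hX.prodMk (ha.prodMk hb))
  have hd : ∀ j ∈ (fun y => ((X y, a y, b y) : C3 × C3 × C3)) '' K, ContinuousAt Lg j := by
    rintro _ ⟨y, hy, rfl⟩
    exact (contDiffAt_Lg (n := 0) (j := (X y, a y, b y)) (hg y hy)).continuousAt
  obtain ⟨δ, h0, h⟩ := Metric.mem_uniformity_dist.1 (hc.uniformContinuousAt_of_continuousAt Lg
    hd (Metric.dist_mem_uniformity hε))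
  refine ⟨δ / 2, half_pos h0, fun y hy X' a' b' h1 h2 h3 => ?_⟩
  have h4 : dist ((X y, a y, b y) : C3 × C3 × C3) (X', a', b') < δ := by
    rw [dist_comm, dist_eq_norm]
    simp only [Prod.mk_sub_mk, Prod.norm_mk]
    exact (max_le h1 (max_le h2 h3)).trans_lt (half_lt_self h0)
  have h5 : dist (Lg (X y, a y, b y)) (Lg (X', a', b')) < ε := h h4 ⟨y, hy, rfl⟩
  rw [dist_comm, dist_eq_norm] at h5
  exact h5.le

/-! ### The core -/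

variable {M : Type*} [TopologicalSpace M] [ChartedSpace E2 M] [RSm E2 M] [T2Space M]
  [CompactSpace M] [MeasurableSpace M] [BorelSpace M]

/-- the one-jets of `X'` and `X` are `δ`-close on `K`, in the charts of a cover -/
def JetClose (𝒞 : Cov E2 M) (K : Set M) (X' X : M → C3) (δ : ℝ) : Prop :=
  ∀ i, ∀ y ∈ ball (𝒞.c i) (𝒞.r i), (𝒞.e i).symm y ∈ K →
    ‖cX (𝒞.e i) X' y - cX (𝒞.e i) X y‖ ≤ δ ∧
      ‖pd (cX (𝒞.e i) X') u1 y - pd (cX (𝒞.e i) X) u1 y‖ ≤ δ ∧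
      ‖pd (cX (𝒞.e i) X') u2 y - pd (cX (𝒞.e i) X) u2 y‖ ≤ δ

variable {Ω K : Set M} {F X : M → C3} {μ : Measure M}

lemma isCompact_piece (𝒞 : Cov E2 M) (hK : IsCompact K) (i : Fin 𝒞.N) :
    IsCompact (closedBall (𝒞.c i) (𝒞.r i) ∩ (𝒞.e i).symm ⁻¹' K) := by
  have hr := 𝒞.r_pos i
  have hs : closedBall (𝒞.c i) (𝒞.r i) ⊆ (𝒞.e i).target :=
    (closedBall_subset_closedBall (by linarith)).trans (𝒞.sub i)
  exact (isCompact_closedBall _ _).of_isClosed_subset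
    (((𝒞.e i).continuousOn_symm.mono hs).preimage_isClosed_of_isClosed isClosed_closedBall
      hK.isClosed) inter_subset_left

lemma core_aux (𝒞 : Cov E2 M) (hK : IsCompact K) (hF : ∀ x ∈ K, Imm F x) :
    ∃ C > 0, ∀ i, ∀ x ∈ K, x ∈ (𝒞.e i).source → 𝒞.e i x ∈ ball (𝒞.c i) (𝒞.r i) →
      ‖(LagF u1 u2 (cX (𝒞.e i) F) (𝒞.e i x))⁻¹‖ ≤ C := by
  have h : ∀ i, ∃ C, ∀ y ∈ closedBall (𝒞.c i) (𝒞.r i) ∩ (𝒞.e i).symm ⁻¹' K,
      ‖(LagF u1 u2 (cX (𝒞.e i) F) y)⁻¹‖ ≤ C := fun i => by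
    have hr := 𝒞.r_pos i
    have hs : closedBall (𝒞.c i) (𝒞.r i) ⊆ (𝒞.e i).target :=
      (closedBall_subset_closedBall (by linarith)).trans (𝒞.sub i)
    refine (isCompact_piece 𝒞 hK i).exists_bound_of_continuousOn (ContinuousOn.inv₀
      (continuousOn_LagF (fun y hy => ((hF _ hy.2).ck.at_target (𝒞.mem i) (hs hy.1)).of_le
        (by norm_num)) fun y hy => (hF _ hy.2).slit_target (𝒞.mem i) (hs hy.1)) fun y hy => ?_)
    have := (hF _ hy.2).lag_ne (𝒞.mem i) ((𝒞.e i).map_target (hs hy.1))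
    rwa [(𝒞.e i).right_inv (hs hy.1)] at this
  choose C hC using h
  obtain ⟨C0, h0, h1⟩ := Cov.exists_le_all C
  refine ⟨C0 + 1, by linarith, fun i x hx hx1 hx2 => ((hC i _ ⟨ball_subset_closedBall hx2, ?_⟩).trans
    (h1 i)).trans (by linarith)⟩
  rwa [mem_preimage, (𝒞.e i).left_inv hx1]

lemma piece_cont (𝒞 : Cov E2 M) (hX : ∀ x ∈ K, Imm X x) (i : Fin 𝒞.N) :
    ContinuousOn (cX (𝒞.e i) X) (closedBall (𝒞.c i) (𝒞.r i) ∩ (𝒞.e i).symm ⁻¹' K) ∧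
    (∀ v, ContinuousOn (pd (cX (𝒞.e i) X) v)
      (closedBall (𝒞.c i) (𝒞.r i) ∩ (𝒞.e i).symm ⁻¹' K)) ∧
    ∀ y ∈ closedBall (𝒞.c i) (𝒞.r i) ∩ (𝒞.e i).symm ⁻¹' K,
      gram (pd (cX (𝒞.e i) X) u1 y) (pd (cX (𝒞.e i) X) u2 y) ∈ slitPlane := by
  have hr := 𝒞.r_pos i
  have hs : closedBall (𝒞.c i) (𝒞.r i) ⊆ (𝒞.e i).target :=
    (closedBall_subset_closedBall (by linarith)).trans (𝒞.sub i)
  exact ⟨fun y hy =>
    ((hX _ hy.2).ck.at_target (𝒞.mem i) (hs hy.1)).continuousAt.continuousWithinAt,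
    fun v => continuousOn_pd (fun y hy => ((hX _ hy.2).ck.at_target (𝒞.mem i) (hs hy.1)).of_le
      (by norm_num)) v, fun y hy => (hX _ hy.2).slit_target (𝒞.mem i) (hs hy.1)⟩

lemma pd_sub {D : Type*} [NormedAddCommGroup D] [NormedSpace ℝ D] {G : Type*}
    [NormedAddCommGroup G] [NormedSpace ℝ G] {X X' : D → G} {x : D}
    (hX : DifferentiableAt ℝ X x) (hX' : DifferentiableAt ℝ X' x) (v : D) :
    pd (fun y => X y - X' y) v x = pd X v x - pd X' v x := by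
  unfold pd; rw [fderiv_fun_sub hX hX']; rfl

theorem core_taylor (𝒞 : Cov E2 M) (hK : IsCompact K) (hF : ∀ x ∈ K, Imm F x)
    (hX : ∀ x ∈ K, Imm X x) {ε : ℝ} (hε : 0 < ε) :
    ∃ δ0 > 0, ∀ X' : M → C3, ∀ δ ≤ δ0, (∀ x ∈ K, CkAt 1 X' x) → JetClose 𝒞 K X' X δ →
      ∀ x ∈ K, ‖LagM F X' x - LagM F X x - dLagM F X (fun z => X' z - X z) x‖ ≤ ε * δ := by
  obtain ⟨C, hC, h1⟩ := core_aux 𝒞 hK hF
  have h2 := fun i => Lag_taylor (isCompact_piece 𝒞 hK i) (piece_cont 𝒞 hX i).1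
    ((piece_cont 𝒞 hX i).2.1 u1) ((piece_cont 𝒞 hX i).2.1 u2) (piece_cont 𝒞 hX i).2.2
    (div_pos hε hC)
  choose δ1 hδ1 h2 using h2
  obtain ⟨δ0, hδ0, h3⟩ := Cov.exists_pos_le δ1 hδ1
  refine ⟨δ0, hδ0, fun X' δ hδ hX' hc x hx => ?_⟩
  obtain ⟨i, hx1, hx2⟩ := 𝒞.cover x
  have hx3 : (𝒞.e i).symm (𝒞.e i x) ∈ K := by rwa [(𝒞.e i).left_inv hx1]
  have hX1 : CkAt 1 X x := (hX x hx).ck.of_le (by norm_num)
  obtain ⟨c0, c1, c2⟩ := hc i _ hx2 hx3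
  have h4 := h2 i _ ⟨ball_subset_closedBall hx2, hx3⟩ _ _ _ δ (hδ.trans (h3 i)) c0 c1 c2
  have e1 := LagM_chart (hF x hx) (hX' x hx) (𝒞.mem i) hx1
  have e2 := LagM_chart (hF x hx) hX1 (𝒞.mem i) hx1
  have e3 := dLagM_chart (X := X) (hF x hx) hX1 ((hX' x hx).sub hX1) (𝒞.mem i) hx1
  have d1 := (hX' x hx _ (𝒞.mem i) hx1).differentiableAt one_ne_zero
  have d2 := (hX1 _ (𝒞.mem i) hx1).differentiableAt one_ne_zero
  have hne := (hF x hx).lag_ne (𝒞.mem i) hx1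
  have e4 : dLagF u1 u2 (cX (𝒞.e i) X) (cX (𝒞.e i) fun z => X' z - X z) (𝒞.e i x) =
      dLag (cX (𝒞.e i) X (𝒞.e i x)) (pd (cX (𝒞.e i) X) u1 (𝒞.e i x))
        (pd (cX (𝒞.e i) X) u2 (𝒞.e i x)) (cX (𝒞.e i) X' (𝒞.e i x) - cX (𝒞.e i) X (𝒞.e i x))
        (pd (cX (𝒞.e i) X') u1 (𝒞.e i x) - pd (cX (𝒞.e i) X) u1 (𝒞.e i x))
        (pd (cX (𝒞.e i) X') u2 (𝒞.e i x) - pd (cX (𝒞.e i) X) u2 (𝒞.e i x)) := by
    rw [← pd_sub d1 d2, ← pd_sub d1 d2]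
    rfl
  rw [← e4] at h4
  change ‖LagF u1 u2 (cX (𝒞.e i) X') (𝒞.e i x) - LagF u1 u2 (cX (𝒞.e i) X) (𝒞.e i x) - _‖ ≤ _ at h4
  rw [← e1, ← e2, ← e3, ← sub_mul, ← sub_mul] at h4
  have hδ' : 0 ≤ δ := (norm_nonneg _).trans c0
  calc _ = ‖(LagM F X' x - LagM F X x - dLagM F X (fun z => X' z - X z) x) *
        LagF u1 u2 (cX (𝒞.e i) F) (𝒞.e i x) * (LagF u1 u2 (cX (𝒞.e i) F) (𝒞.e i x))⁻¹‖ := by
        rw [mul_inv_cancel_right₀ hne]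
    _ ≤ ε / C * δ * C := by
        rw [norm_mul]
        exact mul_le_mul h4 (h1 i x hx hx1 hx2) (norm_nonneg _) (by positivity)
    _ = ε * δ := by field_simp

theorem core_cont (𝒞 : Cov E2 M) (hK : IsCompact K) (hF : ∀ x ∈ K, Imm F x)
    (hX : ∀ x ∈ K, Imm X x) {ε : ℝ} (hε : 0 < ε) :
    ∃ δ > 0, ∀ X' : M → C3, (∀ x ∈ K, CkAt 1 X' x) → JetClose 𝒞 K X' X δ →
      ∀ x ∈ K, ‖LagM F X' x - LagM F X x‖ ≤ ε := by
  obtain ⟨C, hC, h1⟩ := core_aux 𝒞 hK hF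
  have h2 := fun i => Lag_cont (isCompact_piece 𝒞 hK i) (piece_cont 𝒞 hX i).1
    ((piece_cont 𝒞 hX i).2.1 u1) ((piece_cont 𝒞 hX i).2.1 u2) (piece_cont 𝒞 hX i).2.2
    (div_pos hε hC)
  choose δ1 hδ1 h2 using h2
  obtain ⟨δ0, hδ0, h3⟩ := Cov.exists_pos_le δ1 hδ1
  refine ⟨δ0, hδ0, fun X' hX' hc x hx => ?_⟩
  obtain ⟨i, hx1, hx2⟩ := 𝒞.cover x
  have hx3 : (𝒞.e i).symm (𝒞.e i x) ∈ K := by rwa [(𝒞.e i).left_inv hx1]
  have hX1 : CkAt 1 X x := (hX x hx).ck.of_le (by norm_num)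
  obtain ⟨c0, c1, c2⟩ := hc i _ hx2 hx3
  have h4 := h2 i _ ⟨ball_subset_closedBall hx2, hx3⟩ _ _ _ (c0.trans (h3 i)) (c1.trans (h3 i))
    (c2.trans (h3 i))
  have e1 := LagM_chart (hF x hx) (hX' x hx) (𝒞.mem i) hx1
  have e2 := LagM_chart (hF x hx) hX1 (𝒞.mem i) hx1
  have hne := (hF x hx).lag_ne (𝒞.mem i) hx1
  change ‖LagF u1 u2 (cX (𝒞.e i) X') (𝒞.e i x) - LagF u1 u2 (cX (𝒞.e i) X) (𝒞.e i x)‖ ≤ _ at h4
  rw [← e1, ← e2, ← sub_mul] at h4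
  calc _ = ‖(LagM F X' x - LagM F X x) *
        LagF u1 u2 (cX (𝒞.e i) F) (𝒞.e i x) * (LagF u1 u2 (cX (𝒞.e i) F) (𝒞.e i x))⁻¹‖ := by
        rw [mul_inv_cancel_right₀ hne]
    _ ≤ ε / C * C := by
        rw [norm_mul]
        exact mul_le_mul h4 (h1 i x hx hx1 hx2) (norm_nonneg _) (by positivity)
    _ = ε := by field_simp

end Vale.Agent.P218VA
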